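import Vale.Agent.Lib.P150.Slow.Base
import Vale.Agent.Lib.P150.Stein

/-!
P150, low temperature part, module S6: the cavity inequality.
-/

namespace Vale.Agent.P150.Slow

open MeasureTheory ProbabilityTheory Filter Topology Vale.Agent.P150

variable {n : ℕ}

/-! ### elementary inequalities -/

/-- `cosh (c R) - 1 ≤ (cosh c - 1) R²` for `|R| ≤ 1` -/
theorem cav_cosh (c R : ℝ) (hR : R ^ 2 ≤ 1) :
    Real.cosh (c * R) - 1 ≤ (Real.cosh c - 1) * R ^ 2 := by
  have h1 := Real.hasSum_cosh (c * R)
  have h2 := (Real.hasSum_cosh c).mul_left (R ^ 2)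
  have h3 : HasSum (fun k : ℕ => if k = 0 then (1 - R ^ 2) else 0) (1 - R ^ 2) :=
    hasSum_ite_eq 0 (1 - R ^ 2)
  have h4 := h2.add h3
  have h5 : Real.cosh (c * R) ≤ R ^ 2 * Real.cosh c + (1 - R ^ 2) := by
    refine hasSum_le (fun k => ?_) h1 h4
    rcases Nat.eq_zero_or_pos k with hk | hk
    · subst hk
      simp
    · rw [if_neg hk.ne', add_zero, mul_pow, ← mul_div_assoc]
      apply div_le_div_of_nonneg_right _ (by positivity)
      have h6 : R ^ (2 * k) ≤ R ^ 2 := by
        rw [pow_mul]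
        exact pow_le_of_le_one (sq_nonneg R) hR hk.ne'
      have h7 : 0 ≤ c ^ (2 * k) := by
        rw [pow_mul]; positivity
      nlinarith
  linarith

/-- second order lower bound for the logarithm -/
theorem cav_log {m X : ℝ} (hm : 1 ≤ m) (hX : 1 ≤ X) :
    Real.log m + (X / m - 1) - m * (X / m - 1) ^ 2 ≤ Real.log X := by
  have hm0 : 0 < m := by linarith
  have hX0 : 0 < X := by linarith
  set u := X / m with hu
  have hu0 : 0 < u := div_pos hX0 hm0
  have h1 : Real.log X = Real.log m + Real.log u := by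
    rw [hu, Real.log_div hX0.ne' hm0.ne']
    ring
  have h2 := Real.one_sub_inv_le_log_of_pos hu0
  have h3 : u⁻¹ ≤ m := by
    rw [hu, inv_div, div_le_iff₀ hX0]
    nlinarith
  have h4 : 1 - u⁻¹ = (u - 1) - u⁻¹ * (u - 1) ^ 2 := by
    field_simp
    ring
  have h5 : u⁻¹ * (u - 1) ^ 2 ≤ m * (u - 1) ^ 2 := mul_le_mul_of_nonneg_right h3 (sq_nonneg _)
  linarith

/-! ### Gaussian integrals -/

theorem cav_integral_exp {ι : Type*} [Fintype ι] (c : ι → ℝ) :
    ∫ y : ι → ℝ, Real.exp (∑ i, c i * y i) ∂(stdG ι) = Real.exp ((∑ i, c i ^ 2) / 2) := by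
  have h1 : ∀ y : ι → ℝ, Real.exp (∑ i, c i * y i) = ∏ i, Real.exp (c i * y i) := fun y => by
    rw [Real.exp_sum]
  simp only [h1]
  rw [integral_fintype_prod_eq_prod (fun i (x : ℝ) => Real.exp (c i * x))]
  have h2 : ∀ i, ∫ x : ℝ, Real.exp (c i * x) ∂(gaussianReal 0 1) = Real.exp (c i ^ 2 / 2) := by
    intro i
    have h := mgf_gaussianReal (p := gaussianReal 0 1) (X := id) (μ := 0) (v := 1)
      (by simp) (c i)
    rw [mgf] at h
    simpa using h
  simp_rw [h2]
  rw [← Real.exp_sum, Finset.sum_div]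

theorem cav_integrable_exp {ι : Type*} [Fintype ι] (c : ι → ℝ) :
    Integrable (fun y : ι → ℝ => Real.exp (∑ i, c i * y i)) (stdG ι) := by
  have h := Integrable.fintype_prod (ι := ι) (𝕜 := ℝ) (f := fun i (x : ℝ) => Real.exp (c i * x))
    (μ := fun _ => gaussianReal 0 1) (fun i => integrable_exp_mul_gaussianReal (c i))
  refine h.congr (Filter.Eventually.of_forall fun x => ?_)
  simp only [Real.exp_sum]

theorem cav_integrable_cosh {ι : Type*} [Fintype ι] (c : ι → ℝ) :
    Integrable (fun y : ι → ℝ => Real.cosh (∑ i, c i * y i)) (stdG ι) := by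
  have h1 := cav_integrable_exp c
  have h2 := cav_integrable_exp (fun i => -c i)
  refine ((h1.add h2).div_const 2).congr (Filter.Eventually.of_forall fun y => ?_)
  simp only [Pi.add_apply]
  rw [Real.cosh_eq]
  congr 3
  rw [← Finset.sum_neg_distrib]
  exact Finset.sum_congr rfl fun i _ => by ring

theorem cav_integral_cosh {ι : Type*} [Fintype ι] (c : ι → ℝ) :
    ∫ y : ι → ℝ, Real.cosh (∑ i, c i * y i) ∂(stdG ι) = Real.exp ((∑ i, c i ^ 2) / 2) := by
  have h1 := cav_integral_exp c
  have h2 := cav_integral_exp (fun i => -c i)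
  have e : ∀ y : ι → ℝ, Real.cosh (∑ i, c i * y i) =
      (Real.exp (∑ i, c i * y i) + Real.exp (∑ i, -c i * y i)) / 2 := by
    intro y
    rw [Real.cosh_eq]
    congr 3
    rw [← Finset.sum_neg_distrib]
    exact Finset.sum_congr rfl fun i _ => by ring
  simp_rw [e]
  rw [integral_div, integral_add (cav_integrable_exp c) (cav_integrable_exp _), h1, h2]
  simp only [neg_sq]
  ring

theorem cav_cosh_mul (A B : ℝ) :
    Real.cosh A * Real.cosh B = (Real.cosh (A + B) + Real.cosh (A - B)) / 2 := by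
  rw [Real.cosh_add, Real.cosh_sub]
  ring

/-! ### the inequality for a fixed disorder -/

/-- the cavity field factor -/
noncomputable def cavX (a : ℝ) (G : Config n → ℝ) (y : Fin n → ℝ) : ℝ :=
  ∑ x : Config n, G x * Real.cosh (a * ∑ i, y i * spin (x i))

theorem cavX_one_le (a : ℝ) {G : Config n → ℝ} (hG : ∀ x, 0 ≤ G x) (hs : ∑ x, G x = 1)
    (y : Fin n → ℝ) : 1 ≤ cavX a G y := by
  rw [← hs]
  refine Finset.sum_le_sum fun x _ => ?_
  have := Real.one_le_cosh (a * ∑ i, y i * spin (x i))
  nlinarith [hG x]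

theorem cavX_le (a : ℝ) {G : Config n → ℝ} (hG : ∀ x, 0 ≤ G x) (hs : ∑ x, G x = 1)
    (y : Fin n → ℝ) : cavX a G y ≤ Real.exp (|a| * ∑ i, |y i|) := by
  have h : ∀ x : Config n, G x * Real.cosh (a * ∑ i, y i * spin (x i)) ≤
      G x * Real.exp (|a| * ∑ i, |y i|) := by
    intro x
    apply mul_le_mul_of_nonneg_left _ (hG x)
    have h1 : |a * ∑ i, y i * spin (x i)| ≤ |a| * ∑ i, |y i| := by
      rw [abs_mul]
      apply mul_le_mul_of_nonneg_left _ (abs_nonneg a)
      refine (Finset.abs_sum_le_sum_abs _ _).trans (Finset.sum_le_sum fun i _ => ?_)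
      rw [abs_mul, abs_spin, mul_one]
    calc Real.cosh (a * ∑ i, y i * spin (x i)) = Real.cosh |a * ∑ i, y i * spin (x i)| :=
          (Real.cosh_abs _).symm
      _ ≤ Real.exp |a * ∑ i, y i * spin (x i)| := by
          rw [Real.cosh_eq]
          have := Real.exp_le_exp.2 (neg_le_self (abs_nonneg (a * ∑ i, y i * spin (x i))))
          linarith
      _ ≤ _ := Real.exp_le_exp.2 h1
  calc cavX a G y ≤ ∑ x, G x * Real.exp (|a| * ∑ i, |y i|) := Finset.sum_le_sum fun x _ => h x
    _ = Real.exp (|a| * ∑ i, |y i|) := by rw [← Finset.sum_mul, hs, one_mul]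

theorem cav_term_eq (a : ℝ) (x : Config n) (y : Fin n → ℝ) :
    a * ∑ i, y i * spin (x i) = ∑ i, (a * spin (x i)) * y i := by
  rw [Finset.mul_sum]
  exact Finset.sum_congr rfl fun i _ => by ring

theorem cav_sum_sq (a : ℝ) (x : Config n) : ∑ i, (a * spin (x i)) ^ 2 = a ^ 2 * n := by
  simp [mul_pow, spin_sq, mul_comm]

theorem cav_integrable_term (a : ℝ) (x : Config n) :
    Integrable (fun y : Fin n → ℝ => Real.cosh (a * ∑ i, y i * spin (x i))) (stdG (Fin n)) := by
  simp_rw [cav_term_eq]
  exact cav_integrable_cosh _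

theorem cav_integral_term (a : ℝ) (x : Config n) :
    ∫ y : Fin n → ℝ, Real.cosh (a * ∑ i, y i * spin (x i)) ∂(stdG (Fin n)) =
      Real.exp (a ^ 2 * n / 2) := by
  simp_rw [cav_term_eq]
  rw [cav_integral_cosh, cav_sum_sq]

theorem cav_term_mul (a : ℝ) (x x' : Config n) (y : Fin n → ℝ) :
    Real.cosh (a * ∑ i, y i * spin (x i)) * Real.cosh (a * ∑ i, y i * spin (x' i)) =
      (Real.cosh (∑ i, (a * (spin (x i) + spin (x' i))) * y i) +
        Real.cosh (∑ i, (a * (spin (x i) - spin (x' i))) * y i)) / 2 := by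
  have e1 : a * ∑ i, y i * spin (x i) + a * ∑ i, y i * spin (x' i) =
      ∑ i, (a * (spin (x i) + spin (x' i))) * y i := by
    rw [Finset.mul_sum, Finset.mul_sum, ← Finset.sum_add_distrib]
    exact Finset.sum_congr rfl fun i _ => by ring
  have e2 : a * ∑ i, y i * spin (x i) - a * ∑ i, y i * spin (x' i) =
      ∑ i, (a * (spin (x i) - spin (x' i))) * y i := by
    rw [Finset.mul_sum, Finset.mul_sum, ← Finset.sum_sub_distrib]
    exact Finset.sum_congr rfl fun i _ => by ring
  rw [cav_cosh_mul, e1, e2]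

theorem cav_integrable_mul (a : ℝ) (x x' : Config n) :
    Integrable (fun y : Fin n → ℝ => Real.cosh (a * ∑ i, y i * spin (x i)) *
      Real.cosh (a * ∑ i, y i * spin (x' i))) (stdG (Fin n)) := by
  simp_rw [cav_term_mul]
  exact ((cav_integrable_cosh _).add (cav_integrable_cosh _)).div_const 2

theorem cav_sum_ovl (hn : 1 ≤ n) (x x' : Config n) :
    ∑ i, spin (x i) * spin (x' i) = n * ovl x x' := by
  have : (n : ℝ) ≠ 0 := by positivity
  unfold ovl
  field_simp

theorem cav_integral_mul (hn : 1 ≤ n) {a b : ℝ} (hab : a ^ 2 * n = b ^ 2) (x x' : Config n) :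
    ∫ y : Fin n → ℝ, Real.cosh (a * ∑ i, y i * spin (x i)) *
      Real.cosh (a * ∑ i, y i * spin (x' i)) ∂(stdG (Fin n)) =
      Real.exp (b ^ 2) * Real.cosh (b ^ 2 * ovl x x') := by
  simp_rw [cav_term_mul]
  rw [integral_div, integral_add (cav_integrable_cosh _) (cav_integrable_cosh _),
    cav_integral_cosh, cav_integral_cosh]
  have h1 : ∑ i, (a * (spin (x i) + spin (x' i))) ^ 2 = 2 * b ^ 2 + 2 * b ^ 2 * ovl x x' := by
    have : ∀ i, (a * (spin (x i) + spin (x' i))) ^ 2 =
        2 * a ^ 2 + 2 * a ^ 2 * (spin (x i) * spin (x' i)) := by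
      intro i
      have h1 := spin_sq (x i)
      have h2 := spin_sq (x' i)
      nlinarith
    simp_rw [this]
    rw [Finset.sum_add_distrib, Finset.sum_const, ← Finset.mul_sum, cav_sum_ovl hn, ← hab]
    simp
    ring
  have h2 : ∑ i, (a * (spin (x i) - spin (x' i))) ^ 2 = 2 * b ^ 2 - 2 * b ^ 2 * ovl x x' := by
    have : ∀ i, (a * (spin (x i) - spin (x' i))) ^ 2 =
        2 * a ^ 2 - 2 * a ^ 2 * (spin (x i) * spin (x' i)) := by
      intro i
      have h1 := spin_sq (x i)
      have h2 := spin_sq (x' i)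
      nlinarith
    simp_rw [this]
    rw [Finset.sum_sub_distrib, Finset.sum_const, ← Finset.mul_sum, cav_sum_ovl hn, ← hab]
    simp
    ring
  rw [h1, h2, Real.cosh_eq]
  have e1 : Real.exp ((2 * b ^ 2 + 2 * b ^ 2 * ovl x x') / 2) =
      Real.exp (b ^ 2) * Real.exp (b ^ 2 * ovl x x') := by
    rw [← Real.exp_add]; congr 1; ring
  have e2 : Real.exp ((2 * b ^ 2 - 2 * b ^ 2 * ovl x x') / 2) =
      Real.exp (b ^ 2) * Real.exp (-(b ^ 2 * ovl x x')) := by
    rw [← Real.exp_add]; congr 1; ring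
  rw [e1, e2]
  ring

theorem cav_ovl_sq_le (x x' : Config n) : ovl x x' ^ 2 ≤ 1 := by
  have h1 : |∑ i, spin (x i) * spin (x' i)| ≤ n := by
    refine (Finset.abs_sum_le_sum_abs _ _).trans ?_
    simp [abs_mul, abs_spin]
  rw [sq_le_one_iff_abs_le_one]
  unfold ovl
  rw [abs_div, Nat.abs_cast]
  exact div_le_one_of_le₀ h1 (Nat.cast_nonneg n)

theorem cav_continuous_X (a : ℝ) (G : Config n → ℝ) : Continuous (cavX a G) := by
  unfold cavX
  refine continuous_finsetSum _ fun x _ => ?_
  fun_prop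

theorem cav_sq_eq (a : ℝ) (G : Config n → ℝ) (y : Fin n → ℝ) : cavX a G y ^ 2 =
    ∑ x, ∑ x', G x * G x' * (Real.cosh (a * ∑ i, y i * spin (x i)) *
      Real.cosh (a * ∑ i, y i * spin (x' i))) := by
  unfold cavX
  rw [sq, Finset.sum_mul_sum]
  refine Finset.sum_congr rfl fun x _ => Finset.sum_congr rfl fun x' _ => by ring

theorem cav_fixed (hn : 1 ≤ n) {a b : ℝ} (hab : a ^ 2 * n = b ^ 2) {G : Config n → ℝ}
    (hG : ∀ x, 0 ≤ G x) (hs : ∑ x, G x = 1) :
    b ^ 2 / 2 - Real.exp (b ^ 2 / 2) * ((Real.cosh (b ^ 2) - 1) *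
      ∑ x, ∑ x', G x * G x' * ovl x x' ^ 2) ≤
      ∫ y : Fin n → ℝ, Real.log (cavX a G y) ∂(stdG (Fin n)) := by
  set m := Real.exp (b ^ 2 / 2) with hm
  have hm1 : 1 ≤ m := Real.one_le_exp (by positivity)
  have hm0 : 0 < m := by linarith
  have hlogm : Real.log m = b ^ 2 / 2 := Real.log_exp _
  have hmm : m ^ 2 = Real.exp (b ^ 2) := by
    rw [hm, ← Real.exp_nat_mul]
    congr 1
    push_cast
    ring
  have hX1 : Integrable (cavX a G) (stdG (Fin n)) :=
    integrable_finsetSum _ fun x _ => (cav_integrable_term a x).const_mul (G x)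
  have hX2 : Integrable (fun y => cavX a G y ^ 2) (stdG (Fin n)) := by
    simp_rw [cav_sq_eq]
    exact integrable_finsetSum _ fun x _ => integrable_finsetSum _ fun x' _ =>
      (cav_integrable_mul a x x').const_mul _
  have hE1 : ∫ y, cavX a G y ∂(stdG (Fin n)) = m := by
    unfold cavX
    rw [integral_finsetSum _ fun x _ => (cav_integrable_term a x).const_mul (G x)]
    simp_rw [integral_const_mul, cav_integral_term, hab]
    rw [← Finset.sum_mul, hs, one_mul]
  have hE2 : ∫ y, cavX a G y ^ 2 ∂(stdG (Fin n)) =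
      m ^ 2 * ∑ x, ∑ x', G x * G x' * Real.cosh (b ^ 2 * ovl x x') := by
    simp_rw [cav_sq_eq]
    rw [integral_finsetSum _ fun x _ => integrable_finsetSum _ fun x' _ =>
      (cav_integrable_mul a x x').const_mul _]
    rw [Finset.mul_sum]
    refine Finset.sum_congr rfl fun x _ => ?_
    rw [integral_finsetSum _ fun x' _ => (cav_integrable_mul a x x').const_mul _, Finset.mul_sum]
    refine Finset.sum_congr rfl fun x' _ => ?_
    rw [integral_const_mul, cav_integral_mul hn hab, hmm]
    ring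
  have hlog : Integrable (fun y => Real.log (cavX a G y)) (stdG (Fin n)) := by
    have hmeas : Measurable fun y => Real.log (cavX a G y) :=
      Real.measurable_log.comp (cav_continuous_X a G).measurable
    refine (integrable_exp_sum_abs |a|).mono' hmeas.aestronglyMeasurable
      (Filter.Eventually.of_forall fun y => ?_)
    have h1 := cavX_one_le a hG hs y
    have h2 := cavX_le a hG hs y
    rw [Real.norm_eq_abs, abs_of_nonneg (Real.log_nonneg h1)]
    exact (Real.log_le_self (by linarith)).trans h2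
  set S := ∑ x, ∑ x', G x * G x' * Real.cosh (b ^ 2 * ovl x x') with hS
  have hlow : ∫ y, (b ^ 2 / 2 + (cavX a G y / m - 1) - m * (cavX a G y / m - 1) ^ 2)
      ∂(stdG (Fin n)) ≤ ∫ y : Fin n → ℝ, Real.log (cavX a G y) ∂(stdG (Fin n)) := by
    refine integral_mono ?_ hlog fun y => ?_
    · have e : (fun y => (b ^ 2 / 2 + (cavX a G y / m - 1) - m * (cavX a G y / m - 1) ^ 2)) =
          fun y => (b ^ 2 / 2 - 1 - m) + (1 / m + 2) * cavX a G y -
            (1 / m) * cavX a G y ^ 2 := by
        funext y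
        field_simp
        ring
      rw [e]
      exact ((integrable_const _).add (hX1.const_mul _)).sub (hX2.const_mul _)
    · have := cav_log hm1 (cavX_one_le a hG hs y)
      rw [hlogm] at this
      exact this
  have hval : ∫ y, (b ^ 2 / 2 + (cavX a G y / m - 1) - m * (cavX a G y / m - 1) ^ 2)
      ∂(stdG (Fin n)) = b ^ 2 / 2 - m * (S - 1) := by
    have e : (fun y => (b ^ 2 / 2 + (cavX a G y / m - 1) - m * (cavX a G y / m - 1) ^ 2)) =
          fun y => (b ^ 2 / 2 - 1 - m) + (1 / m + 2) * cavX a G y -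
            (1 / m) * cavX a G y ^ 2 := by
      funext y
      field_simp
      ring
    have hI1 : Integrable (fun y => (b ^ 2 / 2 - 1 - m) + (1 / m + 2) * cavX a G y)
        (stdG (Fin n)) := (integrable_const _).add (hX1.const_mul _)
    rw [e, integral_sub hI1 (hX2.const_mul _),
      integral_add (integrable_const _) (hX1.const_mul _), integral_const_mul,
      integral_const_mul, hE1, hE2]
    simp
    field_simp
    ring
  have hSle : S - 1 ≤ (Real.cosh (b ^ 2) - 1) * ∑ x, ∑ x', G x * G x' * ovl x x' ^ 2 := by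
    have h1 : (1 : ℝ) = ∑ x, ∑ x', G x * G x' := by
      rw [← Finset.sum_mul_sum, hs, one_mul]
    have h2 : S - 1 = ∑ x, ∑ x', G x * G x' * (Real.cosh (b ^ 2 * ovl x x') - 1) := by
      rw [hS]
      nth_rewrite 1 [h1]
      rw [← Finset.sum_sub_distrib]
      refine Finset.sum_congr rfl fun x _ => ?_
      rw [← Finset.sum_sub_distrib]
      exact Finset.sum_congr rfl fun x' _ => by ring
    rw [h2, Finset.mul_sum]
    refine Finset.sum_le_sum fun x _ => ?_
    rw [Finset.mul_sum]
    refine Finset.sum_le_sum fun x' _ => ?_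
    have h3 := cav_cosh (b ^ 2) (ovl x x') (cav_ovl_sq_le x x')
    have h4 : 0 ≤ G x * G x' := mul_nonneg (hG x) (hG x')
    calc G x * G x' * (Real.cosh (b ^ 2 * ovl x x') - 1)
        ≤ G x * G x' * ((Real.cosh (b ^ 2) - 1) * ovl x x' ^ 2) :=
          mul_le_mul_of_nonneg_left h3 h4
      _ = _ := by ring
  have h5 : m * (S - 1) ≤ m * ((Real.cosh (b ^ 2) - 1) *
      ∑ x, ∑ x', G x * G x' * ovl x x' ^ 2) := mul_le_mul_of_nonneg_left hSle hm0.le
  linarith

/-! ### splitting the disorder -/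

/-- pairs of `n + 1` sites: pairs of the first `n` sites, and pairs with the last site -/
def cavF (n : ℕ) : Pair n ⊕ Fin n → Pair (n + 1)
  | Sum.inl p => ⟨(p.1.1.castSucc, p.1.2.castSucc), Fin.castSucc_lt_castSucc_iff.2 p.2⟩
  | Sum.inr i => ⟨(i.castSucc, Fin.last n), Fin.castSucc_lt_last i⟩

theorem cavF_bijective (n : ℕ) : Function.Bijective (cavF n) := by
  constructor
  · rintro (⟨⟨i, j⟩, h⟩ | i) (⟨⟨i', j'⟩, h'⟩ | i') e
    · have e1 : (i.castSucc, j.castSucc) = (i'.castSucc, j'.castSucc) := congrArg Subtype.val e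
      obtain ⟨h1, h2⟩ := Prod.mk.inj e1
      obtain rfl := Fin.castSucc_injective n h1
      obtain rfl := Fin.castSucc_injective n h2
      rfl
    · have e1 : (i.castSucc, j.castSucc) = (i'.castSucc, Fin.last n) := congrArg Subtype.val e
      exact absurd (Prod.mk.inj e1).2 (Fin.castSucc_lt_last j).ne
    · have e1 : (i.castSucc, Fin.last n) = (i'.castSucc, j'.castSucc) := congrArg Subtype.val e
      exact absurd (Prod.mk.inj e1).2 (Fin.castSucc_lt_last j').ne'
    · have e1 : (i.castSucc, Fin.last n) = (i'.castSucc, Fin.last n) := congrArg Subtype.val e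
      obtain rfl := Fin.castSucc_injective n (Prod.mk.inj e1).1
      rfl
  · rintro ⟨⟨i, j⟩, h⟩
    have h' : i < j := h
    induction j using Fin.lastCases with
    | last =>
      induction i using Fin.lastCases with
      | last => exact absurd h' (lt_irrefl _)
      | cast i => exact ⟨Sum.inr i, rfl⟩
    | cast j =>
      induction i using Fin.lastCases with
      | last => exact absurd (h'.trans (Fin.castSucc_lt_last j)) (lt_irrefl _)
      | cast i => exact ⟨Sum.inl ⟨(i, j), Fin.castSucc_lt_castSucc_iff.1 h'⟩, rfl⟩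

/-- the equivalence -/
noncomputable def cavE (n : ℕ) : Pair n ⊕ Fin n ≃ Pair (n + 1) :=
  Equiv.ofBijective _ (cavF_bijective n)

/-- the disorder of `n + 1` sites from the two parts -/
noncomputable def cavPhi (z : (Pair n → ℝ) × (Fin n → ℝ)) : Pair (n + 1) → ℝ :=
  fun p => Sum.elim z.1 z.2 ((cavE n).symm p)

theorem cavPhi_apply (z : (Pair n → ℝ) × (Fin n → ℝ)) (q : Pair n ⊕ Fin n) :
    cavPhi z (cavE n q) = Sum.elim z.1 z.2 q := by
  unfold cavPhi
  rw [Equiv.symm_apply_apply]

theorem measurable_cavPhi : Measurable (cavPhi : (Pair n → ℝ) × (Fin n → ℝ) → _) := by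
  refine measurable_pi_iff.2 fun p => ?_
  unfold cavPhi
  rcases (cavE n).symm p with q | i
  · exact (measurable_pi_apply q).comp measurable_fst
  · exact (measurable_pi_apply i).comp measurable_snd

theorem measurePreserving_cavPhi :
    MeasurePreserving (cavPhi : (Pair n → ℝ) × (Fin n → ℝ) → _)
      ((disorder n).prod (stdG (Fin n))) (disorder (n + 1)) := by
  refine ⟨measurable_cavPhi, ?_⟩
  symm
  refine Measure.pi_eq fun s hs => ?_
  rw [Measure.map_apply measurable_cavPhi (MeasurableSet.univ_pi hs)]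
  have hpre : (cavPhi : (Pair n → ℝ) × (Fin n → ℝ) → _) ⁻¹' (Set.univ.pi s) =
      (Set.univ.pi fun p => s (cavE n (Sum.inl p))) ×ˢ
        (Set.univ.pi fun i => s (cavE n (Sum.inr i))) := by
    ext z
    simp only [Set.mem_preimage, Set.mem_pi, Set.mem_univ, true_implies, Set.mem_prod]
    constructor
    · intro h
      constructor
      · intro p
        have := h (cavE n (Sum.inl p))
        rwa [cavPhi_apply] at this
      · intro i
        have := h (cavE n (Sum.inr i))
        rwa [cavPhi_apply] at this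
    · rintro ⟨h1, h2⟩ p
      obtain ⟨q, rfl⟩ := (cavE n).surjective p
      rw [cavPhi_apply]
      rcases q with q | i
      · exact h1 q
      · exact h2 i
  rw [hpre, Measure.prod_prod, disorder, Measure.pi_pi, Measure.pi_pi,
    ← (cavE n).prod_comp, Fintype.prod_sum_type]

theorem cav_field (z : (Pair n → ℝ) × (Fin n → ℝ)) (x : Config n) (s : Bool) :
    ∑ p : Pair (n + 1), cavPhi z p * spin ((Fin.snoc x s : Config (n + 1)) p.1.1) *
      spin ((Fin.snoc x s : Config (n + 1)) p.1.2) =
      (∑ p : Pair n, z.1 p * spin (x p.1.1) * spin (x p.1.2)) +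
        spin s * ∑ i, z.2 i * spin (x i) := by
  rw [← (cavE n).sum_comp, Fintype.sum_sum_type]
  congr 1
  · refine Finset.sum_congr rfl fun p _ => ?_
    rw [cavPhi_apply]
    have h1 : ((cavE n (Sum.inl p)).1.1) = p.1.1.castSucc := rfl
    have h2 : ((cavE n (Sum.inl p)).1.2) = p.1.2.castSucc := rfl
    rw [h1, h2, Fin.snoc_castSucc, Fin.snoc_castSucc]
    rfl
  · rw [Finset.mul_sum]
    refine Finset.sum_congr rfl fun i _ => ?_
    rw [cavPhi_apply]
    have h1 : ((cavE n (Sum.inr i)).1.1) = i.castSucc := rfl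
    have h2 : ((cavE n (Sum.inr i)).1.2) = Fin.last n := rfl
    rw [h1, h2, Fin.snoc_castSucc, Fin.snoc_last]
    simp only [Sum.elim_inr]
    ring

theorem cav_scale (hn : 1 ≤ n) {β b : ℝ} (hb : b = β * Real.sqrt (n / (n + 1))) :
    β / Real.sqrt ((n + 1 : ℕ) : ℝ) = b / Real.sqrt n := by
  have h0 : (0 : ℝ) < n := by exact_mod_cast hn
  have h1 : (0 : ℝ) < (n : ℝ) + 1 := by linarith
  rw [hb, Real.sqrt_div h0.le]
  push_cast
  have h2 := Real.sqrt_pos.2 h0
  have h3 := Real.sqrt_pos.2 h1
  field_simp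

theorem cav_weight (hn : 1 ≤ n) {β b : ℝ} (hb : b = β * Real.sqrt (n / (n + 1)))
    (z : (Pair n → ℝ) × (Fin n → ℝ)) (x : Config n) (s : Bool) :
    gibbsWeight β (cavPhi z) (Fin.snoc x s : Config (n + 1)) =
      gibbsWeight b z.1 x * Real.exp (spin s * (b / Real.sqrt n * ∑ i, z.2 i * spin (x i))) := by
  unfold gibbsWeight
  rw [cav_field, cav_scale hn hb, ← Real.exp_add]
  congr 1
  ring

theorem cav_partition (hn : 1 ≤ n) {β b : ℝ} (hb : b = β * Real.sqrt (n / (n + 1)))
    (z : (Pair n → ℝ) × (Fin n → ℝ)) :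
    ∑ x : Config (n + 1), gibbsWeight β (cavPhi z) x =
      (∑ x : Config n, gibbsWeight b z.1 x) *
        (2 * cavX (b / Real.sqrt n) (gibbs b z.1) z.2) := by
  rw [← (Fin.snocEquiv (fun _ : Fin (n + 1) => Bool)).sum_comp, Fintype.sum_prod_type,
    Fintype.sum_bool]
  have h : ∀ s : Bool, ∀ x : Config n, gibbsWeight β (cavPhi z)
      ((Fin.snocEquiv (fun _ : Fin (n + 1) => Bool)) (s, x)) =
      gibbsWeight b z.1 x * Real.exp (spin s * (b / Real.sqrt n * ∑ i, z.2 i * spin (x i))) :=
    fun s x => cav_weight hn hb z x s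
  simp_rw [h]
  rw [← Finset.sum_add_distrib]
  unfold cavX gibbs
  rw [Finset.mul_sum, Finset.mul_sum]
  refine Finset.sum_congr rfl fun x _ => ?_
  have hZ := (partZ_pos b z.1).ne'
  rw [Real.cosh_eq, spin_true, spin_false, one_mul, neg_one_mul]
  field_simp

theorem cav_logZ (hn : 1 ≤ n) {β b : ℝ} (hb : b = β * Real.sqrt (n / (n + 1)))
    (z : (Pair n → ℝ) × (Fin n → ℝ)) :
    logZ β (cavPhi z) = logZ b z.1 + Real.log 2 +
      Real.log (cavX (b / Real.sqrt n) (gibbs b z.1) z.2) := by
  have hX := cavX_one_le (b / Real.sqrt n) (fun x => (gibbs_pos b z.1 x).le) (sum_gibbs b z.1) z.2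
  have hX0 : cavX (b / Real.sqrt n) (gibbs b z.1) z.2 ≠ 0 := by
    intro h
    rw [h] at hX
    linarith
  unfold logZ
  rw [cav_partition hn hb, Real.log_mul (partZ_pos b z.1).ne' (mul_ne_zero two_ne_zero hX0),
    Real.log_mul two_ne_zero hX0]
  ring

/-! ### integrability -/

theorem cav_gibbsWeight_bounds (b : ℝ) (g : Pair n → ℝ) (x : Config n) :
    Real.exp (-(|b / Real.sqrt n| * ∑ p, |g p|)) ≤ gibbsWeight b g x ∧
      gibbsWeight b g x ≤ Real.exp (|b / Real.sqrt n| * ∑ p, |g p|) := by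
  have h : |b / Real.sqrt n * ∑ p : Pair n, g p * spin (x p.1.1) * spin (x p.1.2)| ≤
      |b / Real.sqrt n| * ∑ p, |g p| := by
    rw [abs_mul]
    apply mul_le_mul_of_nonneg_left _ (abs_nonneg _)
    refine (Finset.abs_sum_le_sum_abs _ _).trans (Finset.sum_le_sum fun p _ => ?_)
    rw [abs_mul, abs_mul, abs_spin, abs_spin, mul_one, mul_one]
  unfold gibbsWeight
  exact ⟨Real.exp_le_exp.2 (abs_le.1 h).1, Real.exp_le_exp.2 (abs_le.1 h).2⟩

theorem cav_continuous_weight (b : ℝ) (x : Config n) :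
    Continuous fun g : Pair n → ℝ => gibbsWeight b g x := by
  unfold gibbsWeight
  fun_prop

theorem cav_continuous_part (b : ℝ) :
    Continuous fun g : Pair n → ℝ => ∑ x : Config n, gibbsWeight b g x :=
  continuous_finsetSum _ fun x _ => cav_continuous_weight b x

theorem cav_continuous_gibbs (b : ℝ) (x : Config n) :
    Continuous fun g : Pair n → ℝ => gibbs b g x :=
  (cav_continuous_weight b x).div (cav_continuous_part b) fun g => (partZ_pos b g).ne'

theorem cav_continuous_logZ (b : ℝ) : Continuous fun g : Pair n → ℝ => logZ b g :=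
  (cav_continuous_part b).log fun g => (partZ_pos b g).ne'

theorem cav_abs_logZ_le (b : ℝ) (g : Pair n → ℝ) :
    |logZ b g| ≤ n * Real.log 2 + |b / Real.sqrt n| * ∑ p, |g p| := by
  have hc : ((Finset.univ : Finset (Config n)).card : ℝ) = 2 ^ n := by
    simp
  have hlo : Real.exp (-(|b / Real.sqrt n| * ∑ p, |g p|)) ≤ ∑ x : Config n, gibbsWeight b g x := by
    calc Real.exp (-(|b / Real.sqrt n| * ∑ p, |g p|)) ≤ gibbsWeight b g (fun _ => true) :=
          (cav_gibbsWeight_bounds b g _).1
      _ ≤ _ := Finset.single_le_sum (f := fun x => gibbsWeight b g x)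
          (fun x _ => (gibbsWeight_pos b g x).le) (Finset.mem_univ _)
  have hhi : ∑ x : Config n, gibbsWeight b g x ≤
      2 ^ n * Real.exp (|b / Real.sqrt n| * ∑ p, |g p|) := by
    calc ∑ x : Config n, gibbsWeight b g x
        ≤ ∑ _x : Config n, Real.exp (|b / Real.sqrt n| * ∑ p, |g p|) :=
          Finset.sum_le_sum fun x _ => (cav_gibbsWeight_bounds b g x).2
      _ = _ := by rw [Finset.sum_const, nsmul_eq_mul, hc]
  have hZ := partZ_pos b g
  have hl2 : 0 ≤ n * Real.log 2 := by positivity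
  unfold logZ
  rw [abs_le]
  constructor
  · have := Real.log_le_log (Real.exp_pos _) hlo
    rw [Real.log_exp] at this
    linarith
  · have := Real.log_le_log hZ hhi
    rw [Real.log_mul (by positivity) (Real.exp_pos _).ne', Real.log_pow, Real.log_exp] at this
    exact this

theorem cav_integrable_abs_sum {ι : Type*} [Fintype ι] :
    Integrable (fun y : ι → ℝ => ∑ i, |y i|) (stdG ι) := by
  have hc : Continuous fun y : ι → ℝ => ∑ i, |y i| :=
    continuous_finsetSum _ fun i _ => (continuous_apply i).abs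
  refine (integrable_exp_sum_abs 1).mono' hc.aestronglyMeasurable
    (Filter.Eventually.of_forall fun y => ?_)
  have h0 : 0 ≤ ∑ i, |y i| := Finset.sum_nonneg fun i _ => abs_nonneg _
  rw [Real.norm_eq_abs, abs_of_nonneg h0, one_mul]
  have := Real.add_one_le_exp (∑ i, |y i|)
  linarith

theorem cav_integrable_logZ (n : ℕ) (b : ℝ) :
    Integrable (fun g : Pair n → ℝ => logZ b g) (disorder n) := by
  have hμ : IsProbabilityMeasure (disorder n) := by unfold disorder; infer_instance
  have h : Integrable (fun g : Pair n → ℝ => n * Real.log 2 + |b / Real.sqrt n| * ∑ p, |g p|)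
      (disorder n) := (integrable_const _).add (cav_integrable_abs_sum.const_mul _)
  refine h.mono' (cav_continuous_logZ b).aestronglyMeasurable
    (Filter.Eventually.of_forall fun g => ?_)
  exact cav_abs_logZ_le b g

theorem cav_continuous_joint (a b : ℝ) : Continuous fun z : (Pair n → ℝ) × (Fin n → ℝ) =>
    cavX a (gibbs b z.1) z.2 := by
  unfold cavX
  refine continuous_finsetSum _ fun x _ => ?_
  refine ((cav_continuous_gibbs b x).comp continuous_fst).mul ?_
  fun_prop

theorem cav_integrable_joint (a b : ℝ) :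
    Integrable (fun z : (Pair n → ℝ) × (Fin n → ℝ) => Real.log (cavX a (gibbs b z.1) z.2))
      ((disorder n).prod (stdG (Fin n))) := by
  have hμ : IsProbabilityMeasure (disorder n) := by unfold disorder; infer_instance
  have h1 : Integrable (fun z : (Pair n → ℝ) × (Fin n → ℝ) => |a| * ∑ i, |z.2 i|)
      ((disorder n).prod (stdG (Fin n))) :=
    (cav_integrable_abs_sum.const_mul |a|).comp_snd (disorder n)
  have hc : Continuous fun z : (Pair n → ℝ) × (Fin n → ℝ) =>
      Real.log (cavX a (gibbs b z.1) z.2) := by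
    refine (cav_continuous_joint a b).log fun z => ?_
    have := cavX_one_le a (fun x => (gibbs_pos b z.1 x).le) (sum_gibbs b z.1) z.2
    intro h
    rw [h] at this
    linarith
  refine h1.mono' hc.aestronglyMeasurable (Filter.Eventually.of_forall fun z => ?_)
  have h2 := cavX_one_le a (fun x => (gibbs_pos b z.1 x).le) (sum_gibbs b z.1) z.2
  have h3 := cavX_le a (fun x => (gibbs_pos b z.1 x).le) (sum_gibbs b z.1) z.2
  rw [Real.norm_eq_abs, abs_of_nonneg (Real.log_nonneg h2)]
  have := Real.log_le_log (by linarith) h3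
  rwa [Real.log_exp] at this

theorem cav_integrable_ovlSq (b : ℝ) :
    Integrable (fun g : Pair n → ℝ => ovlSq b g) (disorder n) := by
  have hμ : IsProbabilityMeasure (disorder n) := by unfold disorder; infer_instance
  have hc : Continuous fun g : Pair n → ℝ => ovlSq b g := by
    unfold ovlSq
    refine continuous_finsetSum _ fun x _ => continuous_finsetSum _ fun y _ => ?_
    exact ((cav_continuous_gibbs b x).mul (cav_continuous_gibbs b y)).mul continuous_const
  refine (integrable_const (1 : ℝ)).mono' hc.aestronglyMeasurable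
    (Filter.Eventually.of_forall fun g => ?_)
  have h0 : 0 ≤ ovlSq b g := by
    unfold ovlSq
    exact Finset.sum_nonneg fun x _ => Finset.sum_nonneg fun y _ =>
      mul_nonneg (mul_nonneg (gibbs_pos b g x).le (gibbs_pos b g y).le) (sq_nonneg _)
  rw [Real.norm_eq_abs, abs_of_nonneg h0]
  calc ovlSq b g ≤ ∑ x, ∑ y, gibbs b g x * gibbs b g y := by
        unfold ovlSq
        refine Finset.sum_le_sum fun x _ => Finset.sum_le_sum fun y _ => ?_
        have h1 := cav_ovl_sq_le x y
        have h2 : 0 ≤ gibbs b g x * gibbs b g y :=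
          mul_nonneg (gibbs_pos b g x).le (gibbs_pos b g y).le
        nlinarith
    _ = 1 := by rw [← Finset.sum_mul_sum, sum_gibbs, one_mul]

/-- S6: the cavity inequality -/
theorem cavity (n : ℕ) (hn : 1 ≤ n) (β : ℝ) (b : ℝ) (hb : b = β * Real.sqrt (n / (n + 1))) :
    pressure n b + Real.log 2 + b ^ 2 / 2
      - Real.exp (b ^ 2 / 2) * (Real.cosh (b ^ 2) - 1) * meanOvl n b ≤ pressure (n + 1) β := by
  have hμ : IsProbabilityMeasure (disorder n) := by unfold disorder; infer_instance
  have h0 : (0 : ℝ) < n := by exact_mod_cast hn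
  have hab : (b / Real.sqrt n) ^ 2 * n = b ^ 2 := by
    rw [div_pow, Real.sq_sqrt h0.le]
    field_simp
  have h1 : pressure (n + 1) β = ∫ z, logZ β (cavPhi z) ∂((disorder n).prod (stdG (Fin n))) := by
    unfold pressure
    rw [← measurePreserving_cavPhi.map_eq]
    exact integral_map measurable_cavPhi.aemeasurable
      (cav_continuous_logZ β).aestronglyMeasurable
  have hI1 : Integrable (fun z : (Pair n → ℝ) × (Fin n → ℝ) => logZ b z.1 + Real.log 2)
      ((disorder n).prod (stdG (Fin n))) :=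
    ((cav_integrable_logZ n b).comp_fst (stdG (Fin n))).add (integrable_const _)
  have hI2 := cav_integrable_joint (n := n) (b / Real.sqrt n) b
  have h2 : ∫ z : (Pair n → ℝ) × (Fin n → ℝ), (logZ b z.1 + Real.log 2)
      ∂((disorder n).prod (stdG (Fin n))) = pressure n b + Real.log 2 := by
    rw [integral_prod _ hI1]
    simp only [integral_const, probReal_univ, one_smul]
    rw [integral_add (cav_integrable_logZ n b) (integrable_const _)]
    simp [pressure]
  have h3 : b ^ 2 / 2 - Real.exp (b ^ 2 / 2) * (Real.cosh (b ^ 2) - 1) * meanOvl n b ≤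
      ∫ z : (Pair n → ℝ) × (Fin n → ℝ), Real.log (cavX (b / Real.sqrt n) (gibbs b z.1) z.2)
        ∂((disorder n).prod (stdG (Fin n))) := by
    rw [integral_prod _ hI2]
    have e : b ^ 2 / 2 - Real.exp (b ^ 2 / 2) * (Real.cosh (b ^ 2) - 1) * meanOvl n b =
        ∫ g, (b ^ 2 / 2 - Real.exp (b ^ 2 / 2) * (Real.cosh (b ^ 2) - 1) * ovlSq b g)
          ∂(disorder n) := by
      rw [integral_sub (integrable_const _) ((cav_integrable_ovlSq b).const_mul _),
        integral_const_mul]
      simp [meanOvl]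
    rw [e]
    refine integral_mono ((integrable_const _).sub ((cav_integrable_ovlSq b).const_mul _))
      hI2.integral_prod_left fun g => ?_
    have h4 := cav_fixed hn hab (fun x => (gibbs_pos b g x).le) (sum_gibbs b g)
    simp only
    rw [mul_assoc]
    exact h4
  rw [h1]
  simp_rw [cav_logZ hn hb]
  rw [integral_add hI1 hI2, h2]
  linarith

end Vale.Agent.P150.Slow
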