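import Vale.Agent.Lib.P150.Slow.Base
import Vale.Agent.Lib.P150.Stein

/-!
Variance of the log partition function: a function on `ℝ^ι` that is Lipschitz with constant `L` in
every coordinate has variance at most `L² |ι|` under the standard Gaussian law (tensorization).
-/

namespace Vale.Agent.P150.Slow

open MeasureTheory ProbabilityTheory Filter Topology Vale.Agent.P150

section general

variable {ι : Type*} [Fintype ι]

/-- `F` is Lipschitz with constant `L` in every coordinate -/
def CoordLip (L : ℝ) (F : (ι → ℝ) → ℝ) : Prop :=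
  ∀ x y, |F x - F y| ≤ L * ∑ k, |x k - y k|

theorem CoordLip.continuous {L : ℝ} (hL : 0 ≤ L) {F : (ι → ℝ) → ℝ} (hF : CoordLip L F) :
    Continuous F := by
  have h : LipschitzWith (Real.toNNReal (L * Fintype.card ι)) F := by
    refine LipschitzWith.of_dist_le_mul fun x y => ?_
    rw [Real.coe_toNNReal _ (by positivity), Real.dist_eq]
    refine (hF x y).trans ?_
    rw [mul_assoc]
    refine mul_le_mul_of_nonneg_left ?_ hL
    calc ∑ k, |x k - y k| ≤ ∑ _k : ι, dist x y :=
          Finset.sum_le_sum fun k _ => by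
            rw [← Real.dist_eq]
            exact dist_le_pi_dist x y k
      _ = Fintype.card ι * dist x y := by
          rw [Finset.sum_const, nsmul_eq_mul, Finset.card_univ]
  exact h.continuous

theorem CoordLip.growth {L : ℝ} (hL : 0 ≤ L) {F : (ι → ℝ) → ℝ} (hF : CoordLip L F) (c : ℝ)
    (x : ι → ℝ) : |F x - c| ≤ (|F 0 - c| + L) * Real.exp (1 * ∑ k, |x k|) := by
  have h1 := hF x 0
  simp only [Pi.zero_apply, sub_zero] at h1
  have hs : 0 ≤ ∑ k, |x k| := Finset.sum_nonneg fun k _ => abs_nonneg _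
  have h2 : ∑ k, |x k| + 1 ≤ Real.exp (1 * ∑ k, |x k|) := by
    rw [one_mul]
    exact Real.add_one_le_exp _
  have h3 : |F x - c| ≤ |F x - F 0| + |F 0 - c| := by
    have := abs_add_le (F x - F 0) (F 0 - c)
    simpa using this
  have h4 : 0 ≤ |F 0 - c| := abs_nonneg _
  calc |F x - c| ≤ |F 0 - c| + L * ∑ k, |x k| := by linarith
    _ ≤ |F 0 - c| * Real.exp (1 * ∑ k, |x k|) + L * Real.exp (1 * ∑ k, |x k|) := by
        refine add_le_add ?_ (mul_le_mul_of_nonneg_left (by linarith) hL)
        exact le_mul_of_one_le_right h4 (by linarith)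
    _ = _ := by ring

theorem CoordLip.integrable {L : ℝ} (hL : 0 ≤ L) {F : (ι → ℝ) → ℝ} (hF : CoordLip L F) :
    Integrable F (stdG ι) := by
  refine integrable_of_growth_pi (hF.continuous hL).measurable (M := |F 0 - 0| + L) (C := 1)
    fun x => ?_
  have := hF.growth hL 0 x
  simpa using this

theorem CoordLip.integrable_sq {L : ℝ} (hL : 0 ≤ L) {F : (ι → ℝ) → ℝ} (hF : CoordLip L F)
    (c : ℝ) : Integrable (fun x => (F x - c) ^ 2) (stdG ι) := by
  have hm : Measurable (fun x => (F x - c) ^ 2) :=
    ((hF.continuous hL).measurable.sub_const c).pow_const 2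
  refine integrable_of_growth_pi hm (M := (|F 0 - c| + L) ^ 2) (C := 2) fun x => ?_
  have h := hF.growth hL c x
  rw [abs_pow]
  calc |F x - c| ^ 2 ≤ ((|F 0 - c| + L) * Real.exp (1 * ∑ k, |x k|)) ^ 2 :=
        pow_le_pow_left₀ (abs_nonneg _) h 2
    _ = (|F 0 - c| + L) ^ 2 * Real.exp (2 * ∑ k, |x k|) := by
        rw [mul_pow, ← Real.exp_nat_mul]
        congr 2
        push_cast
        ring

end general

/-- one-dimensional Gaussian Poincare inequality for Lipschitz functions -/
theorem var_lip_one {L : ℝ} (hL : 0 ≤ L) {G : ℝ → ℝ} (hG : ∀ s t, |G s - G t| ≤ L * |s - t|) :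
    Integrable G (gaussianReal 0 1) ∧
      (∀ c, Integrable (fun s => (G s - c) ^ 2) (gaussianReal 0 1)) ∧
      ∫ s, (G s - ∫ t, G t ∂(gaussianReal 0 1)) ^ 2 ∂(gaussianReal 0 1) ≤ L ^ 2 := by
  have hcont : Continuous G := by
    have h : LipschitzWith (Real.toNNReal L) G := by
      refine LipschitzWith.of_dist_le_mul fun x y => ?_
      rw [Real.coe_toNNReal _ hL, Real.dist_eq, Real.dist_eq]
      exact hG x y
    exact h.continuous
  have hgrow : ∀ c x, |G x - c| ≤ (|G 0 - c| + L) * Real.exp (1 * |x|) := by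
    intro c x
    have h1 := hG x 0
    rw [sub_zero] at h1
    have h2 : |x| + 1 ≤ Real.exp (1 * |x|) := by
      rw [one_mul]
      exact Real.add_one_le_exp _
    have h3 : |G x - c| ≤ |G x - G 0| + |G 0 - c| := by
      have := abs_add_le (G x - G 0) (G 0 - c)
      simpa using this
    have h4 : 0 ≤ |G 0 - c| := abs_nonneg _
    have h5 : 0 ≤ |x| := abs_nonneg _
    calc |G x - c| ≤ |G 0 - c| + L * |x| := by linarith
      _ ≤ |G 0 - c| * Real.exp (1 * |x|) + L * Real.exp (1 * |x|) := by
          refine add_le_add ?_ (mul_le_mul_of_nonneg_left (by linarith) hL)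
          exact le_mul_of_one_le_right h4 (by linarith)
      _ = _ := by ring
  have hint : Integrable G (gaussianReal 0 1) := by
    refine integrable_of_growth hcont.measurable (M := |G 0 - 0| + L) (C := 1) fun x => ?_
    have := hgrow 0 x
    simpa using this
  have hsq : ∀ c, Integrable (fun s => (G s - c) ^ 2) (gaussianReal 0 1) := by
    intro c
    refine integrable_of_growth ((hcont.measurable.sub_const c).pow_const 2)
      (M := (|G 0 - c| + L) ^ 2) (C := 2) fun x => ?_
    rw [abs_pow]
    calc |G x - c| ^ 2 ≤ ((|G 0 - c| + L) * Real.exp (1 * |x|)) ^ 2 :=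
          pow_le_pow_left₀ (abs_nonneg _) (hgrow c x) 2
      _ = (|G 0 - c| + L) ^ 2 * Real.exp (2 * |x|) := by
          rw [mul_pow, ← Real.exp_nat_mul]
          congr 2
          push_cast
          ring
  refine ⟨hint, hsq, ?_⟩
  have h1 : ∫ s, (G s - ∫ t, G t ∂(gaussianReal 0 1)) ^ 2 ∂(gaussianReal 0 1) =
      ProbabilityTheory.variance G (gaussianReal 0 1) := (variance_eq_integral hcont.measurable.aemeasurable).symm
  rw [h1, ← variance_sub_const hcont.measurable.aestronglyMeasurable (G 0)]
  refine (variance_le_expectation_sq (by fun_prop)).trans ?_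
  have h2 : ∫ s, s ^ 2 ∂(gaussianReal 0 1) = 1 := by
    have h3 := variance_id_gaussianReal (μ := 0) (v := 1)
    rw [variance_eq_integral measurable_id.aemeasurable] at h3
    simpa using h3
  have hi2 : Integrable (fun s : ℝ => L ^ 2 * s ^ 2) (gaussianReal 0 1) := by
    refine Integrable.const_mul ?_ _
    by_contra h
    rw [integral_undef h] at h2
    exact zero_ne_one h2
  calc ∫ x, ((fun ω => G ω - G 0) ^ 2) x ∂(gaussianReal 0 1)
      ≤ ∫ s, L ^ 2 * s ^ 2 ∂(gaussianReal 0 1) := by
        refine integral_mono (hsq (G 0)) hi2 fun s => ?_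
        have h3 := hG s 0
        rw [sub_zero] at h3
        simp only [Pi.pow_apply]
        rw [← sq_abs (G s - G 0), ← sq_abs s, ← mul_pow]
        exact pow_le_pow_left₀ (abs_nonneg _) h3 2
    _ = L ^ 2 := by rw [integral_const_mul, h2, mul_one]

/-- variance bound, coordinates indexed by `Fin n` -/
theorem var_lip_fin {L : ℝ} (hL : 0 ≤ L) (n : ℕ) :
    ∀ F : (Fin n → ℝ) → ℝ, CoordLip L F →
      ∫ x, (F x - ∫ y, F y ∂(stdG (Fin n))) ^ 2 ∂(stdG (Fin n)) ≤ L ^ 2 * n := by
  induction n with
  | zero =>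
    intro F _
    have h1 : ∀ x : Fin 0 → ℝ, F x = F 0 := fun x => congrArg F (Subsingleton.elim _ _)
    simp only [h1]
    simp
  | succ n ih =>
    intro F hF
    have hmp := measurePreserving_piFinSuccAbove (α := fun _ : Fin (n + 1) => ℝ)
      (fun _ => gaussianReal 0 1) 0
    set F' : ℝ → (Fin n → ℝ) → ℝ := fun s y => F (Fin.cons s y) with hF'
    have hsymm : ∀ x : Fin (n + 1) → ℝ,
        F x = (fun z : ℝ × (Fin n → ℝ) => F' z.1 z.2)
          (MeasurableEquiv.piFinSuccAbove (fun _ : Fin (n + 1) => ℝ) 0 x) := by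
      intro x
      simp only [hF']
      congr 1
      exact (Fin.cons_self_tail x).symm
    have htrans : ∀ H : ℝ → ℝ, ∫ x, H (F x) ∂(stdG (Fin (n + 1))) =
        ∫ z : ℝ × (Fin n → ℝ), H (F' z.1 z.2) ∂((gaussianReal 0 1).prod (stdG (Fin n))) := by
      intro H
      rw [← hmp.integral_comp' (f := MeasurableEquiv.piFinSuccAbove (fun _ : Fin (n + 1) => ℝ) 0)
        (fun z : ℝ × (Fin n → ℝ) => H (F' z.1 z.2))]
      refine integral_congr_ae (Filter.Eventually.of_forall fun x => ?_)
      simp only
      rw [hsymm x]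
    have hintegr : ∀ H : ℝ → ℝ, Integrable (fun x => H (F x)) (stdG (Fin (n + 1))) →
        Integrable (fun z : ℝ × (Fin n → ℝ) => H (F' z.1 z.2)) ((gaussianReal 0 1).prod (stdG (Fin n))) := by
      intro H hH
      rw [← hmp.integrable_comp_emb (MeasurableEquiv.measurableEmbedding _)]
      refine hH.congr (Filter.Eventually.of_forall fun x => ?_)
      simp only [Function.comp]
      rw [hsymm x]
    have hlip : ∀ s t : ℝ, ∀ y z : Fin n → ℝ,
        |F' s y - F' t z| ≤ L * (|s - t| + ∑ k, |y k - z k|) := by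
      intro s t y z
      have := hF (Fin.cons s y) (Fin.cons t z)
      rw [Fin.sum_univ_succ] at this
      simpa using this
    have hlipy : ∀ s, CoordLip L (F' s) := by
      intro s y z
      have := hlip s s y z
      simpa using this
    set G : ℝ → ℝ := fun s => ∫ y, F' s y ∂(stdG (Fin n)) with hG
    have hGlip : ∀ s t, |G s - G t| ≤ L * |s - t| := by
      intro s t
      simp only [hG]
      rw [← integral_sub ((hlipy s).integrable hL) ((hlipy t).integrable hL)]
      have h1 : ∀ y, ‖F' s y - F' t y‖ ≤ L * |s - t| := by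
        intro y
        have := hlip s t y y
        simpa using this
      have h2 := norm_integral_le_of_norm_le_const (μ := stdG (Fin n))
        (f := fun y => F' s y - F' t y) (C := L * |s - t|) (Filter.Eventually.of_forall h1)
      simpa using h2
    obtain ⟨hG1, hG2, hG3⟩ := var_lip_one hL hGlip
    have hm : ∫ y, F y ∂(stdG (Fin (n + 1))) = ∫ s, G s ∂(gaussianReal 0 1) := by
      have h1 := htrans (fun a => a)
      have h2 := hintegr (fun a => a) (hF.integrable hL)
      rw [h1, integral_prod _ h2]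
    set m : ℝ := ∫ s, G s ∂(gaussianReal 0 1) with hmdef
    rw [hm]
    have hint2 := hintegr (fun a => (a - m) ^ 2) (hF.integrable_sq hL m)
    rw [htrans (fun a => (a - m) ^ 2), integral_prod _ hint2]
    have hinner : ∀ s, ∫ y, (F' s y - m) ^ 2 ∂(stdG (Fin n)) ≤ L ^ 2 * n + (G s - m) ^ 2 := by
      intro s
      have h1 := ih (F' s) (hlipy s)
      have hi1 := (hlipy s).integrable hL
      have hi2 := (hlipy s).integrable_sq hL (G s)
      have h2 : ∀ y, (F' s y - m) ^ 2 =
          (F' s y - G s) ^ 2 + (2 * (G s - m) * (F' s y - G s) + (G s - m) ^ 2) := by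
        intro y
        ring
      simp_rw [h2]
      have hi3 : Integrable (fun y => 2 * (G s - m) * (F' s y - G s)) (stdG (Fin n)) :=
        (hi1.sub (integrable_const _)).const_mul _
      have e1 : ∫ y, ((F' s y - G s) ^ 2 + (2 * (G s - m) * (F' s y - G s) + (G s - m) ^ 2))
          ∂(stdG (Fin n)) = ∫ y, (F' s y - G s) ^ 2 ∂(stdG (Fin n)) +
          ∫ y, (2 * (G s - m) * (F' s y - G s) + (G s - m) ^ 2) ∂(stdG (Fin n)) :=
        integral_add hi2 (hi3.add (integrable_const _))
      have e2 : ∫ y, (2 * (G s - m) * (F' s y - G s) + (G s - m) ^ 2) ∂(stdG (Fin n)) =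
          ∫ y, 2 * (G s - m) * (F' s y - G s) ∂(stdG (Fin n)) +
          ∫ _y, (G s - m) ^ 2 ∂(stdG (Fin n)) := integral_add hi3 (integrable_const _)
      rw [e1, e2, integral_const_mul, integral_sub hi1 (integrable_const _)]
      simp only [integral_const, probReal_univ, one_smul]
      have h3 : ∫ y, F' s y ∂(stdG (Fin n)) = G s := rfl
      rw [h3, sub_self, mul_zero, zero_add]
      rw [h3] at h1
      linarith
    calc ∫ s, ∫ y, (F' s y - m) ^ 2 ∂(stdG (Fin n)) ∂(gaussianReal 0 1)
        ≤ ∫ s, (L ^ 2 * n + (G s - m) ^ 2) ∂(gaussianReal 0 1) :=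
          integral_mono hint2.integral_prod_left ((integrable_const _).add (hG2 m)) hinner
      _ = L ^ 2 * n + ∫ s, (G s - m) ^ 2 ∂(gaussianReal 0 1) := by
          rw [integral_add (integrable_const _) (hG2 m)]
          simp
      _ ≤ L ^ 2 * n + L ^ 2 := by linarith
      _ = L ^ 2 * ((n + 1 : ℕ) : ℝ) := by push_cast; ring

/-- variance bound for a function that is Lipschitz in every coordinate -/
theorem var_lip {ι : Type*} [Fintype ι] {L : ℝ} (hL : 0 ≤ L) {F : (ι → ℝ) → ℝ}
    (hF : CoordLip L F) :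
    ∫ x, (F x - ∫ y, F y ∂(stdG ι)) ^ 2 ∂(stdG ι) ≤ L ^ 2 * Fintype.card ι := by
  set e : Fin (Fintype.card ι) ≃ ι := (Fintype.equivFin ι).symm with he
  have hmp := measurePreserving_piCongrLeft (α := fun _ : ι => ℝ) (fun _ => gaussianReal 0 1) e
  set F' : (Fin (Fintype.card ι) → ℝ) → ℝ :=
    fun x => F (MeasurableEquiv.piCongrLeft (fun _ : ι => ℝ) e x) with hF'
  have happ : ∀ (x : Fin (Fintype.card ι) → ℝ) (k : Fin (Fintype.card ι)),
      MeasurableEquiv.piCongrLeft (fun _ : ι => ℝ) e x (e k) = x k := by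
    intro x k
    exact MeasurableEquiv.piCongrLeft_apply_apply (β := fun _ : ι => ℝ) e x k
  have hlip : CoordLip L F' := by
    intro x y
    have h := hF (MeasurableEquiv.piCongrLeft (fun _ : ι => ℝ) e x)
      (MeasurableEquiv.piCongrLeft (fun _ : ι => ℝ) e y)
    rw [← Equiv.sum_comp e] at h
    simp only [happ] at h
    exact h
  have htrans : ∀ H : ℝ → ℝ, ∫ x, H (F x) ∂(stdG ι) =
      ∫ x, H (F' x) ∂(stdG (Fin (Fintype.card ι))) := by
    intro H
    exact (hmp.integral_comp' (fun x => H (F x))).symm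
  have h1 := htrans id
  simp only [id] at h1
  have h2 := htrans (fun a => (a - ∫ y, F y ∂(stdG ι)) ^ 2)
  rw [h2, h1]
  exact var_lip_fin hL _ F' hlip

/-- `logZ` is Lipschitz in every coupling -/
theorem coordLip_logZ (n : ℕ) (β : ℝ) :
    CoordLip (|β| / Real.sqrt n) (fun g : Pair n → ℝ => logZ β g) := by
  have key : ∀ g g' : Pair n → ℝ, logZ β g - logZ β g' ≤
      |β| / Real.sqrt n * ∑ p, |g p - g' p| := by
    intro g g'
    set D := |β| / Real.sqrt n * ∑ p, |g p - g' p| with hD
    have h1 : ∀ x : Config n, gibbsWeight β g x ≤ Real.exp D * gibbsWeight β g' x := by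
      intro x
      unfold gibbsWeight
      rw [← Real.exp_add]
      refine Real.exp_le_exp.2 ?_
      have h2 : β / Real.sqrt n * ∑ p : Pair n, g p * spin (x p.1.1) * spin (x p.1.2) -
          β / Real.sqrt n * ∑ p : Pair n, g' p * spin (x p.1.1) * spin (x p.1.2) =
          β / Real.sqrt n * ∑ p : Pair n, (g p - g' p) * (spin (x p.1.1) * spin (x p.1.2)) := by
        rw [← mul_sub, ← Finset.sum_sub_distrib]
        congr 1
        exact Finset.sum_congr rfl fun p _ => by ring
      have h3 : β / Real.sqrt n * ∑ p : Pair n, (g p - g' p) * (spin (x p.1.1) * spin (x p.1.2))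
          ≤ D := by
        refine (le_abs_self _).trans ?_
        rw [abs_mul, abs_div, abs_of_nonneg (Real.sqrt_nonneg _), hD]
        refine mul_le_mul_of_nonneg_left ?_ (by positivity)
        refine (Finset.abs_sum_le_sum_abs _ _).trans (Finset.sum_le_sum fun p _ => ?_)
        rw [abs_mul, abs_mul, abs_spin, abs_spin, mul_one, mul_one]
      linarith
    have h4 : ∑ x : Config n, gibbsWeight β g x ≤
        Real.exp D * ∑ x : Config n, gibbsWeight β g' x := by
      rw [Finset.mul_sum]
      exact Finset.sum_le_sum fun x _ => h1 x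
    have h5 := Real.log_le_log (partZ_pos β g) h4
    rw [Real.log_mul (Real.exp_pos _).ne' (partZ_pos β g').ne', Real.log_exp] at h5
    unfold logZ
    linarith
  intro g g'
  rw [abs_le]
  constructor
  · have h := key g' g
    have h2 : ∑ p, |g' p - g p| = ∑ p, |g p - g' p| :=
      Finset.sum_congr rfl fun p _ => abs_sub_comm _ _
    rw [h2] at h
    linarith
  · exact key g g'

/-- S8 -/
theorem integrable_logZ (n : ℕ) (β : ℝ) : Integrable (fun g => logZ β g) (disorder n) :=
  (coordLip_logZ n β).integrable (by positivity)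

theorem integrable_logZ_sq (n : ℕ) (β : ℝ) :
    Integrable (fun g => (logZ β g - pressure n β) ^ 2) (disorder n) :=
  (coordLip_logZ n β).integrable_sq (by positivity) _

theorem var_logZ (n : ℕ) (hn : 1 ≤ n) (β : ℝ) :
    ∫ g, (logZ β g - pressure n β) ^ 2 ∂(disorder n) ≤ β ^ 2 * n := by
  have h := var_lip (by positivity) (coordLip_logZ n β)
  have hcard : (Fintype.card (Pair n) : ℝ) ≤ (n : ℝ) ^ 2 := by
    have h1 : Fintype.card (Pair n) ≤ Fintype.card (Fin n × Fin n) :=
      Fintype.card_subtype_le _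
    rw [Fintype.card_prod, Fintype.card_fin] at h1
    have h2 : ((Fintype.card (Pair n) : ℕ) : ℝ) ≤ ((n * n : ℕ) : ℝ) := by exact_mod_cast h1
    rw [Nat.cast_mul] at h2
    rw [pow_two]
    exact h2
  have hn0 : (0 : ℝ) < n := by exact_mod_cast hn
  have h3 : (|β| / Real.sqrt n) ^ 2 = β ^ 2 / n := by
    rw [div_pow, sq_abs, Real.sq_sqrt hn0.le]
  rw [h3] at h
  refine h.trans ?_
  calc β ^ 2 / n * (Fintype.card (Pair n) : ℝ) ≤ β ^ 2 / n * (n : ℝ) ^ 2 :=
        mul_le_mul_of_nonneg_left hcard (by positivity)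
    _ = β ^ 2 * n := by
        field_simp

end Vale.Agent.P150.Slow
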