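import Vale.Agent.Lib.P150.Slow.Base
import Vale.Agent.Lib.P150.Stein
import Vale.Agent.Lib.P150.GOE
import Vale.Agent.Lib.P150.Calc

/-!
Derivative and convexity of the log partition function and of the quenched free energy.
-/

namespace Vale.Agent.P150.Slow

open MeasureTheory ProbabilityTheory Filter Topology Vale.Agent.P150

variable {n : ℕ}

/-- the spin product of a pair -/
noncomputable def sp (p : Pair n) (x : Config n) : ℝ := spin (x p.1.1) * spin (x p.1.2)

/-- the normalised Hamiltonian -/
noncomputable def ham (g : Pair n → ℝ) (x : Config n) : ℝ :=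
  (∑ p : Pair n, g p * sp p x) / Real.sqrt n

lemma sp_sq (p : Pair n) (x : Config n) : sp p x * sp p x = 1 := by
  unfold sp
  have h1 := spin_mul_self (x p.1.1)
  have h2 := spin_mul_self (x p.1.2)
  calc spin (x p.1.1) * spin (x p.1.2) * (spin (x p.1.1) * spin (x p.1.2))
      = (spin (x p.1.1) * spin (x p.1.1)) * (spin (x p.1.2) * spin (x p.1.2)) := by ring
    _ = 1 := by rw [h1, h2]; ring

lemma abs_sp (p : Pair n) (x : Config n) : |sp p x| = 1 := by
  unfold sp; rw [abs_mul, abs_spin, abs_spin, mul_one]

lemma gibbsWeight_eq (β : ℝ) (g : Pair n → ℝ) (x : Config n) :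
    gibbsWeight β g x = Real.exp (β * ham g x) := by
  unfold gibbsWeight ham sp
  congr 1
  rw [mul_div_assoc', div_mul_eq_mul_div]
  congr 2
  refine Finset.sum_congr rfl fun p _ => ?_
  ring

lemma abs_ham_le (g : Pair n → ℝ) (x : Config n) :
    |ham g x| ≤ (∑ p : Pair n, |g p|) / Real.sqrt n := by
  unfold ham
  rw [abs_div, abs_of_nonneg (Real.sqrt_nonneg _)]
  refine div_le_div_of_nonneg_right ?_ (Real.sqrt_nonneg _)
  refine (Finset.abs_sum_le_sum_abs _ _).trans (Finset.sum_le_sum fun p _ => ?_)
  rw [abs_mul, abs_sp, mul_one]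

lemma hasDerivAt_gibbsWeight (β : ℝ) (g : Pair n → ℝ) (x : Config n) :
    HasDerivAt (fun b => gibbsWeight b g x) (gibbsWeight β g x * ham g x) β := by
  have h : (fun b => gibbsWeight b g x) = fun b => Real.exp (b * ham g x) := by
    funext b; rw [gibbsWeight_eq]
  rw [h, gibbsWeight_eq]
  have := ((hasDerivAt_id β).mul_const (ham g x)).exp
  simpa using this

lemma corr_eq (β : ℝ) (g : Pair n → ℝ) (p : Pair n) :
    corr β g p = (∑ x, gibbsWeight β g x * sp p x) / ∑ x, gibbsWeight β g x := by
  unfold corr gibbs sp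
  rw [Finset.sum_div]
  refine Finset.sum_congr rfl fun x _ => ?_
  ring

lemma energy_eq (β : ℝ) (g : Pair n → ℝ) (hn : 1 ≤ n) :
    n * energy β g = (∑ x, gibbsWeight β g x * ham g x) / ∑ x, gibbsWeight β g x := by
  have hn0 : (n : ℝ) ≠ 0 := by positivity
  unfold energy
  have h1 : (n : ℝ) * ((∑ p : Pair n, g p * corr β g p) / (n * Real.sqrt n)) =
      (∑ p : Pair n, g p * corr β g p) / Real.sqrt n := by
    field_simp
  rw [h1]
  have h2 : ∀ x : Config n, gibbsWeight β g x * ham g x =
      (∑ p : Pair n, g p * (gibbsWeight β g x * sp p x)) / Real.sqrt n := by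
    intro x
    unfold ham
    rw [mul_div_assoc', Finset.mul_sum]
    congr 1
    refine Finset.sum_congr rfl fun p _ => ?_
    ring
  rw [Finset.sum_congr rfl fun x _ => h2 x, ← Finset.sum_div, Finset.sum_comm, div_right_comm]
  congr 1
  rw [Finset.sum_div]
  refine Finset.sum_congr rfl fun p _ => ?_
  rw [corr_eq, ← Finset.mul_sum, mul_div_assoc]

theorem logZ_deriv (hn : 1 ≤ n) (β : ℝ) (g : Pair n → ℝ) :
    HasDerivAt (fun b => logZ b g) (n * energy β g) β := by
  rw [energy_eq β g hn]
  have h1 : HasDerivAt (fun b => ∑ x : Config n, gibbsWeight b g x)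
      (∑ x, gibbsWeight β g x * ham g x) β :=
    HasDerivAt.fun_sum fun x _ => hasDerivAt_gibbsWeight β g x
  exact h1.log (partZ_pos β g).ne'

/-- convexity of log-sum-exp -/
theorem log_sum_exp_convex {T : Type*} [Fintype T] [Nonempty T] (u v : T → ℝ) (s t : ℝ)
    (hs : 0 ≤ s) (ht : 0 ≤ t) (hst : s + t = 1) :
    Real.log (∑ x, Real.exp (s * u x + t * v x)) ≤
      s * Real.log (∑ x, Real.exp (u x)) + t * Real.log (∑ x, Real.exp (v x)) := by
  have hU : 0 < ∑ x, Real.exp (u x) := Finset.sum_pos (fun _ _ => Real.exp_pos _) Finset.univ_nonempty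
  have hV : 0 < ∑ x, Real.exp (v x) := Finset.sum_pos (fun _ _ => Real.exp_pos _) Finset.univ_nonempty
  have hW : 0 < ∑ x, Real.exp (s * u x + t * v x) :=
    Finset.sum_pos (fun _ _ => Real.exp_pos _) Finset.univ_nonempty
  set U := Real.log (∑ x, Real.exp (u x)) with hUd
  set V := Real.log (∑ x, Real.exp (v x)) with hVd
  rw [Real.log_le_iff_le_exp hW]
  have hcx : ∀ x, Real.exp (s * (u x - U) + t * (v x - V)) ≤
      s * Real.exp (u x - U) + t * Real.exp (v x - V) := by
    intro x
    have := convexOn_exp.2 (Set.mem_univ (u x - U)) (Set.mem_univ (v x - V)) hs ht hst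
    simpa [smul_eq_mul] using this
  have h1 : ∑ x, Real.exp (u x - U) = 1 := by
    simp only [Real.exp_sub, ← Finset.sum_div]
    rw [hUd, Real.exp_log hU, div_self hU.ne']
  have h2 : ∑ x, Real.exp (v x - V) = 1 := by
    simp only [Real.exp_sub, ← Finset.sum_div]
    rw [hVd, Real.exp_log hV, div_self hV.ne']
  have h3 : ∑ x, Real.exp (s * (u x - U) + t * (v x - V)) ≤ 1 := by
    refine (Finset.sum_le_sum fun x _ => hcx x).trans ?_
    rw [Finset.sum_add_distrib, ← Finset.mul_sum, ← Finset.mul_sum, h1, h2]
    linarith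
  have h4 : ∑ x, Real.exp (s * u x + t * v x) =
      Real.exp (s * U + t * V) * ∑ x, Real.exp (s * (u x - U) + t * (v x - V)) := by
    rw [Finset.mul_sum]
    refine Finset.sum_congr rfl fun x _ => ?_
    rw [← Real.exp_add]
    congr 1; ring
  rw [h4]
  calc Real.exp (s * U + t * V) * ∑ x, Real.exp (s * (u x - U) + t * (v x - V))
      ≤ Real.exp (s * U + t * V) * 1 := mul_le_mul_of_nonneg_left h3 (Real.exp_pos _).le
    _ = _ := mul_one _

theorem logZ_convex (g : Pair n → ℝ) : ConvexOn ℝ Set.univ (fun b => logZ b g) := by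
  refine ⟨convex_univ, fun b _ c _ s t hs ht hst => ?_⟩
  have := log_sum_exp_convex (fun x : Config n => b * ham g x) (fun x => c * ham g x) s t hs ht hst
  simp only [smul_eq_mul, logZ, gibbsWeight_eq]
  refine le_trans (le_of_eq ?_) this
  congr 1
  refine Finset.sum_congr rfl fun x _ => ?_
  congr 1; ring

/-! ### bounds and measurability -/

lemma measurable_ham (x : Config n) : Measurable fun g : Pair n → ℝ => ham g x := by
  unfold ham
  fun_prop

lemma continuous_ham (x : Config n) : Continuous fun g : Pair n → ℝ => ham g x := by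
  unfold ham
  fun_prop

lemma measurable_gibbsWeight (β : ℝ) (x : Config n) :
    Measurable fun g : Pair n → ℝ => gibbsWeight β g x := by
  simp only [gibbsWeight_eq]
  exact (measurable_const.mul (measurable_ham x)).exp

lemma measurable_partZ (β : ℝ) :
    Measurable fun g : Pair n → ℝ => ∑ x : Config n, gibbsWeight β g x :=
  Finset.measurable_fun_sum _ fun x _ => measurable_gibbsWeight β x

lemma measurable_logZ (β : ℝ) : Measurable fun g : Pair n → ℝ => logZ β g :=
  (measurable_partZ β).log

lemma measurable_gibbs (β : ℝ) (x : Config n) :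
    Measurable fun g : Pair n → ℝ => gibbs β g x :=
  (measurable_gibbsWeight β x).div (measurable_partZ β)

lemma measurable_corr (β : ℝ) (p : Pair n) : Measurable fun g : Pair n → ℝ => corr β g p :=
  Finset.measurable_fun_sum _ fun x _ => (measurable_gibbs β x).mul_const _

lemma measurable_ovlSq (β : ℝ) : Measurable fun g : Pair n → ℝ => ovlSq β g :=
  Finset.measurable_fun_sum _ fun x _ => Finset.measurable_fun_sum _ fun y _ =>
    ((measurable_gibbs β x).mul (measurable_gibbs β y)).mul_const _

lemma measurable_energy (β : ℝ) : Measurable fun g : Pair n → ℝ => energy β g := by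
  unfold energy
  exact (Finset.measurable_fun_sum _ fun p _ =>
    (measurable_pi_apply p).mul (measurable_corr β p)).div_const _

lemma gibbs_nonneg (β : ℝ) (g : Pair n → ℝ) (x : Config n) : 0 ≤ gibbs β g x :=
  (gibbs_pos β g x).le

lemma abs_corr_le (β : ℝ) (g : Pair n → ℝ) (p : Pair n) : |corr β g p| ≤ 1 := by
  unfold corr
  refine (Finset.abs_sum_le_sum_abs _ _).trans ?_
  rw [← sum_gibbs β g]
  refine Finset.sum_le_sum fun x _ => ?_
  rw [abs_mul, abs_of_nonneg (gibbs_nonneg β g x)]
  have := abs_sp p x
  unfold sp at this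
  rw [this, mul_one]

lemma corr_sq_le (β : ℝ) (g : Pair n → ℝ) (p : Pair n) : corr β g p ^ 2 ≤ 1 := by
  have := abs_corr_le β g p
  rw [← sq_abs]
  nlinarith [abs_nonneg (corr β g p)]

lemma drv_abs_ovl_le (x y : Config n) : |ovl x y| ≤ 1 := by
  unfold ovl
  rw [abs_div, Nat.abs_cast]
  rcases Nat.eq_zero_or_pos n with h | h
  · subst h; simp
  · rw [div_le_one (by exact_mod_cast h)]
    refine (Finset.abs_sum_le_sum_abs _ _).trans ?_
    simp [abs_mul, abs_spin]

lemma drv_ovl_sq_le (x y : Config n) : ovl x y ^ 2 ≤ 1 := by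
  have := drv_abs_ovl_le x y
  rw [← sq_abs]
  nlinarith [abs_nonneg (ovl x y)]

lemma ovlSq_nonneg (β : ℝ) (g : Pair n → ℝ) : 0 ≤ ovlSq β g :=
  Finset.sum_nonneg fun x _ => Finset.sum_nonneg fun y _ =>
    mul_nonneg (mul_nonneg (gibbs_nonneg β g x) (gibbs_nonneg β g y)) (sq_nonneg _)

lemma ovlSq_le_one (β : ℝ) (g : Pair n → ℝ) : ovlSq β g ≤ 1 := by
  unfold ovlSq
  calc ∑ x, ∑ y, gibbs β g x * gibbs β g y * ovl x y ^ 2
      ≤ ∑ x, ∑ y, gibbs β g x * gibbs β g y := by
        refine Finset.sum_le_sum fun x _ => Finset.sum_le_sum fun y _ => ?_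
        exact mul_le_of_le_one_right (mul_nonneg (gibbs_nonneg β g x) (gibbs_nonneg β g y))
          (drv_ovl_sq_le x y)
    _ = 1 := by
        simp only [← Finset.mul_sum, sum_gibbs, mul_one]

theorem meanOvl_nonneg (n : ℕ) (β : ℝ) : 0 ≤ meanOvl n β :=
  integral_nonneg fun g => ovlSq_nonneg β g

lemma abs_logZ_le (β : ℝ) (g : Pair n → ℝ) :
    |logZ β g| ≤ n * Real.log 2 + |β| * ((∑ p : Pair n, |g p|) / Real.sqrt n) := by
  set B := |β| * ((∑ p : Pair n, |g p|) / Real.sqrt n) with hB
  have hb : ∀ x : Config n, |β * ham g x| ≤ B := by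
    intro x
    rw [abs_mul]
    exact mul_le_mul_of_nonneg_left (abs_ham_le g x) (abs_nonneg _)
  have hcard : (Finset.univ : Finset (Config n)).card = 2 ^ n := by simp
  have hlog : Real.log (2 ^ n : ℝ) = n * Real.log 2 := by
    rw [Real.log_pow]
  have hB0 : 0 ≤ B := by positivity
  have hup : ∑ x : Config n, gibbsWeight β g x ≤ 2 ^ n * Real.exp B := by
    calc ∑ x : Config n, gibbsWeight β g x ≤ ∑ _x : Config n, Real.exp B := by
          refine Finset.sum_le_sum fun x _ => ?_
          rw [gibbsWeight_eq]
          exact Real.exp_le_exp.2 ((le_abs_self _).trans (hb x))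
      _ = _ := by rw [Finset.sum_const, hcard]; simp
  have hlo : 2 ^ n * Real.exp (-B) ≤ ∑ x : Config n, gibbsWeight β g x := by
    calc (2 : ℝ) ^ n * Real.exp (-B) = ∑ _x : Config n, Real.exp (-B) := by
          rw [Finset.sum_const, hcard]; simp
      _ ≤ _ := by
          refine Finset.sum_le_sum fun x _ => ?_
          rw [gibbsWeight_eq]
          exact Real.exp_le_exp.2 (neg_le_of_abs_le (hb x))
  unfold logZ
  rw [abs_le]
  have hln : 0 ≤ (n : ℝ) * Real.log 2 := by positivity
  constructor
  · have := Real.log_le_log (by positivity) hlo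
    rw [Real.log_mul (by positivity) (by positivity), Real.log_exp, hlog] at this
    linarith
  · have := Real.log_le_log (partZ_pos β g) hup
    rw [Real.log_mul (by positivity) (by positivity), Real.log_exp, hlog] at this
    linarith

lemma integrable_sum_abs (n : ℕ) :
    Integrable (fun g : Pair n → ℝ => ∑ p : Pair n, |g p|) (disorder n) := by
  refine integrable_of_growth_pi (M := 1) (C := 1) ?_ fun g => ?_
  · exact Finset.measurable_fun_sum _ fun p _ => (measurable_pi_apply p).abs
  · rw [abs_of_nonneg (Finset.sum_nonneg fun p _ => abs_nonneg _), one_mul, one_mul]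
    linarith [Real.add_one_le_exp (∑ i, |g i|)]

instance isProb_disorder_aux : IsProbabilityMeasure (disorder n) := by
  unfold disorder; infer_instance

theorem integrable_logZ_aux (n : ℕ) (β : ℝ) : Integrable (fun g => logZ β g) (disorder n) := by
  have h : Integrable (fun g : Pair n → ℝ => (n : ℝ) * Real.log 2 +
      |β| * ((∑ p : Pair n, |g p|) / Real.sqrt n)) (disorder n) :=
    (integrable_const _).add (((integrable_sum_abs n).div_const _).const_mul _)
  refine h.mono' (measurable_logZ β).aestronglyMeasurable (Eventually.of_forall fun g => ?_)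
  exact abs_logZ_le β g

lemma integrable_ovlSq (n : ℕ) (β : ℝ) : Integrable (fun g => ovlSq β g) (disorder n) := by
  refine (integrable_const (1 : ℝ)).mono' (measurable_ovlSq β).aestronglyMeasurable
    (Eventually.of_forall fun g => ?_)
  rw [Real.norm_eq_abs, abs_of_nonneg (ovlSq_nonneg β g)]
  exact ovlSq_le_one β g

lemma integrable_corr_sq (n : ℕ) (β : ℝ) (p : Pair n) :
    Integrable (fun g => corr β g p ^ 2) (disorder n) := by
  refine (integrable_const (1 : ℝ)).mono' ((measurable_corr β p).pow_const 2).aestronglyMeasurable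
    (Eventually.of_forall fun g => ?_)
  rw [Real.norm_eq_abs, abs_of_nonneg (sq_nonneg _)]
  exact corr_sq_le β g p

lemma integrable_mul_corr (n : ℕ) (β : ℝ) (p : Pair n) :
    Integrable (fun g => g p * corr β g p) (disorder n) := by
  refine (integrable_sum_abs n).mono' ((measurable_pi_apply p).mul
    (measurable_corr β p)).aestronglyMeasurable (Eventually.of_forall fun g => ?_)
  rw [Real.norm_eq_abs, abs_mul]
  calc |g p| * |corr β g p| ≤ |g p| * 1 :=
        mul_le_mul_of_nonneg_left (abs_corr_le β g p) (abs_nonneg _)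
    _ = |g p| := mul_one _
    _ ≤ ∑ q, |g q| := Finset.single_le_sum (f := fun q => |g q|) (fun q _ => abs_nonneg _)
        (Finset.mem_univ p)

lemma integrable_energy (n : ℕ) (β : ℝ) : Integrable (fun g => energy β g) (disorder n) := by
  unfold energy
  exact (integrable_finsetSum _ fun p _ => integrable_mul_corr n β p).div_const _

lemma abs_energy_le (β : ℝ) (g : Pair n → ℝ) :
    |n * energy β g| ≤ (∑ p : Pair n, |g p|) / Real.sqrt n := by
  rcases Nat.eq_zero_or_pos n with h | h
  · subst h
    simp
  · rw [energy_eq β g h, abs_div, abs_of_pos (partZ_pos β g), div_le_iff₀ (partZ_pos β g)]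
    refine (Finset.abs_sum_le_sum_abs _ _).trans ?_
    rw [Finset.mul_sum]
    refine Finset.sum_le_sum fun x _ => ?_
    rw [abs_mul, abs_of_pos (gibbsWeight_pos β g x), mul_comm]
    exact mul_le_mul_of_nonneg_right (abs_ham_le g x) (gibbsWeight_pos β g x).le

/-! ### sum of squared correlations -/

theorem sum_corr_sq (β : ℝ) (g : Pair n → ℝ) :
    ∑ p : Pair n, corr β g p ^ 2 = ((n : ℝ) ^ 2 * ovlSq β g - n) / 2 := by
  have h1 : ∀ p : Pair n, corr β g p ^ 2 =
      ∑ x, ∑ y, gibbs β g x * gibbs β g y * (sp p x * sp p y) := by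
    intro p
    have : corr β g p = ∑ x, gibbs β g x * sp p x := rfl
    rw [this, sq, Finset.sum_mul_sum]
    refine Finset.sum_congr rfl fun x _ => Finset.sum_congr rfl fun y _ => ?_
    ring
  have h2 : ∀ x y : Config n, ∑ p : Pair n, sp p x * sp p y =
      ((n : ℝ) ^ 2 * ovl x y ^ 2 - n) / 2 := by
    intro x y
    have h3 := sum_symm_eq (fun i j => (spin (x i) * spin (y i)) * (spin (x j) * spin (y j)))
      (fun i j => mul_comm _ _)
    have h4 : ∀ i : Fin n, (spin (x i) * spin (y i)) * (spin (x i) * spin (y i)) = 1 := by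
      intro i
      have a := spin_mul_self (x i)
      have b := spin_mul_self (y i)
      calc (spin (x i) * spin (y i)) * (spin (x i) * spin (y i))
          = (spin (x i) * spin (x i)) * (spin (y i) * spin (y i)) := by ring
        _ = 1 := by rw [a, b]; ring
    have h5 : ∑ i, ∑ j, (spin (x i) * spin (y i)) * (spin (x j) * spin (y j)) =
        (∑ i, spin (x i) * spin (y i)) ^ 2 := by
      rw [sq, Finset.sum_mul_sum]
    have h6 : (n : ℝ) ^ 2 * ovl x y ^ 2 = (∑ i, spin (x i) * spin (y i)) ^ 2 := by
      unfold ovl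
      rcases Nat.eq_zero_or_pos n with h | h
      · subst h; simp
      · have : (n : ℝ) ≠ 0 := by positivity
        field_simp
    have h7 : ∑ p : Pair n, sp p x * sp p y = ∑ p : Pair n,
        (spin (x p.1.1) * spin (y p.1.1)) * (spin (x p.1.2) * spin (y p.1.2)) := by
      refine Finset.sum_congr rfl fun p _ => ?_
      unfold sp; ring
    rw [h5] at h3
    simp only [h4] at h3
    simp only [Finset.sum_const, Finset.card_univ, Fintype.card_fin, nsmul_eq_mul, mul_one] at h3
    rw [h7, h6]
    linarith
  calc ∑ p : Pair n, corr β g p ^ 2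
      = ∑ p : Pair n, ∑ x, ∑ y, gibbs β g x * gibbs β g y * (sp p x * sp p y) :=
        Finset.sum_congr rfl fun p _ => h1 p
    _ = ∑ x, ∑ y, gibbs β g x * gibbs β g y * ∑ p : Pair n, (sp p x * sp p y) := by
        rw [Finset.sum_comm]
        refine Finset.sum_congr rfl fun x _ => ?_
        rw [Finset.sum_comm]
        refine Finset.sum_congr rfl fun y _ => ?_
        rw [Finset.mul_sum]
    _ = ∑ x, ∑ y, (gibbs β g x * gibbs β g y * ovl x y ^ 2 * ((n : ℝ) ^ 2 / 2) -
          gibbs β g x * gibbs β g y * ((n : ℝ) / 2)) := by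
        refine Finset.sum_congr rfl fun x _ => Finset.sum_congr rfl fun y _ => ?_
        rw [h2]; ring
    _ = _ := by
        simp only [Finset.sum_sub_distrib, ← Finset.sum_mul, ← Finset.mul_sum, sum_gibbs]
        unfold ovlSq
        ring

lemma drv_card_pair (n : ℕ) : (Fintype.card (Pair n) : ℝ) = ((n : ℝ) ^ 2 - n) / 2 := by
  have h3 := sum_symm_eq (n := n) (fun _ _ => (1 : ℝ)) (fun i j => rfl)
  simp only [Finset.sum_const, Finset.card_univ, Fintype.card_fin, nsmul_eq_mul, mul_one] at h3
  linarith [sq (n : ℝ)]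

/-! ### derivative of the correlation in the direction of a coupling -/

lemma hasDerivAt_ham_update (g : Pair n → ℝ) (p : Pair n) (t : ℝ) (x : Config n) :
    HasDerivAt (fun s => ham (Function.update g p s) x) (sp p x / Real.sqrt n) t := by
  unfold ham
  have h : HasDerivAt (fun s => ∑ q : Pair n, Function.update g p s q * sp q x)
      (∑ q : Pair n, if q = p then sp q x else 0) t := by
    refine HasDerivAt.fun_sum fun q _ => ?_
    by_cases hq : q = p
    · subst hq
      simpa using (hasDerivAt_id t).mul_const (sp q x)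
    · simpa [hq] using hasDerivAt_const t (g q * sp q x)
  have e : (∑ q : Pair n, if q = p then sp q x else 0) = sp p x := by simp
  rw [e] at h
  exact h.div_const _

lemma hasDerivAt_gibbsWeight_update (β : ℝ) (g : Pair n → ℝ) (p : Pair n) (t : ℝ) (x : Config n) :
    HasDerivAt (fun s => gibbsWeight β (Function.update g p s) x)
      (gibbsWeight β (Function.update g p t) x * (β / Real.sqrt n * sp p x)) t := by
  simp only [gibbsWeight_eq]
  have := ((hasDerivAt_ham_update g p t x).const_mul β).exp
  refine this.congr_deriv ?_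
  ring

/-- derivative of the two-point function in its own coupling -/
theorem hasDerivAt_corr (β : ℝ) (g : Pair n → ℝ) (p : Pair n) (t : ℝ) :
    HasDerivAt (fun s => corr β (Function.update g p s) p)
      (β / Real.sqrt n * (1 - corr β (Function.update g p t) p ^ 2)) t := by
  simp only [corr_eq]
  have h1 : HasDerivAt (fun s => ∑ x : Config n, gibbsWeight β (Function.update g p s) x)
      (∑ x, gibbsWeight β (Function.update g p t) x * (β / Real.sqrt n * sp p x)) t :=
    HasDerivAt.fun_sum fun x _ => hasDerivAt_gibbsWeight_update β g p t x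
  have h2 : HasDerivAt (fun s => ∑ x : Config n, gibbsWeight β (Function.update g p s) x * sp p x)
      (∑ x, gibbsWeight β (Function.update g p t) x * (β / Real.sqrt n * sp p x) * sp p x) t :=
    HasDerivAt.fun_sum fun x _ => (hasDerivAt_gibbsWeight_update β g p t x).mul_const _
  have h3 := h2.div h1 (partZ_pos β (Function.update g p t)).ne'
  refine h3.congr_deriv ?_
  set Z := ∑ x : Config n, gibbsWeight β (Function.update g p t) x with hZ
  have hZ0 : Z ≠ 0 := (partZ_pos β (Function.update g p t)).ne'
  set S := ∑ x : Config n, gibbsWeight β (Function.update g p t) x * sp p x with hS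
  have e1 : ∑ x, gibbsWeight β (Function.update g p t) x * (β / Real.sqrt n * sp p x) =
      β / Real.sqrt n * S := by
    rw [hS, Finset.mul_sum]
    exact Finset.sum_congr rfl fun x _ => by ring
  have e2 : ∑ x, gibbsWeight β (Function.update g p t) x * (β / Real.sqrt n * sp p x) * sp p x =
      β / Real.sqrt n * Z := by
    rw [hZ, Finset.mul_sum]
    refine Finset.sum_congr rfl fun x _ => ?_
    have := sp_sq p x
    calc gibbsWeight β (Function.update g p t) x * (β / Real.sqrt n * sp p x) * sp p x
        = gibbsWeight β (Function.update g p t) x * (β / Real.sqrt n) * (sp p x * sp p x) := by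
          ring
      _ = _ := by rw [this]; ring
  rw [e1, e2]
  field_simp

/-- Gaussian integration by parts for the two-point function -/
theorem stein_corr (n : ℕ) (β : ℝ) (p : Pair n) :
    ∫ g, g p * corr β g p ∂(disorder n) =
      β / Real.sqrt n * (1 - ∫ g, corr β g p ^ 2 ∂(disorder n)) := by
  have h := stein_pi (ι := Pair n) p (f := fun g => corr β g p)
    (f' := fun g => β / Real.sqrt n * (1 - corr β g p ^ 2)) (measurable_corr β p)
    (((measurable_corr β p).pow_const 2).const_sub 1 |>.const_mul _)
    (fun x t => hasDerivAt_corr β x p t) (M := 1 + |β / Real.sqrt n|) (C := 0) le_rfl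
    (fun x => by
      rw [zero_mul, Real.exp_zero, mul_one]
      linarith [abs_corr_le β x p, abs_nonneg (β / Real.sqrt n)])
    (fun x => by
      rw [zero_mul, Real.exp_zero, mul_one, abs_mul]
      have h1 : |1 - corr β x p ^ 2| ≤ 1 := by
        rw [abs_le]; constructor <;> nlinarith [corr_sq_le β x p, sq_nonneg (corr β x p)]
      have := mul_le_mul_of_nonneg_left h1 (abs_nonneg (β / Real.sqrt n))
      linarith)
  have hd : disorder n = stdG (Pair n) := rfl
  rw [hd, h, integral_const_mul]
  congr 1
  have hi := integrable_corr_sq n β p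
  rw [hd] at hi
  rw [integral_sub (integrable_const _) hi]
  simp

/-- the derivative of the quenched free energy -/
theorem pressure_deriv (n : ℕ) (hn : 1 ≤ n) (β : ℝ) :
    HasDerivAt (pressure n) (n * β / 2 * (1 - meanOvl n β)) β := by
  have hmain := hasDerivAt_integral_of_dominated_loc_of_deriv_le (μ := disorder n)
    (F := fun b (g : Pair n → ℝ) => logZ b g) (F' := fun b g => n * energy b g) (x₀ := β)
    (s := Set.univ) (bound := fun g => (∑ p : Pair n, |g p|) / Real.sqrt n)
    Filter.univ_mem
    (Eventually.of_forall fun b => (measurable_logZ b).aestronglyMeasurable)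
    (integrable_logZ_aux n β) ((measurable_energy β).const_mul _).aestronglyMeasurable
    (Eventually.of_forall fun g b _ => abs_energy_le b g)
    ((integrable_sum_abs n).div_const _)
    (Eventually.of_forall fun g b _ => logZ_deriv hn b g)
  refine hmain.2.congr_deriv ?_
  have hn0 : (n : ℝ) ≠ 0 := by positivity
  have hs0 : Real.sqrt n ≠ 0 := by positivity
  have e1 : ∀ g : Pair n → ℝ, (n : ℝ) * energy β g =
      (∑ p : Pair n, g p * corr β g p) / Real.sqrt n := by
    intro g; unfold energy; field_simp
  simp only [e1]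
  rw [integral_div, integral_finsetSum _ fun p _ => integrable_mul_corr n β p]
  simp only [stein_corr]
  rw [← Finset.mul_sum, Finset.sum_sub_distrib,
    ← integral_finsetSum _ fun p _ => integrable_corr_sq n β p]
  simp only [sum_corr_sq]
  rw [integral_div, integral_sub ((integrable_ovlSq n β).const_mul _) (integrable_const _),
    integral_const_mul]
  simp only [Finset.sum_const, Finset.card_univ, nsmul_eq_mul, mul_one, drv_card_pair,
    integral_const, probReal_univ, smul_eq_mul, one_mul]
  have hsq : Real.sqrt n * Real.sqrt n = n := Real.mul_self_sqrt (by positivity)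
  change β / Real.sqrt n * (((n : ℝ) ^ 2 - n) / 2 - ((n : ℝ) ^ 2 * meanOvl n β - n) / 2) /
    Real.sqrt n = n * β / 2 * (1 - meanOvl n β)
  rw [div_mul_eq_mul_div, div_div, hsq]
  field_simp
  ring

theorem pressure_convex (n : ℕ) : ConvexOn ℝ Set.univ (pressure n) := by
  refine ⟨convex_univ, fun b _ c _ s t hs ht hst => ?_⟩
  simp only [smul_eq_mul]
  unfold pressure
  rw [← integral_const_mul, ← integral_const_mul, ← integral_add ((integrable_logZ_aux n b).const_mul s)
    ((integrable_logZ_aux n c).const_mul t)]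
  refine integral_mono (integrable_logZ_aux n _)
    (((integrable_logZ_aux n b).const_mul s).add ((integrable_logZ_aux n c).const_mul t)) fun g => ?_
  have := (logZ_convex g).2 (Set.mem_univ b) (Set.mem_univ c) hs ht hst
  simpa [smul_eq_mul] using this

end Vale.Agent.P150.Slow
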