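import Vale.Agent.Lib.P150.Slow.Base
import Vale.Agent.Lib.P150.Ergodic

/-!
Deterministic consequences of a large replica overlap: the spectral gap is at most
`1 / (n * ovlSq)`, and `log 2 ≤ t_mix * gap`.
-/

namespace Vale.Agent.P150.Slow

open MeasureTheory ProbabilityTheory Filter Topology Vale.Agent.P150 Matrix

variable {n : ℕ}

/-! ### The quadratic decay of a reversible semigroup is not too fast -/

section Heat
variable {w : Config n → ℝ} {T : Fin n → Config n → ℝ}

lemma heatK_add' (w : Config n → ℝ) (s t : ℝ) : heatK w (s + t) = heatK w s * heatK w t := by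
  unfold heatK
  rw [add_smul, Matrix.exp_add_of_commute]
  exact ((Commute.refl (genMat w)).smul_left s).smul_right t

lemma heatK_neg_cancel (w : Config n → ℝ) (f : Config n → ℝ) (s : ℝ) :
    heatK w (-s) *ᵥ (heatK w s *ᵥ f) = f := by
  rw [Matrix.mulVec_mulVec, ← heatK_add', neg_add_cancel, heatK_zero]

lemma genMat_heatK_comm (w : Config n → ℝ) (f : Config n → ℝ) (s : ℝ) :
    genMat w *ᵥ (heatK w s *ᵥ f) = heatK w s *ᵥ (genMat w *ᵥ f) := by
  rw [Matrix.mulVec_mulVec, Matrix.mulVec_mulVec]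
  congr 1
  have : Commute (genMat w) (NormedSpace.exp (s • genMat w)) :=
    (Commute.refl (genMat w)).smul_right s |>.exp_right
  exact this

/-- squared norm along the semigroup -/
noncomputable def uF (w : Config n → ℝ) (f : Config n → ℝ) (s : ℝ) : ℝ :=
  ∑ x, w x * (heatK w s *ᵥ f) x ^ 2

/-- derivative of `uF` -/
noncomputable def uF' (w : Config n → ℝ) (f : Config n → ℝ) (s : ℝ) : ℝ :=
  ∑ x, w x * (2 * ((heatK w s *ᵥ f) x * (genMat w *ᵥ (heatK w s *ᵥ f)) x))

/-- second derivative of `uF` -/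
noncomputable def uF'' (w : Config n → ℝ) (f : Config n → ℝ) (s : ℝ) : ℝ :=
  ∑ x, w x * (4 * (genMat w *ᵥ (heatK w s *ᵥ f)) x ^ 2)

lemma uF_deriv (w : Config n → ℝ) (f : Config n → ℝ) (s : ℝ) :
    HasDerivAt (uF w f) (uF' w f s) s := by
  have h1 := HasDerivAt.fun_sum (u := Finset.univ) fun x (_ : x ∈ Finset.univ) =>
    ((hasDerivAt_heat w f x s).fun_pow 2).const_mul (w x)
  refine h1.congr_deriv ?_
  unfold uF'
  refine Finset.sum_congr rfl fun x _ => ?_
  simp only [Nat.cast_ofNat, Nat.add_one_sub_one, pow_one]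
  ring

lemma uF'_deriv (h : CondMean w T) (f : Config n → ℝ) (s : ℝ) :
    HasDerivAt (uF' w f) (uF'' w f s) s := by
  have hL : ∀ x, HasDerivAt (fun s => (genMat w *ᵥ (heatK w s *ᵥ f)) x)
      ((genMat w *ᵥ (genMat w *ᵥ (heatK w s *ᵥ f))) x) s := by
    intro x
    have h1 := hasDerivAt_heat w (genMat w *ᵥ f) x s
    rw [← genMat_heatK_comm] at h1
    refine h1.congr_of_eventuallyEq (Eventually.of_forall fun r => ?_)
    simp only [genMat_heatK_comm]
  have h1 := HasDerivAt.fun_sum (u := Finset.univ) fun x (_ : x ∈ Finset.univ) =>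
    (((hasDerivAt_heat w f x s).fun_mul (hL x)).const_mul 2).const_mul (w x)
  refine h1.congr_deriv ?_
  unfold uF''
  have h2 := inner_gen_symm h (heatK w s *ᵥ f) (genMat w *ᵥ (heatK w s *ᵥ f))
  set a := heatK w s *ᵥ f with ha
  set b := genMat w *ᵥ a with hb
  have e1 : ∑ x, w x * (2 * (b x * b x + a x * (genMat w *ᵥ b) x)) =
      2 * ∑ x, w x * (b x * b x) + 2 * ∑ x, w x * (a x * (genMat w *ᵥ b) x) := by
    rw [Finset.mul_sum, Finset.mul_sum, ← Finset.sum_add_distrib]
    refine Finset.sum_congr rfl fun x _ => ?_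
    ring
  rw [e1, h2, ← mul_add, ← Finset.sum_add_distrib, Finset.mul_sum]
  refine Finset.sum_congr rfl fun x _ => ?_
  ring

lemma uF_logconvex (hw : ∀ x, 0 < w x) (f : Config n → ℝ) (s : ℝ) :
    uF' w f s ^ 2 ≤ uF'' w f s * uF w f s := by
  unfold uF uF' uF''
  set a := heatK w s *ᵥ f with ha
  set b := genMat w *ᵥ a with hb
  have h1 := Finset.sum_mul_sq_le_sq_mul_sq Finset.univ (fun x => Real.sqrt (w x) * (2 * b x))
    (fun x => Real.sqrt (w x) * a x)
  have e1 : ∑ x, Real.sqrt (w x) * (2 * b x) * (Real.sqrt (w x) * a x)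
      = ∑ x, w x * (2 * (a x * b x)) := by
    refine Finset.sum_congr rfl fun x _ => ?_
    have := Real.mul_self_sqrt (hw x).le
    linear_combination (2 * a x * b x) * this
  have e2 : ∑ x, (Real.sqrt (w x) * (2 * b x)) ^ 2 = ∑ x, w x * (4 * b x ^ 2) := by
    refine Finset.sum_congr rfl fun x _ => ?_
    rw [mul_pow, Real.sq_sqrt (hw x).le]
    ring
  have e3 : ∑ x, (Real.sqrt (w x) * a x) ^ 2 = ∑ x, w x * a x ^ 2 := by
    refine Finset.sum_congr rfl fun x _ => ?_
    rw [mul_pow, Real.sq_sqrt (hw x).le]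
  rw [e1, e2, e3] at h1
  exact h1

lemma uF_pos (hw : ∀ x, 0 < w x) {f : Config n → ℝ} (hf : 0 < ∑ x, w x * f x ^ 2) (s : ℝ) :
    0 < uF w f s := by
  have hnn : ∀ x, 0 ≤ w x * (heatK w s *ᵥ f) x ^ 2 := fun x =>
    mul_nonneg (hw x).le (sq_nonneg _)
  rcases (Finset.sum_nonneg fun x _ => hnn x : 0 ≤ uF w f s).lt_or_eq with h | h
  · exact h
  · exfalso
    have h0 := (Finset.sum_eq_zero_iff_of_nonneg (fun x _ => hnn x)).mp h.symm
    have h1 : heatK w s *ᵥ f = 0 := by
      funext x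
      have h2 := h0 x (Finset.mem_univ x)
      have h3 := (mul_eq_zero.mp h2).resolve_left (hw x).ne'
      exact (sq_eq_zero_iff.mp h3)
    have h4 := heatK_neg_cancel w f s
    rw [h1, Matrix.mulVec_zero] at h4
    rw [← h4] at hf
    simp at hf

lemma uF_zero (w : Config n → ℝ) (f : Config n → ℝ) : uF w f 0 = ∑ x, w x * f x ^ 2 := by
  unfold uF
  rw [heatK_zero]

/-- lower bound on the decay -/
lemma uF_lower (h : CondMean w T) {f : Config n → ℝ} (hf : 0 < ∑ x, w x * f x ^ 2) {s : ℝ}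
    (hs : 0 ≤ s) :
    uF w f 0 * Real.exp (uF' w f 0 / uF w f 0 * s) ≤ uF w f s := by
  have hpos := fun s => uF_pos h.pos hf s
  set ρ := uF' w f 0 / uF w f 0 with hρ
  have hq : ∀ s, HasDerivAt (fun s => uF' w f s / uF w f s)
      ((uF'' w f s * uF w f s - uF' w f s * uF' w f s) / uF w f s ^ 2) s := fun s =>
    (uF'_deriv h f s).fun_div (uF_deriv w f s) (hpos s).ne'
  have hmono : MonotoneOn (fun s => uF' w f s / uF w f s) (Set.Ici 0) := by
    refine monotoneOn_of_deriv_nonneg (convex_Ici 0)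
      (fun s _ => (hq s).continuousAt.continuousWithinAt)
      (fun s _ => (hq s).differentiableAt.differentiableWithinAt) ?_
    intro s _
    rw [(hq s).deriv]
    refine div_nonneg ?_ (sq_nonneg _)
    have := uF_logconvex h.pos f s
    nlinarith
  have hl : ∀ s, HasDerivAt (fun s => Real.log (uF w f s) - ρ * s)
      (uF' w f s / uF w f s - ρ) s := by
    intro s
    have h1 := ((uF_deriv w f s).log (hpos s).ne').fun_sub ((hasDerivAt_id' s).const_mul ρ)
    refine h1.congr_deriv ?_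
    ring
  have hmono2 : MonotoneOn (fun s => Real.log (uF w f s) - ρ * s) (Set.Ici 0) := by
    refine monotoneOn_of_deriv_nonneg (convex_Ici 0)
      (fun s _ => (hl s).continuousAt.continuousWithinAt)
      (fun s _ => (hl s).differentiableAt.differentiableWithinAt) ?_
    intro s hs
    rw [(hl s).deriv]
    rw [interior_Ici] at hs
    have h1 := hmono (Set.mem_Ici.mpr le_rfl) (Set.mem_Ici.mpr (le_of_lt hs)) (le_of_lt hs)
    simp only at h1
    rw [← hρ] at h1
    linarith
  have h2 := hmono2 (Set.mem_Ici.mpr le_rfl) (Set.mem_Ici.mpr hs) hs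
  simp only [mul_zero, sub_zero] at h2
  have h3 : Real.log (uF w f 0) + ρ * s ≤ Real.log (uF w f s) := by linarith
  have h4 := Real.exp_le_exp.mpr h3
  rw [Real.exp_add, Real.exp_log (hpos 0), Real.exp_log (hpos s)] at h4
  exact h4

/-- total variation bound gives contraction on mean zero functions -/
lemma heat_contract {t : ℝ}
    (ht : ∀ x, (∑ y, |heatK w t x y - w y / ∑ z, w z|) / 2 ≤ 1 / 4) {f : Config n → ℝ}
    (hf : ∑ x, w x * f x = 0) {A : ℝ} (hA : ∀ x, |f x| ≤ A) (x : Config n) :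
    |(heatK w t *ᵥ f) x| ≤ A / 2 := by
  have hA0 : 0 ≤ A := (abs_nonneg _).trans (hA x)
  have e : (heatK w t *ᵥ f) x = ∑ y, (heatK w t x y - w y / ∑ z, w z) * f y := by
    simp only [Matrix.mulVec, dotProduct, sub_mul, Finset.sum_sub_distrib]
    have : ∑ y, w y / (∑ z, w z) * f y = (∑ y, w y * f y) / ∑ z, w z := by
      rw [Finset.sum_div]
      refine Finset.sum_congr rfl fun y _ => ?_
      ring
    rw [this, hf, zero_div, sub_zero]
  rw [e]
  calc |∑ y, (heatK w t x y - w y / ∑ z, w z) * f y|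
      ≤ ∑ y, |(heatK w t x y - w y / ∑ z, w z) * f y| := Finset.abs_sum_le_sum_abs _ _
    _ ≤ ∑ y, |heatK w t x y - w y / ∑ z, w z| * A := by
        refine Finset.sum_le_sum fun y _ => ?_
        rw [abs_mul]
        exact mul_le_mul_of_nonneg_left (hA y) (abs_nonneg _)
    _ = (∑ y, |heatK w t x y - w y / ∑ z, w z|) * A := by rw [Finset.sum_mul]
    _ ≤ (1 / 2) * A := by
        refine mul_le_mul_of_nonneg_right ?_ hA0
        linarith [ht x]
    _ = A / 2 := by ring

lemma heat_contract_pow (hw : ∀ x, 0 < w x) {t : ℝ}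
    (ht : ∀ x, (∑ y, |heatK w t x y - w y / ∑ z, w z|) / 2 ≤ 1 / 4) {f : Config n → ℝ}
    (hf : ∑ x, w x * f x = 0) {A : ℝ} (hA : ∀ x, |f x| ≤ A) (k : ℕ) (x : Config n) :
    |(heatK w (k * t) *ᵥ f) x| ≤ A / 2 ^ k := by
  induction k generalizing x with
  | zero => simpa [heatK_zero] using hA x
  | succ k ih =>
    have e : heatK w (((k + 1 : ℕ) : ℝ) * t) *ᵥ f = heatK w t *ᵥ (heatK w (k * t) *ᵥ f) := by
      rw [Matrix.mulVec_mulVec, ← heatK_add']
      congr 2
      push_cast
      ring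
    rw [e]
    have h1 := heat_contract ht (f := heatK w (k * t) *ᵥ f) (A := A / 2 ^ k)
      (by rw [heatK_sum w hw, hf]) ih x
    refine h1.trans (le_of_eq ?_)
    rw [pow_succ]
    field_simp

/-- the key inequality for one test function -/
lemma log_two_le_aux (h : CondMean w T) {t : ℝ} (ht0 : 0 ≤ t)
    (ht : ∀ x, (∑ y, |heatK w t x y - w y / ∑ z, w z|) / 2 ≤ 1 / 4) {f : Config n → ℝ}
    (hf : ∑ x, w x * f x = 0) (hf2 : 0 < ∑ x, w x * f x ^ 2) :
    Real.log 2 ≤ t * ((∑ x, w x * (f x * -(genMat w *ᵥ f) x)) / ∑ x, w x * f x ^ 2) := by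
  set ρ := (∑ x, w x * (f x * -(genMat w *ᵥ f) x)) / ∑ x, w x * f x ^ 2 with hρ
  have hu0 : uF w f 0 = ∑ x, w x * f x ^ 2 := uF_zero w f
  have hu0' : uF' w f 0 / uF w f 0 = -(2 * ρ) := by
    rw [hu0, hρ]
    unfold uF'
    rw [heatK_zero]
    have e : ∑ x, w x * (2 * (f x * (genMat w *ᵥ f) x)) =
        -(2 * ∑ x, w x * (f x * -(genMat w *ᵥ f) x)) := by
      rw [Finset.mul_sum, ← Finset.sum_neg_distrib]
      refine Finset.sum_congr rfl fun x _ => ?_
      ring
    rw [e]
    ring
  obtain ⟨A, hA⟩ : ∃ A : ℝ, ∀ x, |f x| ≤ A :=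
    ⟨∑ x, |f x|, fun x => Finset.single_le_sum (f := fun x => |f x|)
      (fun z _ => abs_nonneg _) (Finset.mem_univ x)⟩
  have hZ : 0 < ∑ x, w x := Finset.sum_pos (fun x _ => h.pos x) ⟨fun _ => true, Finset.mem_univ _⟩
  by_contra hcon
  push Not at hcon
  -- the ratio is larger than one
  have hr : 1 < 4 * Real.exp (-(2 * ρ) * t) := by
    have h1 : Real.log 4 = 2 * Real.log 2 := by
      rw [show (4 : ℝ) = 2 ^ 2 by norm_num, Real.log_pow]
      norm_num
    have h2 : 0 < Real.log 4 + -(2 * ρ) * t := by rw [h1]; nlinarith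
    calc (1 : ℝ) = Real.exp 0 := Real.exp_zero.symm
      _ < Real.exp (Real.log 4 + -(2 * ρ) * t) := Real.exp_lt_exp.mpr h2
      _ = 4 * Real.exp (-(2 * ρ) * t) := by
          rw [Real.exp_add, Real.exp_log (by norm_num)]
  obtain ⟨k, hk⟩ := pow_unbounded_of_one_lt ((∑ x, w x) * A ^ 2 / uF w f 0) hr
  have hpos0 : 0 < uF w f 0 := by rw [hu0]; exact hf2
  have h1 := uF_lower h hf2 (s := k * t) (by positivity)
  rw [hu0'] at h1
  have h2 : uF w f (k * t) ≤ (∑ x, w x) * A ^ 2 / 4 ^ k := by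
    unfold uF
    calc ∑ x, w x * (heatK w (k * t) *ᵥ f) x ^ 2 ≤ ∑ x, w x * (A / 2 ^ k) ^ 2 := by
          refine Finset.sum_le_sum fun x _ => mul_le_mul_of_nonneg_left ?_ (h.pos x).le
          rw [← sq_abs]
          exact pow_le_pow_left₀ (abs_nonneg _) (heat_contract_pow h.pos ht hf hA k x) 2
      _ = (∑ x, w x) * A ^ 2 / 4 ^ k := by
          rw [← Finset.sum_mul, div_pow, ← pow_mul, mul_comm k 2, pow_mul]
          norm_num
          ring
  have h3 : uF w f 0 * Real.exp (-(2 * ρ) * (k * t)) * 4 ^ k ≤ (∑ x, w x) * A ^ 2 := by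
    have h4 := h1.trans h2
    rwa [le_div_iff₀ (by positivity)] at h4
  have h5 : (4 * Real.exp (-(2 * ρ) * t)) ^ k = Real.exp (-(2 * ρ) * (k * t)) * 4 ^ k := by
    rw [mul_pow, ← Real.exp_nat_mul, mul_comm]
    congr 2
    ring
  rw [h5, div_lt_iff₀ hpos0] at hk
  linarith

end Heat

/-! ### Application to the dynamics -/

lemma exp_sub_const (β : ℝ) (g : Pair n → ℝ) (f : Config n → ℝ) (c : ℝ) :
    expect β g (fun x => f x - c) = expect β g f - c := by
  unfold expect
  simp only [mul_sub, Finset.sum_sub_distrib]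
  rw [← Finset.sum_mul, sum_gibbs, one_mul]

lemma dirichlet_nonneg' (β : ℝ) (g : Pair n → ℝ) (f : Config n → ℝ) : 0 ≤ dirichlet β g f := by
  have hZ : 0 < ∑ x, isingW (skJ β g) 0 x :=
    Finset.sum_pos (fun x _ => Real.exp_pos _) ⟨fun _ => true, Finset.mem_univ _⟩
  have h := dirichlet_eq β g f
  have h2 : 0 ≤ dirichlet β g f * (∑ x, isingW (skJ β g) 0 x) := by
    rw [h]
    exact Finset.sum_nonneg fun i _ => Finset.sum_nonneg fun x _ =>
      mul_nonneg (Real.exp_pos _).le (sq_nonneg _)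
  exact nonneg_of_mul_nonneg_left h2 hZ

lemma variance_nonneg' (β : ℝ) (g : Pair n → ℝ) (f : Config n → ℝ) : 0 ≤ variance β g f :=
  Finset.sum_nonneg fun x _ => mul_nonneg (gibbs_pos β g x).le (sq_nonneg _)

lemma spectralGap_nonneg' (β : ℝ) (g : Pair n → ℝ) : 0 ≤ spectralGap β g := by
  refine Real.sInf_nonneg ?_
  rintro r ⟨f, -, rfl⟩
  exact div_nonneg (dirichlet_nonneg' β g f) (variance_nonneg' β g f)

lemma spectralGap_mul_le (β : ℝ) (g : Pair n → ℝ) (f : Config n → ℝ) :
    spectralGap β g * variance β g f ≤ dirichlet β g f := by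
  by_cases hv : variance β g f = 0
  · rw [hv, mul_zero]
    exact dirichlet_nonneg' β g f
  · have hpos : 0 < variance β g f := lt_of_le_of_ne (variance_nonneg' β g f) (Ne.symm hv)
    rw [← le_div_iff₀ hpos]
    refine csInf_le ⟨0, ?_⟩ ⟨f, hv, rfl⟩
    rintro r ⟨f, -, rfl⟩
    exact div_nonneg (dirichlet_nonneg' β g f) (variance_nonneg' β g f)

/-- `log 2 ≤ t * (dirichlet / variance)` for every mixed time `t` -/
lemma log_two_le_ratio (β : ℝ) (g : Pair n → ℝ) {t : ℝ} (ht0 : 0 ≤ t)
    (ht : ∀ x, tvDist β g t x ≤ 1 / 4) {f : Config n → ℝ} (hf : variance β g f ≠ 0) :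
    Real.log 2 ≤ t * (dirichlet β g f / variance β g f) := by
  have hc := condMean_ising (skJ β g) (skJ_symm β g) (skJ_self β g) 0
  set w := isingW (skJ β g) 0 with hw
  have hZ : 0 < ∑ x, w x := Finset.sum_pos (fun x _ => hc.pos x) ⟨fun _ => true, Finset.mem_univ _⟩
  have htv : ∀ x, (∑ y, |heatK w t x y - w y / ∑ z, w z|) / 2 ≤ 1 / 4 := by
    intro x
    have := ht x
    rw [tvDist_eq] at this
    exact this
  set m := expect β g f with hm
  have hmean : ∑ x, w x * (f x - m) = 0 := by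
    have h1 := exp_sub_const β g f m
    rw [← hm, sub_self, expect_eq, ← hw, div_eq_zero_iff] at h1
    exact h1.resolve_right hZ.ne'
  have hvar : variance β g f = (∑ x, w x * (f x - m) ^ 2) / ∑ x, w x := by
    unfold variance
    rw [expect_eq, ← hw]
  have hpos : 0 < variance β g f := lt_of_le_of_ne (variance_nonneg' β g f) (Ne.symm hf)
  have hpos2 : 0 < ∑ x, w x * (f x - m) ^ 2 := by
    rw [hvar] at hpos
    have := mul_pos hpos hZ
    rwa [div_mul_cancel₀ _ hZ.ne'] at this
  have hgen : genMat w *ᵥ (fun x => f x - m) = genMat w *ᵥ f := by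
    have e : (fun x => f x - m) = f - fun _ => m := rfl
    rw [e, Matrix.mulVec_sub, genMat_const w hc.pos, sub_zero]
  have hdir : dirichlet β g f =
      (∑ x, w x * ((f x - m) * -(genMat w *ᵥ (fun x => f x - m)) x)) / ∑ x, w x := by
    unfold dirichlet
    rw [expect_eq, ← hw, hgen, generator_eq, ← hw]
    congr 1
    have e : ∑ x, w x * ((f x - m) * -(genMat w *ᵥ f) x) =
        ∑ x, w x * (f x * -(genMat w *ᵥ f) x) + m * ∑ x, w x * (genMat w *ᵥ f) x := by
      rw [Finset.mul_sum, ← Finset.sum_add_distrib]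
      refine Finset.sum_congr rfl fun x _ => ?_
      ring
    rw [e, sum_genMat w hc.pos, mul_zero, add_zero]
  have h1 := log_two_le_aux hc ht0 htv hmean hpos2
  have h2 : dirichlet β g f / variance β g f =
      (∑ x, w x * ((f x - m) * -(genMat w *ᵥ (fun x => f x - m)) x)) /
        ∑ x, w x * (f x - m) ^ 2 := by
    rw [hdir, hvar, div_div_div_cancel_right₀ hZ.ne']
  rw [h2]
  exact h1

theorem log_two_le_mixing (hn : 1 ≤ n) (β : ℝ) (g : Pair n → ℝ) :
    Real.log 2 ≤ mixingTime β g * spectralGap β g := by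
  have hc := condMean_ising (skJ β g) (skJ_symm β g) (skJ_self β g) 0
  have hlog : 0 < Real.log 2 := Real.log_pos (by norm_num)
  obtain ⟨t₁, ht₁0, ht₁⟩ := exists_mixed hc
  have ht₁' : ∀ x, tvDist β g t₁ x ≤ 1 / 4 := fun x => by rw [tvDist_eq]; exact ht₁ x
  have i0 : Fin n := ⟨0, by omega⟩
  have key : ∀ t : ℝ, 0 ≤ t → (∀ x, tvDist β g t x ≤ 1 / 4) →
      Real.log 2 ≤ t * spectralGap β g := by
    intro t ht0 ht
    have htpos : 0 < t := by
      rcases ht0.lt_or_eq with h | h
      · exact h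
      · have h1 := log_two_le_ratio β g ht0 ht (variance_pos_of β g i0)
        rw [← h, zero_mul] at h1
        linarith
    have h2 : Real.log 2 / t ≤ spectralGap β g := by
      refine le_csInf ⟨_, fun x => spin (x i0), variance_pos_of β g i0, rfl⟩ ?_
      rintro r ⟨f, hf, rfl⟩
      rw [div_le_iff₀ htpos, mul_comm]
      exact log_two_le_ratio β g ht0 ht hf
    rw [div_le_iff₀ htpos, mul_comm] at h2
    exact h2
  have hgap : 0 < spectralGap β g := by
    rcases (spectralGap_nonneg' β g).lt_or_eq with h | h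
    · exact h
    · have h1 := key t₁ ht₁0 ht₁'
      rw [← h, mul_zero] at h1
      linarith
  have h3 : Real.log 2 / spectralGap β g ≤ mixingTime β g := by
    refine le_csInf ⟨t₁, ht₁0, ht₁'⟩ ?_
    rintro t ⟨ht0, ht⟩
    rw [div_le_iff₀ hgap]
    exact key t ht0 ht
  rwa [div_le_iff₀ hgap] at h3

/-! ### The gap and the overlap -/

/-- two-point function -/
noncomputable def twoPt (β : ℝ) (g : Pair n → ℝ) (i j : Fin n) : ℝ :=
  expect β g (fun x => spin (x i) * spin (x j))

lemma ovlSq_eq (β : ℝ) (g : Pair n → ℝ) :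
    (n : ℝ) ^ 2 * ovlSq β g = (n : ℝ) ^ 2 * ((∑ i, ∑ j, twoPt β g i j ^ 2) / (n : ℝ) ^ 2) := by
  congr 1
  have e1 : ∀ x y : Config n, gibbs β g x * gibbs β g y * ovl x y ^ 2 =
      (∑ i, ∑ j, (gibbs β g x * (spin (x i) * spin (x j))) *
        (gibbs β g y * (spin (y i) * spin (y j)))) / (n : ℝ) ^ 2 := by
    intro x y
    unfold ovl
    rw [div_pow, sq (∑ i, spin (x i) * spin (y i)), Finset.sum_mul_sum, mul_div_assoc']
    congr 1
    rw [Finset.mul_sum]
    refine Finset.sum_congr rfl fun i _ => ?_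
    rw [Finset.mul_sum]
    refine Finset.sum_congr rfl fun j _ => ?_
    ring
  unfold ovlSq
  simp only [e1]
  simp only [← Finset.sum_div]
  congr 1
  have e2 : ∀ i j, twoPt β g i j ^ 2 = ∑ x, ∑ y, (gibbs β g x * (spin (x i) * spin (x j))) *
        (gibbs β g y * (spin (y i) * spin (y j))) := by
    intro i j
    unfold twoPt expect
    rw [sq, Finset.sum_mul_sum]
  simp only [e2]
  calc ∑ x, ∑ y, ∑ i, ∑ j, (gibbs β g x * (spin (x i) * spin (x j))) *
        (gibbs β g y * (spin (y i) * spin (y j)))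
      = ∑ x, ∑ i, ∑ y, ∑ j, (gibbs β g x * (spin (x i) * spin (x j))) *
        (gibbs β g y * (spin (y i) * spin (y j))) := by
        refine Finset.sum_congr rfl fun x _ => ?_
        rw [Finset.sum_comm]
    _ = ∑ i, ∑ x, ∑ y, ∑ j, (gibbs β g x * (spin (x i) * spin (x j))) *
        (gibbs β g y * (spin (y i) * spin (y j))) := by rw [Finset.sum_comm]
    _ = ∑ i, ∑ x, ∑ j, ∑ y, (gibbs β g x * (spin (x i) * spin (x j))) *
        (gibbs β g y * (spin (y i) * spin (y j))) := by
        refine Finset.sum_congr rfl fun i _ => Finset.sum_congr rfl fun x _ => ?_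
        rw [Finset.sum_comm]
    _ = ∑ i, ∑ j, ∑ x, ∑ y, (gibbs β g x * (spin (x i) * spin (x j))) *
        (gibbs β g y * (spin (y i) * spin (y j))) := by
        refine Finset.sum_congr rfl fun i _ => ?_
        rw [Finset.sum_comm]

lemma mean_linear_zero (β : ℝ) (g : Pair n → ℝ) (v : Fin n → ℝ) :
    expect β g (fun x => ∑ j, v j * spin (x j)) = 0 := by
  set w := isingW (skJ β g) 0 with hw
  have hs : ∀ b : Bool, spin (!b) = -spin b := by intro b; cases b <;> simp
  have hflip : ∀ x : Config n, w (fun i => !(x i)) = w x := by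
    intro x
    rw [hw]
    unfold isingW
    simp only [hs, Pi.zero_apply, zero_mul, Finset.sum_const_zero, add_zero]
    congr 2
    refine Finset.sum_congr rfl fun i _ => Finset.sum_congr rfl fun j _ => ?_
    ring
  have hinv : Function.Involutive (fun y : Config n => fun i => !(y i)) := by
    intro y; funext i; simp
  have h1 : ∑ x, w x * (∑ j, v j * spin (x j)) = ∑ x : Config n, -(w x * ∑ j, v j * spin (x j)) := by
    refine Fintype.sum_bijective _ hinv.bijective _ _ fun y => ?_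
    rw [hflip]
    simp only [hs, mul_neg, Finset.sum_neg_distrib, neg_neg]
  rw [Finset.sum_neg_distrib] at h1
  have h2 : ∑ x, w x * (∑ j, v j * spin (x j)) = 0 := by linarith
  rw [expect_eq, ← hw, h2, zero_div]

lemma gap_row (β : ℝ) (g : Pair n → ℝ) (i : Fin n) :
    spectralGap β g * ∑ j, twoPt β g i j ^ 2 ≤ 1 := by
  set a := ∑ j, twoPt β g i j ^ 2 with ha
  have ha0 : 0 ≤ a := Finset.sum_nonneg fun j _ => sq_nonneg _
  set f : Config n → ℝ := fun x => ∑ j, twoPt β g i j * spin (x j) with hf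
  have hc := condMean_ising (skJ β g) (skJ_symm β g) (skJ_self β g) 0
  set w := isingW (skJ β g) 0 with hw
  have hZ : 0 < ∑ x, w x := Finset.sum_pos (fun x _ => hc.pos x) ⟨fun _ => true, Finset.mem_univ _⟩
  have hvar : variance β g f = expect β g (fun x => f x ^ 2) := by
    unfold variance
    rw [hf, mean_linear_zero]
    simp only [sub_zero]
  have hdir : dirichlet β g f ≤ a := by
    have h1 := dirichlet_eq β g f
    have h2 := sum_condE_linear_le hc (fun j => twoPt β g i j)
    rw [← hw] at h1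
    have h3 : dirichlet β g f * ∑ x, w x ≤ a * ∑ x, w x := by
      rw [h1]
      exact h2
    exact le_of_mul_le_mul_right h3 hZ
  have hself : a = expect β g (fun x => spin (x i) * f x) := by
    unfold expect
    have e : ∀ x, gibbs β g x * (spin (x i) * f x) =
        ∑ j, twoPt β g i j * (gibbs β g x * (spin (x i) * spin (x j))) := by
      intro x
      rw [hf, Finset.mul_sum, Finset.mul_sum]
      refine Finset.sum_congr rfl fun j _ => ?_
      ring
    simp only [e]
    rw [Finset.sum_comm, ha]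
    refine Finset.sum_congr rfl fun j _ => ?_
    rw [← Finset.mul_sum, sq]
    rfl
  have hcs : a ^ 2 ≤ expect β g (fun x => f x ^ 2) := by
    have h1 := Finset.sum_mul_sq_le_sq_mul_sq Finset.univ
      (fun x => Real.sqrt (gibbs β g x) * spin (x i)) (fun x => Real.sqrt (gibbs β g x) * f x)
    have e1 : ∑ x, Real.sqrt (gibbs β g x) * spin (x i) * (Real.sqrt (gibbs β g x) * f x) = a := by
      rw [hself]
      unfold expect
      refine Finset.sum_congr rfl fun x _ => ?_
      have := Real.mul_self_sqrt (gibbs_pos β g x).le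
      linear_combination (spin (x i) * f x) * this
    have e2 : ∑ x, (Real.sqrt (gibbs β g x) * spin (x i)) ^ 2 = 1 := by
      rw [← sum_gibbs β g]
      refine Finset.sum_congr rfl fun x _ => ?_
      rw [mul_pow, Real.sq_sqrt (gibbs_pos β g x).le, spin_sq, mul_one]
    have e3 : ∑ x, (Real.sqrt (gibbs β g x) * f x) ^ 2 = expect β g (fun x => f x ^ 2) := by
      unfold expect
      refine Finset.sum_congr rfl fun x _ => ?_
      rw [mul_pow, Real.sq_sqrt (gibbs_pos β g x).le]
    rw [e1, e2, e3, one_mul] at h1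
    exact h1
  have h4 := spectralGap_mul_le β g f
  have h5 := spectralGap_nonneg' β g
  have h6 : spectralGap β g * a ^ 2 ≤ a := by
    calc spectralGap β g * a ^ 2 ≤ spectralGap β g * variance β g f := by
          rw [hvar]; exact mul_le_mul_of_nonneg_left hcs h5
      _ ≤ dirichlet β g f := h4
      _ ≤ a := hdir
  rcases ha0.lt_or_eq with h | h
  · have h7 : (spectralGap β g * a) * a ≤ 1 * a := by nlinarith
    exact le_of_mul_le_mul_right h7 h
  · rw [← h, mul_zero]
    exact zero_le_one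

theorem gap_overlap (hn : 1 ≤ n) (β : ℝ) (g : Pair n → ℝ) :
    spectralGap β g * (n * ovlSq β g) ≤ 1 := by
  have hn' : (0 : ℝ) < n := by exact_mod_cast (by omega : 0 < n)
  have h1 := ovlSq_eq β g
  rw [mul_div_cancel₀ _ (by positivity)] at h1
  have h2 : spectralGap β g * ∑ i, ∑ j, twoPt β g i j ^ 2 ≤ n := by
    rw [Finset.mul_sum]
    calc ∑ i, spectralGap β g * ∑ j, twoPt β g i j ^ 2 ≤ ∑ _i : Fin n, (1 : ℝ) :=
          Finset.sum_le_sum fun i _ => gap_row β g i
      _ = n := by simp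
  rw [← h1] at h2
  have h3 : (spectralGap β g * (n * ovlSq β g)) * n ≤ 1 * n := by
    calc (spectralGap β g * (n * ovlSq β g)) * n = spectralGap β g * (n ^ 2 * ovlSq β g) := by ring
      _ ≤ n := h2
      _ = 1 * n := (one_mul _).symm
  exact le_of_mul_le_mul_right h3 hn'

end Vale.Agent.P150.Slow
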