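import Vale.Agent.Lib.P150.Slow.Base

/-!
Low-temperature part, module S9: the positive part of the energy excess tends to zero in `L¹`.
-/

namespace Vale.Agent.P150.Slow

open MeasureTheory ProbabilityTheory Filter Topology Vale.Agent.P150

/-- The energy is bounded by a difference quotient of the log partition function. -/
theorem energy_le_slope {n : ℕ} (hn : 1 ≤ n)
    (hderiv : ∀ (β : ℝ) (g : Pair n → ℝ), HasDerivAt (fun b => logZ b g) (n * energy β g) β)
    (hconv : ∀ g : Pair n → ℝ, ConvexOn ℝ Set.univ (fun b => logZ b g))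
    (b δ : ℝ) (hδ : 0 < δ) (g : Pair n → ℝ) :
    energy b g ≤ (logZ (b + δ) g / n - logZ b g / n) / δ := by
  have hn' : (0 : ℝ) < n := by exact_mod_cast hn
  have h1 := (hconv g).le_slope_of_hasDerivAt (Set.mem_univ b) (Set.mem_univ (b + δ))
    (by linarith) (hderiv b g)
  rw [slope_def_field] at h1
  have h2 : b + δ - b = δ := by ring
  rw [h2] at h1
  have h3 : (logZ (b + δ) g / n - logZ b g / n) / δ =
      ((logZ (b + δ) g - logZ b g) / δ) / n := by
    field_simp
  rw [h3, le_div_iff₀ hn', mul_comm]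
  exact h1

/-- Module S9, with the statements of the other modules as hypotheses. -/
theorem energy_excess_of
    (hlim : ∃ P : ℝ → ℝ, (∀ β, Tendsto (fun n : ℕ => pressure n β / n) atTop (𝓝 (P β))) ∧
      ∀ β, 1 < β → ∃ r δ : ℝ, 0 < r ∧ 0 < δ ∧
        P (β + 2 * δ) - P (β + δ) ≤ δ * (β / 2) * (1 - r))
    (hderiv : ∀ {n : ℕ} (_ : 1 ≤ n) (β : ℝ) (g : Pair n → ℝ),
      HasDerivAt (fun b => logZ b g) (n * energy β g) β)
    (hconv : ∀ {n : ℕ} (g : Pair n → ℝ), ConvexOn ℝ Set.univ (fun b => logZ b g))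
    (hvar : ∀ (n : ℕ) (_ : 1 ≤ n) (β : ℝ),
      ∫ g, (logZ β g - pressure n β) ^ 2 ∂(disorder n) ≤ β ^ 2 * n)
    (hint : ∀ (n : ℕ) (β : ℝ), Integrable (fun g => (logZ β g - pressure n β) ^ 2) (disorder n))
    (β : ℝ) (hβ : 1 < β) : ∃ r δ : ℝ, 0 < r ∧ 0 < δ ∧
    Tendsto (fun n : ℕ => ∫ g : Pair n → ℝ, max (energy (β + δ) g - β / 2 * (1 - r)) 0
      ∂(disorder n)) atTop (𝓝 0) := by
  obtain ⟨P, hP, hP'⟩ := hlim
  obtain ⟨r, δ, hr, hδ, hPδ⟩ := hP' β hβ
  refine ⟨r, δ, hr, hδ, ?_⟩
  -- the bound of the integral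
  let D : ℝ → ℕ → ℝ := fun b n =>
    (b ^ 2 + 1) / 2 * (Real.sqrt n / n) + |pressure n b / n - P b|
  have hD : ∀ b, Tendsto (D b) atTop (𝓝 0) := by
    intro b
    have h1 : Tendsto (fun n : ℕ => Real.sqrt n / n) atTop (𝓝 0) := by
      have h2 : Tendsto (fun n : ℕ => (Real.sqrt n)⁻¹) atTop (𝓝 0) :=
        tendsto_inv_atTop_zero.comp
          (Real.tendsto_sqrt_atTop.comp tendsto_natCast_atTop_atTop)
      refine h2.congr fun n => ?_
      rw [Real.sqrt_div_self]
    have h3 : Tendsto (fun n : ℕ => |pressure n b / n - P b|) atTop (𝓝 0) := by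
      have := ((hP b).sub_const (P b)).abs
      simpa using this
    have := (h1.const_mul ((b ^ 2 + 1) / 2)).add h3
    simpa using this
  have hlimD : Tendsto (fun n => (D (β + 2 * δ) n + D (β + δ) n) / δ) atTop (𝓝 0) := by
    have := ((hD (β + 2 * δ)).add (hD (β + δ))).div_const δ
    simpa using this
  refine squeeze_zero' (Eventually.of_forall fun n => integral_nonneg fun g => le_max_right _ _)
    ?_ hlimD
  filter_upwards [eventually_ge_atTop 1] with n hn
  have hprob : IsProbabilityMeasure (disorder n) := by unfold disorder; infer_instance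
  have hn' : (0 : ℝ) < n := by exact_mod_cast hn
  have hsq : (0 : ℝ) < Real.sqrt n := Real.sqrt_pos.2 hn'
  -- pointwise bound of the fluctuations
  let X : ℝ → (Pair n → ℝ) → ℝ := fun b g =>
    ((logZ b g - pressure n b) ^ 2 / (2 * Real.sqrt n) + Real.sqrt n / 2) / n +
      |pressure n b / n - P b|
  have hX : ∀ b g, |logZ b g / n - P b| ≤ X b g := by
    intro b g
    have h1 : |logZ b g / n - P b| ≤ |logZ b g / n - pressure n b / n| +
        |pressure n b / n - P b| := abs_sub_le _ _ _
    refine h1.trans (add_le_add ?_ le_rfl)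
    rw [← sub_div, abs_div, abs_of_pos hn']
    apply div_le_div_of_nonneg_right _ hn'.le
    have h2 : |logZ b g - pressure n b| ^ 2 = (logZ b g - pressure n b) ^ 2 := sq_abs _
    rw [← h2]
    have h3 : 0 ≤ (|logZ b g - pressure n b| - Real.sqrt n) ^ 2 := sq_nonneg _
    have h4 : |logZ b g - pressure n b| ^ 2 / (2 * Real.sqrt n) + Real.sqrt n / 2 -
        |logZ b g - pressure n b| =
        (|logZ b g - pressure n b| - Real.sqrt n) ^ 2 / (2 * Real.sqrt n) := by
      field_simp
      ring
    have h5 : 0 ≤ (|logZ b g - pressure n b| - Real.sqrt n) ^ 2 / (2 * Real.sqrt n) := by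
      positivity
    linarith
  have hXint : ∀ b, Integrable (X b) (disorder n) := by
    intro b
    exact ((((hint n b).div_const _).add (integrable_const _)).div_const _).add
      (integrable_const _)
  have hXI : ∀ b, ∫ g, X b g ∂(disorder n) ≤ D b n := by
    intro b
    have h1 : ∫ g, X b g ∂(disorder n) =
        ((∫ g, (logZ b g - pressure n b) ^ 2 ∂(disorder n)) / (2 * Real.sqrt n) +
          Real.sqrt n / 2) / n + |pressure n b / n - P b| := by
      have h0 : X b = fun g => (logZ b g - pressure n b) ^ 2 * (1 / (2 * Real.sqrt n * n)) +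
          (Real.sqrt n / 2 / n + |pressure n b / n - P b|) := by
        funext g
        simp only [X]
        field_simp
        ring
      rw [h0, integral_add ((hint n b).mul_const _) (integrable_const _), integral_mul_const,
        integral_const, probReal_univ, one_smul]
      field_simp
      ring
    rw [h1]
    refine add_le_add ?_ le_rfl
    have h2 : (∫ g, (logZ b g - pressure n b) ^ 2 ∂(disorder n)) / (2 * Real.sqrt n) ≤
        b ^ 2 * n / (2 * Real.sqrt n) := by
      apply div_le_div_of_nonneg_right (hvar n hn b)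
      positivity
    have h3 : b ^ 2 * n / (2 * Real.sqrt n) = b ^ 2 / 2 * Real.sqrt n := by
      have h4 : (n : ℝ) = Real.sqrt n * Real.sqrt n := (Real.mul_self_sqrt hn'.le).symm
      rw [div_eq_iff (by positivity)]
      calc b ^ 2 * (n : ℝ) = b ^ 2 * (Real.sqrt n * Real.sqrt n) := by rw [← h4]
        _ = _ := by ring
    have h5 : (b ^ 2 + 1) / 2 * (Real.sqrt n / n) =
        (b ^ 2 / 2 * Real.sqrt n + Real.sqrt n / 2) / n := by ring
    rw [h5]
    apply div_le_div_of_nonneg_right _ hn'.le
    rw [← h3]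
    exact add_le_add h2 le_rfl
  have hpt : ∀ g : Pair n → ℝ, max (energy (β + δ) g - β / 2 * (1 - r)) 0 ≤
      (X (β + 2 * δ) g + X (β + δ) g) / δ := by
    intro g
    have h1 := energy_le_slope hn (fun b g => hderiv hn b g) (fun g => hconv g) (β + δ) δ hδ g
    rw [show β + δ + δ = β + 2 * δ by ring] at h1
    have h2 := hX (β + 2 * δ) g
    have h3 := hX (β + δ) g
    have h4 := le_abs_self (logZ (β + 2 * δ) g / n - P (β + 2 * δ))
    have h5 := neg_abs_le (logZ (β + δ) g / n - P (β + δ))
    have h6 := abs_nonneg (logZ (β + 2 * δ) g / n - P (β + 2 * δ))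
    have h7 := abs_nonneg (logZ (β + δ) g / n - P (β + δ))
    refine max_le ?_ (div_nonneg (by linarith) hδ.le)
    rw [le_div_iff₀ hδ] at h1 ⊢
    have h8 : (energy (β + δ) g - β / 2 * (1 - r)) * δ =
        energy (β + δ) g * δ - δ * (β / 2) * (1 - r) := by ring
    rw [h8]
    linarith
  calc ∫ g : Pair n → ℝ, max (energy (β + δ) g - β / 2 * (1 - r)) 0 ∂(disorder n)
      ≤ ∫ g, (X (β + 2 * δ) g + X (β + δ) g) / δ ∂(disorder n) := by
        apply integral_mono_of_nonneg
        · exact Eventually.of_forall fun g => le_max_right _ _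
        · exact ((hXint _).add (hXint _)).div_const _
        · exact Eventually.of_forall hpt
    _ = ((∫ g, X (β + 2 * δ) g ∂(disorder n)) + ∫ g, X (β + δ) g ∂(disorder n)) / δ := by
        rw [integral_div, integral_add (hXint _) (hXint _)]
    _ ≤ _ := by
        apply div_le_div_of_nonneg_right _ hδ.le
        exact add_le_add (hXI _) (hXI _)

end Vale.Agent.P150.Slow
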