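import Vale.Agent.Lib.P150.Slow.Base
import Vale.Agent.Lib.P150.Kahane

/-!
Gaussian comparison for the logarithm of the partition function, from the comparison of the
small moments.
-/

namespace Vale.Agent.P150.Slow

open MeasureTheory ProbabilityTheory Filter Topology Vale.Agent.P150

section

variable {T ι : Type} [Fintype T] [Nonempty T] [Fintype ι]

/-- the exponential sum -/
noncomputable def expSum (a : T → ι → ℝ) (g : ι → ℝ) : ℝ := ∑ v, Real.exp (∑ k, a v k * g k)

theorem expSum_pos (a : T → ι → ℝ) (g : ι → ℝ) : 0 < expSum a g :=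
  Finset.sum_pos (fun _ _ => Real.exp_pos _) Finset.univ_nonempty

theorem measurable_expSum (a : T → ι → ℝ) : Measurable (expSum a) := by
  unfold expSum
  fun_prop

/-- a common bound for the coefficients -/
noncomputable def coefBd (a : T → ι → ℝ) : ℝ := ∑ v, ∑ k, |a v k|

omit [Nonempty T] in
theorem abs_lin_le (a : T → ι → ℝ) (g : ι → ℝ) (v : T) :
    |∑ k, a v k * g k| ≤ coefBd a * ∑ k, |g k| := by
  refine (Finset.abs_sum_le_sum_abs _ _).trans ?_
  rw [Finset.mul_sum]
  refine Finset.sum_le_sum fun k _ => ?_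
  rw [abs_mul]
  refine mul_le_mul_of_nonneg_right ?_ (abs_nonneg _)
  have h1 : |a v k| ≤ ∑ k, |a v k| :=
    Finset.single_le_sum (f := fun k => |a v k|) (fun _ _ => abs_nonneg _) (Finset.mem_univ k)
  have h2 : ∑ k, |a v k| ≤ coefBd a :=
    Finset.single_le_sum (f := fun v => ∑ k, |a v k|)
      (fun _ _ => Finset.sum_nonneg fun _ _ => abs_nonneg _) (Finset.mem_univ v)
  exact h1.trans h2

omit [Nonempty T] in
theorem expSum_le (a : T → ι → ℝ) (g : ι → ℝ) :
    expSum a g ≤ Fintype.card T * Real.exp (coefBd a * ∑ k, |g k|) := by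
  unfold expSum
  calc ∑ v, Real.exp (∑ k, a v k * g k) ≤ ∑ _v : T, Real.exp (coefBd a * ∑ k, |g k|) :=
        Finset.sum_le_sum fun v _ => Real.exp_le_exp.mpr ((le_abs_self _).trans (abs_lin_le a g v))
    _ = _ := by rw [Finset.sum_const, Finset.card_univ, nsmul_eq_mul]

theorem inv_expSum_le (a : T → ι → ℝ) (g : ι → ℝ) :
    (expSum a g)⁻¹ ≤ Real.exp (coefBd a * ∑ k, |g k|) := by
  obtain ⟨v⟩ := ‹Nonempty T›
  have h1 : Real.exp (-(coefBd a * ∑ k, |g k|)) ≤ expSum a g := by
    refine (Real.exp_le_exp.mpr ?_).trans (Finset.single_le_sum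
      (f := fun v => Real.exp (∑ k, a v k * g k)) (fun _ _ => (Real.exp_pos _).le)
      (Finset.mem_univ v))
    have := abs_lin_le a g v
    have := neg_abs_le (∑ k, a v k * g k)
    linarith
  rw [inv_le_comm₀ (by haveI : Nonempty T := ⟨v⟩; exact expSum_pos a g) (Real.exp_pos _),
    ← Real.exp_neg]
  exact h1

theorem slope_bounds {S p : ℝ} (hS : 0 < S) (hp : 0 < p) (hp1 : p ≤ 1) :
    |(S ^ p - 1) / p| ≤ (S + S⁻¹) * (2 + S) := by
  have hlog : |Real.log S| ≤ S + S⁻¹ := by
    rw [abs_le]
    have h1 : Real.log S ≤ S := (Real.log_le_sub_one_of_pos hS).trans (by linarith)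
    have h2 : Real.log S⁻¹ ≤ S⁻¹ := (Real.log_le_sub_one_of_pos (inv_pos.mpr hS)).trans (by linarith)
    rw [Real.log_inv] at h2
    have h3 : 0 < S⁻¹ := inv_pos.mpr hS
    constructor <;> linarith
  have hSp : S ^ p = Real.exp (p * Real.log S) := by
    rw [Real.rpow_def_of_pos hS, mul_comm]
  set y := p * Real.log S with hy
  have h1 : y ≤ Real.exp y - 1 := by linarith [Real.add_one_le_exp y]
  have h2 : Real.exp y - 1 ≤ y * Real.exp y := by
    have := Real.add_one_le_exp (-y)
    have h3 : Real.exp (-y) * Real.exp y = 1 := by rw [← Real.exp_add]; simp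
    have h4 := Real.exp_pos y
    nlinarith
  have hSp1 : S ^ p ≤ 1 + S := by
    rcases le_or_gt S 1 with h | h
    · have := Real.rpow_le_one hS.le h hp.le
      linarith
    · have := Real.rpow_le_rpow_of_exponent_le h.le hp1
      rw [Real.rpow_one] at this
      linarith
  have hl : Real.log S ≤ (S ^ p - 1) / p := by
    rw [le_div_iff₀ hp, hSp]
    linarith [mul_comm p (Real.log S)]
  have hu : (S ^ p - 1) / p ≤ Real.log S * S ^ p := by
    rw [div_le_iff₀ hp, hSp]
    calc Real.exp y - 1 ≤ y * Real.exp y := h2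
      _ = Real.log S * Real.exp y * p := by rw [hy]; ring
  have hSpp : 0 < S ^ p := Real.rpow_pos_of_pos hS p
  have h5 : |(S ^ p - 1) / p| ≤ |Real.log S| * (2 + S) := by
    rw [abs_le]
    have h6 := neg_abs_le (Real.log S)
    have h7 := le_abs_self (Real.log S)
    have h8 := abs_nonneg (Real.log S)
    constructor
    · nlinarith
    · nlinarith
  exact h5.trans (mul_le_mul_of_nonneg_right hlog (by linarith))

theorem integrable_bound (a : T → ι → ℝ) :
    Integrable (fun g => (expSum a g + (expSum a g)⁻¹) * (2 + expSum a g)) (stdG ι) := by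
  classical
  have hm := measurable_expSum a
  refine integrable_of_growth_pi (by fun_prop)
    (M := (Fintype.card T + 1) * (2 + Fintype.card T)) (C := 2 * coefBd a) fun g => ?_
  have h0 := expSum_pos a g
  have h1 := expSum_le a g
  have h2 := inv_expSum_le a g
  set e := Real.exp (coefBd a * ∑ k, |g k|) with he
  have he1 : 1 ≤ e := by
    rw [he]
    refine Real.one_le_exp (mul_nonneg ?_ (Finset.sum_nonneg fun _ _ => abs_nonneg _))
    exact Finset.sum_nonneg fun _ _ => Finset.sum_nonneg fun _ _ => abs_nonneg _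
  have he2 : Real.exp (2 * coefBd a * ∑ i, |g i|) = e * e := by
    rw [he, ← Real.exp_add]; ring_nf
  rw [he2, abs_of_pos (by positivity)]
  have hc : (0 : ℝ) ≤ Fintype.card T := by positivity
  calc (expSum a g + (expSum a g)⁻¹) * (2 + expSum a g)
      ≤ (Fintype.card T * e + e) * (2 * e + Fintype.card T * e) := by
        gcongr
        linarith
    _ = _ := by ring

theorem tendsto_slope_integral (a : T → ι → ℝ) :
    Tendsto (fun n : ℕ => ∫ g, (expSum a g ^ ((n : ℝ) + 1)⁻¹ - 1) / ((n : ℝ) + 1)⁻¹ ∂(stdG ι))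
      atTop (𝓝 (∫ g, Real.log (expSum a g) ∂(stdG ι))) := by
  have hm := measurable_expSum a
  refine tendsto_integral_of_dominated_convergence _ (fun n => ?_) (integrable_bound a)
    (fun n => ae_of_all _ fun g => ?_) (ae_of_all _ fun g => ?_)
  · exact Measurable.aestronglyMeasurable (by fun_prop)
  · rw [Real.norm_eq_abs]
    refine slope_bounds (expSum_pos a g) (by positivity) ?_
    refine inv_le_one_of_one_le₀ ?_
    have : (0 : ℝ) ≤ n := by positivity
    linarith
  · have hS := expSum_pos a g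
    have h1 : HasDerivAt (fun x : ℝ => expSum a g ^ x) (Real.log (expSum a g)) 0 := by
      have := (Real.hasStrictDerivAt_const_rpow hS 0).hasDerivAt
      simpa using this
    have h2 := h1.tendsto_slope_zero_right
    have h3 : Tendsto (fun n : ℕ => ((n : ℝ) + 1)⁻¹) atTop (𝓝[>] 0) := by
      rw [tendsto_nhdsWithin_iff]
      refine ⟨tendsto_inv_atTop_zero.comp
        (tendsto_atTop_add_const_right _ _ tendsto_natCast_atTop_atTop), ?_⟩
      exact Eventually.of_forall fun n => by
        show (0 : ℝ) < ((n : ℝ) + 1)⁻¹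
        positivity
    refine (h2.comp h3).congr fun n => ?_
    simp only [Function.comp_apply, zero_add, Real.rpow_zero, smul_eq_mul]
    rw [div_eq_mul_inv, mul_comm]

theorem integrable_slope (a : T → ι → ℝ) {p : ℝ} (hp : 0 < p) (hp1 : p ≤ 1) :
    Integrable (fun g => (expSum a g ^ p - 1) / p) (stdG ι) := by
  have hm := measurable_expSum a
  refine (integrable_bound a).mono' (Measurable.aestronglyMeasurable (by fun_prop))
    (ae_of_all _ fun g => ?_)
  rw [Real.norm_eq_abs]
  exact slope_bounds (expSum_pos a g) hp hp1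

end

/-- S1 -/
theorem log_comparison {T ι : Type} [Fintype T] [Nonempty T] [Fintype ι]
    (a c : T → ι → ℝ)
    (horth : ∀ v w, ∑ k, a v k * c w k = 0)
    (hvar : ∀ v, ∑ k, a v k ^ 2 ≤ ∑ k, c v k ^ 2)
    (hinc : ∀ v w, ∑ k, (a v k - a w k) ^ 2 ≤ ∑ k, (c v k - c w k) ^ 2) :
    ∫ g, Real.log (∑ v, Real.exp (∑ k, a v k * g k)) ∂(Measure.pi fun _ : ι => gaussianReal 0 1) ≤
      ∫ g, Real.log (∑ v, Real.exp (∑ k, c v k * g k))
        ∂(Measure.pi fun _ : ι => gaussianReal 0 1) := by
  classical
  refine le_of_tendsto_of_tendsto' (tendsto_slope_integral a) (tendsto_slope_integral c)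
    fun n => ?_
  set p : ℝ := ((n : ℝ) + 1)⁻¹ with hp
  have hp0 : 0 < p := by positivity
  have hp1 : p ≤ 1 := by
    refine inv_le_one_of_one_le₀ ?_
    have : (0 : ℝ) ≤ n := by positivity
    linarith
  have h1 := comparison a c horth hvar hinc (b := 1) zero_le_one hp0.le hp1
  simp only [one_mul] at h1
  have h2 : ∀ e : T → ι → ℝ, ∫ g, (expSum e g ^ p - 1) / p ∂(stdG ι) =
      (∫ g, expSum e g ^ p ∂(stdG ι) - 1) / p := by
    intro e
    have hi : Integrable (fun g => expSum e g ^ p) (stdG ι) := by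
      have := ((integrable_slope e hp0 hp1).mul_const p).add (integrable_const (1 : ℝ))
      refine this.congr (ae_of_all _ fun g => ?_)
      simp only [Pi.add_apply]
      rw [div_mul_cancel₀ _ hp0.ne']
      ring
    rw [integral_div, integral_sub hi (integrable_const _)]
    simp
  rw [h2, h2]
  refine div_le_div_of_nonneg_right ?_ hp0.le
  exact sub_le_sub_right h1 1

end Vale.Agent.P150.Slow
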