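import Vale.Agent.Lib.P150.Slow.Base
import Vale.Agent.Lib.P150.Kahane
import Vale.Agent.Lib.P150.Slow.LogComp
import Vale.Agent.Lib.P150.GOE

/-!
S2: the replica symmetric upper bound for the quenched free energy, by Gaussian comparison.
-/

namespace Vale.Agent.P150.Slow

open MeasureTheory ProbabilityTheory Filter Topology Vale.Agent.P150

section LogSum

variable {T ι : Type} [Fintype T] [Nonempty T] [Fintype ι]

theorem abs_log_sum_exp_le (L : T → ℝ) {B : ℝ} (hB : ∀ x, |L x| ≤ B) :
    |Real.log (∑ x, Real.exp (L x))| ≤ Real.log (Fintype.card T) + B := by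
  have hcard : (1 : ℝ) ≤ Fintype.card T := by exact_mod_cast Fintype.card_pos
  have hlc : 0 ≤ Real.log (Fintype.card T) := Real.log_nonneg hcard
  have hle : ∑ x, Real.exp (L x) ≤ Fintype.card T * Real.exp B := by
    refine (Finset.sum_le_sum fun x _ =>
      Real.exp_le_exp.mpr ((le_abs_self (L x)).trans (hB x))).trans (le_of_eq ?_)
    rw [Finset.sum_const, Finset.card_univ, nsmul_eq_mul]
  have hpos : 0 < ∑ x, Real.exp (L x) :=
    Finset.sum_pos (fun x _ => Real.exp_pos _) Finset.univ_nonempty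
  have hge : Real.exp (-B) ≤ ∑ x, Real.exp (L x) := by
    obtain ⟨x0⟩ := (inferInstance : Nonempty T)
    refine le_trans ?_ (Finset.single_le_sum (f := fun x => Real.exp (L x))
      (fun x _ => (Real.exp_pos _).le) (Finset.mem_univ x0))
    exact Real.exp_le_exp.mpr (by have := (abs_le.mp (hB x0)).1; linarith)
  rw [abs_le]
  constructor
  · have := Real.log_le_log (Real.exp_pos _) hge
    rw [Real.log_exp] at this
    linarith
  · have := Real.log_le_log hpos hle
    rw [Real.log_mul (by positivity) (Real.exp_pos _).ne', Real.log_exp] at this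
    exact this

omit [Nonempty T] in
theorem measurable_logsum (a : T → ι → ℝ) :
    Measurable (fun g : ι → ℝ => Real.log (∑ v, Real.exp (∑ k, a v k * g k))) := by
  refine Real.measurable_log.comp (Finset.measurable_fun_sum _ fun v _ => ?_)
  exact Real.measurable_exp.comp (Finset.measurable_fun_sum _ fun k _ =>
    (measurable_pi_apply k).const_mul _)

theorem integrable_logsum (a : T → ι → ℝ) :
    Integrable (fun g : ι → ℝ => Real.log (∑ v, Real.exp (∑ k, a v k * g k))) (stdG ι) := by
  set C : ℝ := ∑ v, ∑ k, |a v k| with hC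
  have hCle : ∀ v k, |a v k| ≤ C := fun v k =>
    (Finset.single_le_sum (f := fun k => |a v k|) (fun _ _ => abs_nonneg _)
      (Finset.mem_univ k)).trans
      (Finset.single_le_sum (f := fun v => ∑ k, |a v k|)
        (fun _ _ => Finset.sum_nonneg fun _ _ => abs_nonneg _) (Finset.mem_univ v))
  have hcard : (1 : ℝ) ≤ Fintype.card T := by exact_mod_cast Fintype.card_pos
  have hlc : 0 ≤ Real.log (Fintype.card T) := Real.log_nonneg hcard
  refine integrable_of_growth_pi (measurable_logsum a)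
    (M := Real.log (Fintype.card T) + 1) (C := C) fun g => ?_
  have hb : ∀ v, |∑ k, a v k * g k| ≤ C * ∑ k, |g k| := fun v => by
    refine (Finset.abs_sum_le_sum_abs _ _).trans ?_
    rw [Finset.mul_sum]
    refine Finset.sum_le_sum fun k _ => ?_
    rw [abs_mul]
    exact mul_le_mul_of_nonneg_right (hCle v k) (abs_nonneg _)
  have h1 := abs_log_sum_exp_le (fun v => ∑ k, a v k * g k) hb
  have hS : 0 ≤ C * ∑ k, |g k| := by
    refine mul_nonneg ?_ (Finset.sum_nonneg fun _ _ => abs_nonneg _)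
    exact Finset.sum_nonneg fun _ _ => Finset.sum_nonneg fun _ _ => abs_nonneg _
  have h2 := Real.add_one_le_exp (C * ∑ k, |g k|)
  nlinarith [mul_nonneg hlc hS]

theorem log_sum_exp_add (L : T → ℝ) (c : ℝ) :
    Real.log (∑ x, Real.exp (L x + c)) = Real.log (∑ x, Real.exp (L x)) + c := by
  have hpos : 0 < ∑ x, Real.exp (L x) :=
    Finset.sum_pos (fun x _ => Real.exp_pos _) Finset.univ_nonempty
  simp only [Real.exp_add]
  rw [← Finset.sum_mul, Real.log_mul hpos.ne' (Real.exp_pos _).ne', Real.log_exp]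

end LogSum

section Coefs

variable {n : ℕ}

/-- index set of the Gaussian variables used in the comparison -/
abbrev GIdx (n : ℕ) : Type := (Pair n ⊕ Unit) ⊕ (Fin n ⊕ Config n)

/-- coefficients of the Sherrington-Kirkpatrick field plus a common Gaussian -/
noncomputable def coefX (β A : ℝ) (x : Config n) : GIdx n → ℝ :=
  Sum.elim (Sum.elim (fun p => β / Real.sqrt n * (spin (x p.1.1) * spin (x p.1.2)))
    (fun _ => A)) (fun _ => 0)

/-- coefficients of the replica symmetric field -/
noncomputable def coefY (r w : ℝ) (x : Config n) : GIdx n → ℝ :=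
  Sum.elim (fun _ => 0) (Sum.elim (fun i => r * spin (x i)) (fun y => if y = x then w else 0))

theorem coef_orth (β A r w : ℝ) (x y : Config n) :
    ∑ k, coefX β A x k * coefY r w y k = 0 := by
  simp [coefX, coefY, Fintype.sum_sum_type]

theorem card_pair : (∑ _p : Pair n, (1 : ℝ)) = ((n : ℝ) ^ 2 - n) / 2 := by
  have h := sum_symm_eq (n := n) (fun _ _ => (1 : ℝ)) (fun _ _ => rfl)
  simp only [Finset.sum_const, Finset.card_univ, Fintype.card_fin, nsmul_eq_mul, mul_one] at h ⊢
  nlinarith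

theorem sum_pair_spin (x y : Config n) :
    ∑ p : Pair n, (spin (x p.1.1) * spin (x p.1.2)) * (spin (y p.1.1) * spin (y p.1.2)) =
      ((∑ i, spin (x i) * spin (y i)) ^ 2 - n) / 2 := by
  have h := sum_symm_eq (n := n)
    (fun i j => (spin (x i) * spin (y i)) * (spin (x j) * spin (y j))) (fun i j => by ring)
  have h1 : ∑ i, ∑ j, (spin (x i) * spin (y i)) * (spin (x j) * spin (y j)) =
      (∑ i, spin (x i) * spin (y i)) ^ 2 := by
    rw [sq, Finset.sum_mul_sum]
  have h2 : ∑ i : Fin n, (spin (x i) * spin (y i)) * (spin (x i) * spin (y i)) = n := by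
    have : ∀ i : Fin n, (spin (x i) * spin (y i)) * (spin (x i) * spin (y i)) = 1 := fun i => by
      have e1 := spin_mul_self (x i)
      have e2 := spin_mul_self (y i)
      calc (spin (x i) * spin (y i)) * (spin (x i) * spin (y i))
          = (spin (x i) * spin (x i)) * (spin (y i) * spin (y i)) := by ring
        _ = 1 := by rw [e1, e2, mul_one]
    simp [this]
  rw [h1, h2] at h
  have h3 : ∑ p : Pair n, (spin (x p.1.1) * spin (x p.1.2)) * (spin (y p.1.1) * spin (y p.1.2)) =
      ∑ p : Pair n, (spin (x p.1.1) * spin (y p.1.1)) * (spin (x p.1.2) * spin (y p.1.2)) :=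
    Finset.sum_congr rfl fun p _ => by ring
  rw [h3]
  linarith

theorem sum_coefX_sq (β A : ℝ) (hn : 1 ≤ n) (x : Config n) :
    ∑ k, coefX β A x k ^ 2 = β ^ 2 * (n - 1) / 2 + A ^ 2 := by
  have hn0 : (0 : ℝ) < n := by exact_mod_cast hn
  have hsq : (β / Real.sqrt n) ^ 2 = β ^ 2 / n := by
    rw [div_pow, Real.sq_sqrt hn0.le]
  have h1 : ∀ p : Pair n, (β / Real.sqrt n * (spin (x p.1.1) * spin (x p.1.2))) ^ 2 =
      β ^ 2 / n * 1 := fun p => by
    rw [mul_pow, hsq, mul_pow, spin_sq, spin_sq, mul_one]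
  simp only [coefX, Fintype.sum_sum_type, Sum.elim_inl, Sum.elim_inr]
  simp only [h1]
  rw [← Finset.mul_sum, card_pair]
  simp only [Finset.univ_unique, Finset.sum_const, Finset.card_singleton, one_smul, ne_eq,
    OfNat.ofNat_ne_zero, not_false_eq_true, zero_pow, smul_zero, add_zero]
  field_simp

theorem sum_coefY_sq (r w : ℝ) (x : Config n) :
    ∑ k, coefY r w x k ^ 2 = r ^ 2 * n + w ^ 2 := by
  have h1 : ∀ i : Fin n, (r * spin (x i)) ^ 2 = r ^ 2 := fun i => by
    rw [mul_pow, spin_sq, mul_one]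
  have h2 : ∀ y : Config n, (if y = x then w else 0) ^ 2 = if y = x then w ^ 2 else 0 := fun y => by
    split_ifs <;> simp
  simp only [coefY, Fintype.sum_sum_type, Sum.elim_inl, Sum.elim_inr]
  simp only [h1, h2]
  simp
  ring

theorem sum_coefX_sub_sq (β A : ℝ) (hn : 1 ≤ n) (x y : Config n) :
    ∑ k, (coefX β A x k - coefX β A y k) ^ 2 =
      β ^ 2 / n * ((n : ℝ) ^ 2 - (∑ i, spin (x i) * spin (y i)) ^ 2) := by
  have hn0 : (0 : ℝ) < n := by exact_mod_cast hn
  have hsq : (β / Real.sqrt n) ^ 2 = β ^ 2 / n := by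
    rw [div_pow, Real.sq_sqrt hn0.le]
  have h1 : ∀ p : Pair n, (β / Real.sqrt n * (spin (x p.1.1) * spin (x p.1.2)) -
      β / Real.sqrt n * (spin (y p.1.1) * spin (y p.1.2))) ^ 2 =
      β ^ 2 / n * (2 * 1 - 2 * ((spin (x p.1.1) * spin (x p.1.2)) *
        (spin (y p.1.1) * spin (y p.1.2)))) := fun p => by
    rw [← mul_sub, mul_pow, hsq]
    congr 1
    have e1 := spin_sq (x p.1.1)
    have e2 := spin_sq (x p.1.2)
    have e3 := spin_sq (y p.1.1)
    have e4 := spin_sq (y p.1.2)
    calc (spin (x p.1.1) * spin (x p.1.2) - spin (y p.1.1) * spin (y p.1.2)) ^ 2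
        = spin (x p.1.1) ^ 2 * spin (x p.1.2) ^ 2 + spin (y p.1.1) ^ 2 * spin (y p.1.2) ^ 2
          - 2 * ((spin (x p.1.1) * spin (x p.1.2)) *
        (spin (y p.1.1) * spin (y p.1.2))) := by ring
      _ = _ := by rw [e1, e2, e3, e4]; ring
  simp only [coefX, Fintype.sum_sum_type, Sum.elim_inl, Sum.elim_inr]
  simp only [h1]
  rw [← Finset.mul_sum, Finset.sum_sub_distrib, ← Finset.mul_sum, ← Finset.mul_sum, card_pair,
    sum_pair_spin]
  simp only [sub_self, ne_eq, OfNat.ofNat_ne_zero, not_false_eq_true, zero_pow,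
    Finset.sum_const_zero, add_zero]
  ring

theorem sum_coefY_sub_sq (r w : ℝ) {x y : Config n} (hxy : x ≠ y) :
    ∑ k, (coefY r w x k - coefY r w y k) ^ 2 =
      r ^ 2 * (2 * n - 2 * ∑ i, spin (x i) * spin (y i)) + 2 * w ^ 2 := by
  have h1 : ∀ i : Fin n, (r * spin (x i) - r * spin (y i)) ^ 2 =
      r ^ 2 * (2 - 2 * (spin (x i) * spin (y i))) := fun i => by
    have e1 := spin_sq (x i)
    have e2 := spin_sq (y i)
    calc (r * spin (x i) - r * spin (y i)) ^ 2
        = r ^ 2 * (spin (x i) ^ 2 + spin (y i) ^ 2 - 2 * (spin (x i) * spin (y i))) := by ring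
      _ = _ := by rw [e1, e2]; ring
  have h2 : ∀ z : Config n, ((if z = x then w else 0) - (if z = y then w else 0)) ^ 2 =
      (if z = x then w ^ 2 else 0) + (if z = y then w ^ 2 else 0) := fun z => by
    by_cases hx : z = x
    · have hy : z ≠ y := fun h => hxy (hx.symm.trans h)
      simp [hx, hxy]
    · by_cases hy : z = y
      · rw [if_neg hx, if_pos hy, if_neg hx, if_pos hy]; ring
      · rw [if_neg hx, if_neg hy, if_neg hx, if_neg hy]; ring
  simp only [coefY, Fintype.sum_sum_type, Sum.elim_inl, Sum.elim_inr]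
  simp only [h1, h2]
  rw [← Finset.mul_sum, Finset.sum_sub_distrib, ← Finset.mul_sum, Finset.sum_add_distrib]
  simp
  ring

end Coefs

section Main

/-- concatenation is measure preserving -/
theorem measurePreserving_elim (A B : Type) [Fintype A] [Fintype B] :
    MeasurePreserving (fun p : (A → ℝ) × (B → ℝ) => (Sum.elim p.1 p.2 : A ⊕ B → ℝ))
      ((stdG A).prod (stdG B)) (stdG (A ⊕ B)) := by
  have h := measurePreserving_sumPiEquivProdPi_symm (X := fun _ : A ⊕ B => ℝ)
    (fun _ : A ⊕ B => gaussianReal 0 1)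
  have e : (fun p : (A → ℝ) × (B → ℝ) => (Sum.elim p.1 p.2 : A ⊕ B → ℝ)) =
      ((MeasurableEquiv.sumPiEquivProdPi (fun _ : A ⊕ B => ℝ)).symm :
        (A → ℝ) × (B → ℝ) → (A ⊕ B → ℝ)) := by
    funext p
    funext k
    cases k <;> rfl
  rw [e]
  exact h

theorem integrable_exp_eval {B : Type} [Fintype B] (w : ℝ) (x : B) :
    Integrable (fun ζ : B → ℝ => Real.exp (w * ζ x)) (stdG B) :=
  (measurePreserving_eval (fun _ : B => gaussianReal 0 1) x).integrable_comp_of_integrable
    (integrable_exp_mul_gaussianReal (μ := 0) (v := 1) w)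

theorem integral_exp_eval {B : Type} [Fintype B] (w : ℝ) (x : B) :
    ∫ ζ : B → ℝ, Real.exp (w * ζ x) ∂(stdG B) = Real.exp (w ^ 2 / 2) := by
  have hmp := measurePreserving_eval (fun _ : B => gaussianReal 0 1) x
  have h1 : ∫ ζ : B → ℝ, Real.exp (w * ζ x) ∂(stdG B) =
      ∫ t, Real.exp (w * t) ∂(gaussianReal 0 1) := by
    rw [← hmp.map_eq, integral_map hmp.measurable.aemeasurable (by fun_prop)]
  rw [h1]
  have h2 := congrFun (mgf_id_gaussianReal (μ := 0) (v := 1)) w
  simp only [mgf, id_eq, zero_mul, NNReal.coe_one, one_mul, zero_add] at h2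
  exact h2

variable {n : ℕ}

/-- the replica symmetric partition function -/
noncomputable def Z0 (r : ℝ) (z : Fin n → ℝ) : ℝ :=
  ∑ x : Config n, Real.exp (∑ i, r * spin (x i) * z i)

theorem Z0_pos (r : ℝ) (z : Fin n → ℝ) : 0 < Z0 r z :=
  Finset.sum_pos (fun _ _ => Real.exp_pos _) ⟨fun _ => true, Finset.mem_univ _⟩

theorem Z0_eq (r : ℝ) (z : Fin n → ℝ) : Z0 r z = ∏ i, (2 * Real.cosh (r * z i)) := by
  have h : ∀ i, 2 * Real.cosh (r * z i) = ∑ b : Bool, Real.exp (r * spin b * z i) := fun i => by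
    rw [Fintype.sum_bool, Real.cosh_eq]
    simp
    ring
  simp only [h]
  rw [Fintype.prod_sum]
  unfold Z0
  exact Finset.sum_congr rfl fun x _ => Real.exp_sum _ _

theorem integrable_log_Z0 (r : ℝ) :
    Integrable (fun z : Fin n → ℝ => Real.log (Z0 r z)) (stdG (Fin n)) :=
  integrable_logsum (T := Config n) (ι := Fin n) (fun x i => r * spin (x i))

theorem integral_log_Z0 (r : ℝ) :
    ∫ z : Fin n → ℝ, Real.log (Z0 r z) ∂(stdG (Fin n)) =
      n * (Real.log 2 + ∫ z, Real.log (Real.cosh (r * z)) ∂(gaussianReal 0 1)) := by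
  have hint : Integrable (fun t : ℝ => Real.log (Real.cosh (r * t))) (gaussianReal 0 1) := by
    refine integrable_of_growth (by fun_prop) (M := 1) (C := |r|) fun t => ?_
    have h1 : 0 ≤ Real.log (Real.cosh (r * t)) := Real.log_nonneg (Real.one_le_cosh _)
    rw [abs_of_nonneg h1, one_mul]
    have h2 : Real.log (Real.cosh (r * t)) ≤ |r * t| := by
      rw [Real.log_le_iff_le_exp (Real.cosh_pos _), ← Real.cosh_abs, Real.cosh_eq]
      have : Real.exp (-|r * t|) ≤ Real.exp |r * t| :=
        Real.exp_le_exp.mpr (by linarith [abs_nonneg (r * t)])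
      linarith
    rw [abs_mul] at h2
    linarith [Real.add_one_le_exp (|r| * |t|)]
  have hi : ∀ i : Fin n, Integrable (fun z : Fin n → ℝ => Real.log (Real.cosh (r * z i)))
      (stdG (Fin n)) := fun i =>
    (measurePreserving_eval (fun _ : Fin n => gaussianReal 0 1) i).integrable_comp_of_integrable
      hint
  have hv : ∀ i : Fin n, ∫ z : Fin n → ℝ, Real.log (Real.cosh (r * z i)) ∂(stdG (Fin n)) =
      ∫ z, Real.log (Real.cosh (r * z)) ∂(gaussianReal 0 1) := fun i => by
    have hmp := measurePreserving_eval (fun _ : Fin n => gaussianReal 0 1) i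
    conv_rhs => rw [← hmp.map_eq]
    rw [integral_map hmp.measurable.aemeasurable (by rw [hmp.map_eq]; exact hint.1)]
  have e : ∀ z : Fin n → ℝ, Real.log (Z0 r z) =
      ∑ i, (Real.log 2 + Real.log (Real.cosh (r * z i))) := fun z => by
    rw [Z0_eq, Real.log_prod fun i _ => (mul_pos two_pos (Real.cosh_pos _)).ne']
    exact Finset.sum_congr rfl fun i _ =>
      Real.log_mul two_ne_zero (Real.cosh_pos _).ne'
  simp only [e]
  have hi2 : ∀ i : Fin n, Integrable (fun z : Fin n → ℝ =>
      Real.log 2 + Real.log (Real.cosh (r * z i))) (stdG (Fin n)) := fun i =>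
    (integrable_const _).add (hi i)
  rw [integral_finsetSum _ fun i _ => hi2 i]
  have : ∀ i : Fin n, ∫ z : Fin n → ℝ, (Real.log 2 + Real.log (Real.cosh (r * z i)))
      ∂(stdG (Fin n)) = Real.log 2 + ∫ z, Real.log (Real.cosh (r * z)) ∂(gaussianReal 0 1) :=
    fun i => by
      rw [integral_add (integrable_const _) (hi i), hv i, integral_const]
      simp
  rw [Finset.sum_congr rfl fun i _ => this i]
  simp only [Finset.sum_const, Finset.card_univ, Fintype.card_fin, nsmul_eq_mul]

/-- Jensen's inequality in the extra variables. -/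
theorem rs_field_bound (r w : ℝ) :
    ∫ g : GIdx n → ℝ, Real.log (∑ x : Config n, Real.exp (∑ k, coefY r w x k * g k))
      ∂(stdG (GIdx n)) ≤
      ∫ z : Fin n → ℝ, Real.log (Z0 r z) ∂(stdG (Fin n)) + w ^ 2 / 2 := by
  set f : (Fin n ⊕ Config n → ℝ) → ℝ := fun h =>
    Real.log (∑ x : Config n, Real.exp (∑ k, (Sum.elim (fun i => r * spin (x i))
      (fun y => if y = x then w else 0) : Fin n ⊕ Config n → ℝ) k * h k)) with hf
  have hfi : Integrable f (stdG (Fin n ⊕ Config n)) := integrable_logsum _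
  have h1 : ∫ g : GIdx n → ℝ, Real.log (∑ x : Config n, Real.exp (∑ k, coefY r w x k * g k))
      ∂(stdG (GIdx n)) = ∫ h, f h ∂(stdG (Fin n ⊕ Config n)) := by
    have hmp := measurePreserving_inr (A := Pair n ⊕ Unit) (B := Fin n ⊕ Config n)
    rw [← hmp.map_eq, integral_map hmp.measurable.aemeasurable
      (by rw [hmp.map_eq]; exact hfi.1)]
    refine integral_congr_ae (Eventually.of_forall fun g => ?_)
    simp only [hf, coefY, Fintype.sum_sum_type, Sum.elim_inl, Sum.elim_inr, zero_mul,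
      Finset.sum_const_zero, zero_add]
  rw [h1]
  have hmp2 := measurePreserving_elim (Fin n) (Config n)
  have h2 : ∫ h, f h ∂(stdG (Fin n ⊕ Config n)) =
      ∫ p : (Fin n → ℝ) × (Config n → ℝ), f (Sum.elim p.1 p.2)
        ∂((stdG (Fin n)).prod (stdG (Config n))) := by
    rw [← hmp2.map_eq, integral_map hmp2.measurable.aemeasurable
      (by rw [hmp2.map_eq]; exact hfi.1)]
  rw [h2]
  have hf2 : ∀ p : (Fin n → ℝ) × (Config n → ℝ), f (Sum.elim p.1 p.2) =
      Real.log (∑ x : Config n, Real.exp (∑ i, r * spin (x i) * p.1 i) *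
        Real.exp (w * p.2 x)) := fun p => by
    simp only [hf, Fintype.sum_sum_type, Sum.elim_inl, Sum.elim_inr, ite_mul, zero_mul]
    simp only [Finset.sum_ite_eq', Finset.mem_univ, if_true, Real.exp_add]
  -- the bound
  set φ : Config n → (Fin n → ℝ) → ℝ := fun x z =>
    Real.exp (∑ i, r * spin (x i) * z i) / (Z0 r z * Real.exp (w ^ 2 / 2)) with hφ
  have hφm : ∀ x, Measurable (φ x) := fun x => by
    refine Measurable.div ?_ (Measurable.mul_const ?_ _)
    · exact Real.measurable_exp.comp (Finset.measurable_fun_sum _ fun k _ =>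
        (measurable_pi_apply k).const_mul _)
    · exact Finset.measurable_fun_sum _ fun v _ => Real.measurable_exp.comp
        (Finset.measurable_fun_sum _ fun k _ => (measurable_pi_apply k).const_mul _)
  have hφ0 : ∀ x z, 0 ≤ φ x z := fun x z =>
    div_nonneg (Real.exp_pos _).le (mul_nonneg (Z0_pos r z).le (Real.exp_pos _).le)
  have hφ1 : ∀ x z, φ x z ≤ 1 := fun x z => by
    rw [hφ]
    refine (div_le_one (mul_pos (Z0_pos r z) (Real.exp_pos _))).mpr ?_
    have h3 : Real.exp (∑ i, r * spin (x i) * z i) ≤ Z0 r z :=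
      Finset.single_le_sum (f := fun x : Config n => Real.exp (∑ i, r * spin (x i) * z i))
        (fun _ _ => (Real.exp_pos _).le) (Finset.mem_univ x)
    have h4 : 1 ≤ Real.exp (w ^ 2 / 2) := Real.one_le_exp (by positivity)
    nlinarith [Z0_pos r z]
  have hφi : ∀ x, Integrable (φ x) (stdG (Fin n)) := fun x => by
    refine Integrable.mono' (integrable_const (1 : ℝ)) (hφm x).aestronglyMeasurable
      (Eventually.of_forall fun z => ?_)
    rw [Real.norm_eq_abs, abs_of_nonneg (hφ0 x z)]
    exact hφ1 x z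
  have hsumφ : ∀ z, ∑ x, φ x z = (Real.exp (w ^ 2 / 2))⁻¹ := fun z => by
    simp only [hφ]
    rw [← Finset.sum_div]
    change Z0 r z / (Z0 r z * Real.exp (w ^ 2 / 2)) = _
    rw [div_mul_cancel_left₀ (Z0_pos r z).ne']
  have hprod : ∀ x, Integrable (fun p : (Fin n → ℝ) × (Config n → ℝ) =>
      φ x p.1 * Real.exp (w * p.2 x)) ((stdG (Fin n)).prod (stdG (Config n))) := fun x =>
    (hφi x).mul_prod (integrable_exp_eval w x)
  have hlogi : Integrable (fun p : (Fin n → ℝ) × (Config n → ℝ) => Real.log (Z0 r p.1))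
      ((stdG (Fin n)).prod (stdG (Config n))) := (integrable_log_Z0 r).comp_fst _
  have hbound : ∀ p : (Fin n → ℝ) × (Config n → ℝ), f (Sum.elim p.1 p.2) ≤
      (Real.log (Z0 r p.1) + (w ^ 2 / 2 - 1)) + ∑ x, φ x p.1 * Real.exp (w * p.2 x) := fun p => by
    rw [hf2]
    set S : ℝ := ∑ x : Config n, Real.exp (∑ i, r * spin (x i) * p.1 i) *
        Real.exp (w * p.2 x) with hS
    set u : ℝ := Z0 r p.1 * Real.exp (w ^ 2 / 2) with hu
    have hSpos : 0 < S := Finset.sum_pos
      (fun x _ => mul_pos (Real.exp_pos _) (Real.exp_pos _)) ⟨fun _ => true, Finset.mem_univ _⟩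
    have hupos : 0 < u := mul_pos (Z0_pos r p.1) (Real.exp_pos _)
    have h3 : ∑ x, φ x p.1 * Real.exp (w * p.2 x) = S / u := by
      rw [hS, Finset.sum_div]
      refine Finset.sum_congr rfl fun x _ => ?_
      simp only [hφ]
      rw [div_mul_eq_mul_div]
    have h4 := Real.log_le_sub_one_of_pos (div_pos hSpos hupos)
    rw [Real.log_div hSpos.ne' hupos.ne'] at h4
    have h5 : Real.log u = Real.log (Z0 r p.1) + w ^ 2 / 2 := by
      rw [hu, Real.log_mul (Z0_pos r p.1).ne' (Real.exp_pos _).ne', Real.log_exp]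
    rw [h3]
    linarith
  have hRi : Integrable (fun p : (Fin n → ℝ) × (Config n → ℝ) =>
      (Real.log (Z0 r p.1) + (w ^ 2 / 2 - 1)) + ∑ x, φ x p.1 * Real.exp (w * p.2 x))
      ((stdG (Fin n)).prod (stdG (Config n))) :=
    (hlogi.add (integrable_const _)).add (integrable_finsetSum _ fun x _ => hprod x)
  have hfi2 : Integrable (fun p : (Fin n → ℝ) × (Config n → ℝ) => f (Sum.elim p.1 p.2))
      ((stdG (Fin n)).prod (stdG (Config n))) := hmp2.integrable_comp_of_integrable hfi
  refine (integral_mono hfi2 hRi hbound).trans (le_of_eq ?_)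
  have hc1 : Integrable (fun p : (Fin n → ℝ) × (Config n → ℝ) =>
      Real.log (Z0 r p.1) + (w ^ 2 / 2 - 1)) ((stdG (Fin n)).prod (stdG (Config n))) :=
    hlogi.add (integrable_const _)
  rw [integral_add hc1 (integrable_finsetSum _ fun x _ => hprod x),
    integral_add hlogi (integrable_const _), integral_finsetSum _ fun x _ => hprod x]
  have h6 : ∀ x, ∫ p : (Fin n → ℝ) × (Config n → ℝ), φ x p.1 * Real.exp (w * p.2 x)
      ∂((stdG (Fin n)).prod (stdG (Config n))) =
      (∫ z, φ x z ∂(stdG (Fin n))) * Real.exp (w ^ 2 / 2) := fun x => by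
    rw [integral_prod_mul (φ x) (fun ζ : Config n → ℝ => Real.exp (w * ζ x)),
      integral_exp_eval]
  rw [Finset.sum_congr rfl fun x _ => h6 x, ← Finset.sum_mul, ← integral_finsetSum _
    fun x _ => hφi x]
  simp only [hsumφ]
  have h7 : ∫ p : (Fin n → ℝ) × (Config n → ℝ), Real.log (Z0 r p.1)
      ∂((stdG (Fin n)).prod (stdG (Config n))) =
      ∫ z : Fin n → ℝ, Real.log (Z0 r z) ∂(stdG (Fin n)) := by
    rw [integral_fun_fst (f := fun z => Real.log (Z0 r z))]
    simp
  rw [h7, integral_const, integral_const]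
  simp only [probReal_univ, smul_eq_mul, one_mul]
  rw [inv_mul_cancel₀ (Real.exp_pos _).ne']
  ring

/-- S2 from the comparison principle -/
theorem guerra_rs_of (hcomp : ∀ a c : Config n → GIdx n → ℝ,
      (∀ v w, ∑ k, a v k * c w k = 0) →
      (∀ v, ∑ k, a v k ^ 2 ≤ ∑ k, c v k ^ 2) →
      (∀ v w, ∑ k, (a v k - a w k) ^ 2 ≤ ∑ k, (c v k - c w k) ^ 2) →
      ∫ g, Real.log (∑ v, Real.exp (∑ k, a v k * g k)) ∂(stdG (GIdx n)) ≤
        ∫ g, Real.log (∑ v, Real.exp (∑ k, c v k * g k)) ∂(stdG (GIdx n)))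
    (hn : 1 ≤ n) (β : ℝ) (q : ℝ) (hq0 : 0 ≤ q) :
    pressure n β ≤ n * (Real.log 2 +
      ∫ z, Real.log (Real.cosh (β * Real.sqrt q * z)) ∂(gaussianReal 0 1)
      + β ^ 2 * (1 - q) ^ 2 / 4) := by
  have hn0 : (0 : ℝ) < n := by exact_mod_cast hn
  set A : ℝ := Real.sqrt (β ^ 2 * n * q ^ 2 / 2 + β ^ 2 / 2) with hA
  set w : ℝ := Real.sqrt (β ^ 2 * n * (1 - q) ^ 2 / 2) with hw
  set r : ℝ := β * Real.sqrt q with hr
  have hA2 : A ^ 2 = β ^ 2 * n * q ^ 2 / 2 + β ^ 2 / 2 := Real.sq_sqrt (by positivity)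
  have hw2 : w ^ 2 = β ^ 2 * n * (1 - q) ^ 2 / 2 := Real.sq_sqrt (by positivity)
  have hr2 : r ^ 2 = β ^ 2 * q := by rw [hr, mul_pow, Real.sq_sqrt hq0]
  have h := hcomp (coefX β A) (coefY r w) (fun x y => coef_orth β A r w x y)
    (fun x => by
      rw [sum_coefX_sq β A hn, sum_coefY_sq, hA2, hw2, hr2]
      refine le_of_eq ?_
      ring)
    (fun x y => by
      by_cases hxy : x = y
      · subst hxy
        simp
      · rw [sum_coefX_sub_sq β A hn, sum_coefY_sub_sq r w hxy, hw2, hr2]
        set S : ℝ := ∑ i, spin (x i) * spin (y i)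
        have e : β ^ 2 * q * (2 * n - 2 * S) + 2 * (β ^ 2 * n * (1 - q) ^ 2 / 2) -
            β ^ 2 / n * ((n : ℝ) ^ 2 - S ^ 2) = β ^ 2 / n * (S - q * n) ^ 2 := by
          field_simp
          ring
        have : 0 ≤ β ^ 2 / n * (S - q * n) ^ 2 := by positivity
        linarith)
  have hY := rs_field_bound (n := n) r w
  rw [integral_log_Z0] at hY
  -- the left side
  have hLi : Integrable (fun g : Pair n → ℝ => logZ β g) (stdG (Pair n)) := by
    refine (integrable_logsum (T := Config n) (ι := Pair n)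
      (fun x p => β / Real.sqrt n * (spin (x p.1.1) * spin (x p.1.2)))).congr
      (Eventually.of_forall fun g => ?_)
    unfold logZ gibbsWeight
    simp only [Finset.mul_sum]
    congr 1
    refine Finset.sum_congr rfl fun x _ => ?_
    congr 1
    exact Finset.sum_congr rfl fun p _ => by ring
  have hX : ∫ g : GIdx n → ℝ, Real.log (∑ v, Real.exp (∑ k, coefX β A v k * g k))
      ∂(stdG (GIdx n)) = pressure n β := by
    have e1 : ∀ g : GIdx n → ℝ, Real.log (∑ v, Real.exp (∑ k, coefX β A v k * g k)) =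
        logZ β (fun p => g (Sum.inl (Sum.inl p))) + A * g (Sum.inl (Sum.inr ())) := fun g => by
      unfold logZ gibbsWeight
      rw [← log_sum_exp_add]
      congr 1
      refine Finset.sum_congr rfl fun x _ => ?_
      congr 1
      simp only [coefX, Fintype.sum_sum_type, Sum.elim_inl, Sum.elim_inr, zero_mul,
        Finset.sum_const_zero, add_zero, Finset.univ_unique, Finset.sum_singleton]
      congr 1
      rw [Finset.mul_sum]
      exact Finset.sum_congr rfl fun p _ => by ring
    simp only [e1]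
    have hmp : MeasurePreserving (fun (g : GIdx n → ℝ) (p : Pair n) => g (Sum.inl (Sum.inl p)))
        (stdG (GIdx n)) (stdG (Pair n)) :=
      (measurePreserving_inl (A := Pair n) (B := Unit)).comp
        (measurePreserving_inl (A := Pair n ⊕ Unit) (B := Fin n ⊕ Config n))
    have hmp1 := measurePreserving_eval (fun _ : GIdx n => gaussianReal 0 1)
      (Sum.inl (Sum.inr ()) : GIdx n)
    have hid : Integrable (fun t : ℝ => t) (gaussianReal 0 1) :=
      integrable_of_growth (by fun_prop) (M := 1) (C := 1) fun t => by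
        rw [one_mul, one_mul]; linarith [Real.add_one_le_exp |t|]
    have hgi : Integrable (fun g : GIdx n → ℝ => A * g (Sum.inl (Sum.inr ())))
        (stdG (GIdx n)) := (hmp1.integrable_comp_of_integrable hid).const_mul A
    have hLi2 : Integrable (fun g : GIdx n → ℝ => logZ β (fun p => g (Sum.inl (Sum.inl p))))
        (stdG (GIdx n)) := hmp.integrable_comp_of_integrable hLi
    rw [integral_add hLi2 hgi, integral_const_mul]
    have e2 : ∫ g : GIdx n → ℝ, g (Sum.inl (Sum.inr ())) ∂(stdG (GIdx n)) = 0 := by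
      have : ∫ g : GIdx n → ℝ, g (Sum.inl (Sum.inr ())) ∂(stdG (GIdx n)) =
          ∫ t, t ∂(gaussianReal 0 1) := by
        rw [← hmp1.map_eq, integral_map hmp1.measurable.aemeasurable (by fun_prop)]
      rw [this, integral_id_gaussianReal]
    have e3 : ∫ g : GIdx n → ℝ, logZ β (fun p => g (Sum.inl (Sum.inl p))) ∂(stdG (GIdx n)) =
        pressure n β := by
      change _ = ∫ g, logZ β g ∂(stdG (Pair n))
      conv_rhs => rw [← hmp.map_eq]
      rw [integral_map hmp.measurable.aemeasurable (by rw [hmp.map_eq]; exact hLi.1)]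
    rw [e2, e3, mul_zero, add_zero]
  rw [hX] at h
  refine (h.trans hY).trans (le_of_eq ?_)
  rw [hw2]
  ring

end Main

/-- S2 -/
theorem guerra_rs (n : ℕ) (hn : 1 ≤ n) (β : ℝ) (q : ℝ) (hq0 : 0 ≤ q) (_hq1 : q ≤ 1) :
    pressure n β ≤ n * (Real.log 2 +
      ∫ z, Real.log (Real.cosh (β * Real.sqrt q * z)) ∂(gaussianReal 0 1)
      + β ^ 2 * (1 - q) ^ 2 / 4) :=
  guerra_rs_of (fun a c h1 h2 h3 => log_comparison a c h1 h2 h3) hn β q hq0

end Vale.Agent.P150.Slow
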