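import Vale.Agent.Lib.P150.Slow.Base
import Vale.Agent.Lib.P150.GOE

/-!
The averaged squared overlap under a small Gaussian perturbation of the disorder.
-/

namespace Vale.Agent.P150.Slow

open MeasureTheory ProbabilityTheory Filter Topology Vale.Agent.P150

variable {n : ℕ}

/-- Gaussian integral of the exponential of a linear form. -/
theorem integrable_exp_lin (c : Pair n → ℝ) :
    Integrable (fun ξ : Pair n → ℝ => Real.exp (∑ p, c p * ξ p)) (disorder n) := by
  have h : Integrable (fun ξ : Pair n → ℝ => ∏ p, Real.exp (c p * ξ p))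
      (Measure.pi fun _ : Pair n => gaussianReal 0 1) :=
    Integrable.fintype_prod (f := fun p (t : ℝ) => Real.exp (c p * t))
      (fun p => integrable_exp_mul_gaussianReal (c p))
  refine h.congr (Eventually.of_forall fun ξ => ?_)
  beta_reduce
  rw [Real.exp_sum]

theorem integral_exp_lin (c : Pair n → ℝ) :
    ∫ ξ, Real.exp (∑ p, c p * ξ p) ∂(disorder n) = Real.exp (∑ p, c p ^ 2 / 2) := by
  have h1 : ∀ p : Pair n, ∫ t, Real.exp (c p * t) ∂(gaussianReal 0 1) = Real.exp (c p ^ 2 / 2) := by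
    intro p
    have := mgf_gaussianReal (p := gaussianReal 0 1) (X := id) (μ := 0) (v := 1) (by simp) (c p)
    simp only [mgf, id] at this
    rw [this]
    congr 1
    simp
  calc ∫ ξ, Real.exp (∑ p, c p * ξ p) ∂(disorder n)
      = ∫ ξ : Pair n → ℝ, ∏ p, Real.exp (c p * ξ p) ∂(Measure.pi fun _ : Pair n => gaussianReal 0 1) := by
        unfold disorder
        congr 1
        funext ξ
        rw [Real.exp_sum]
    _ = ∏ p, ∫ t, Real.exp (c p * t) ∂(gaussianReal 0 1) :=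
        integral_fintype_prod_eq_prod (fun p (t : ℝ) => Real.exp (c p * t))
    _ = Real.exp (∑ p, c p ^ 2 / 2) := by
        rw [Real.exp_sum]
        exact Finset.prod_congr rfl fun p _ => h1 p

/-- `∑_{i<j} x_i x_j y_i y_j`. -/
theorem sum_pair_spins (x y : Config n) :
    ∑ p : Pair n, (spin (x p.1.1) * spin (x p.1.2)) * (spin (y p.1.1) * spin (y p.1.2)) =
      ((∑ i, spin (x i) * spin (y i)) ^ 2 - n) / 2 := by
  have h := sum_symm_eq (n := n) (fun i j => (spin (x i) * spin (y i)) * (spin (x j) * spin (y j)))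
    (by intro i j; ring)
  have h1 : ∑ i, ∑ j, (spin (x i) * spin (y i)) * (spin (x j) * spin (y j)) =
      (∑ i, spin (x i) * spin (y i)) ^ 2 := by
    rw [pow_two, Finset.sum_mul_sum]
  have h2 : ∑ i : Fin n, (spin (x i) * spin (y i)) * (spin (x i) * spin (y i)) = n := by
    have : ∀ i : Fin n, (spin (x i) * spin (y i)) * (spin (x i) * spin (y i)) = 1 := by
      intro i
      have a := spin_mul_self (x i)
      have b := spin_mul_self (y i)
      calc (spin (x i) * spin (y i)) * (spin (x i) * spin (y i))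
          = (spin (x i) * spin (x i)) * (spin (y i) * spin (y i)) := by ring
        _ = 1 := by rw [a, b, one_mul]
    simp only [this]
    simp
  rw [h1, h2] at h
  have h3 : ∑ p : Pair n, (spin (x p.1.1) * spin (x p.1.2)) * (spin (y p.1.1) * spin (y p.1.2)) =
      ∑ p : Pair n, (spin (x p.1.1) * spin (y p.1.1)) * (spin (x p.1.2) * spin (y p.1.2)) :=
    Finset.sum_congr rfl fun p _ => by ring
  rw [h3]
  linarith

theorem ovl_self (hn : 1 ≤ n) (x : Config n) : ovl x x = 1 := by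
  unfold ovl
  have : ∀ i : Fin n, spin (x i) * spin (x i) = 1 := fun i => spin_mul_self (x i)
  simp only [this]
  have : (n : ℝ) ≠ 0 := by positivity
  rw [Finset.sum_const, Finset.card_univ, Fintype.card_fin, nsmul_eq_mul, mul_one]
  exact div_self this

theorem abs_ovl_le (hn : 1 ≤ n) (x y : Config n) : |ovl x y| ≤ 1 := by
  unfold ovl
  have hn' : (0 : ℝ) < n := by exact_mod_cast hn
  rw [abs_div, abs_of_pos hn', div_le_one hn']
  calc |∑ i, spin (x i) * spin (y i)| ≤ ∑ i, |spin (x i) * spin (y i)| :=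
        Finset.abs_sum_le_sum_abs _ _
    _ = ∑ _i : Fin n, (1 : ℝ) := by
        refine Finset.sum_congr rfl fun i _ => ?_
        rw [abs_mul, abs_spin, abs_spin, one_mul]
    _ = n := by simp

theorem ovl_sq_le (hn : 1 ≤ n) (x y : Config n) : ovl x y ^ 2 ≤ 1 := by
  have h := abs_ovl_le hn x y
  have := sq_le_one_iff_abs_le_one (ovl x y)
  exact this.2 h

theorem sum_pair_spins' (hn : 1 ≤ n) (x y : Config n) :
    ∑ p : Pair n, (spin (x p.1.1) * spin (x p.1.2)) * (spin (y p.1.1) * spin (y p.1.2)) =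
      ((n : ℝ) ^ 2 * ovl x y ^ 2 - n) / 2 := by
  rw [sum_pair_spins]
  unfold ovl
  have hn' : (n : ℝ) ≠ 0 := by positivity
  field_simp

/-- The coefficient vector of the linear form `a ∑_{i<j} ξ_ij x_i x_j`. -/
noncomputable def cvec (a : ℝ) (x : Config n) (p : Pair n) : ℝ :=
  a * (spin (x p.1.1) * spin (x p.1.2))

theorem sum_cvec_mul (hn : 1 ≤ n) (a : ℝ) (x y : Config n) :
    ∑ p : Pair n, cvec a x p * cvec a y p = a ^ 2 * (((n : ℝ) ^ 2 * ovl x y ^ 2 - n) / 2) := by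
  rw [← sum_pair_spins' hn x y, Finset.mul_sum]
  refine Finset.sum_congr rfl fun p _ => ?_
  unfold cvec
  ring

theorem sum_cvec_sq (hn : 1 ≤ n) (a : ℝ) (x : Config n) :
    ∑ p : Pair n, cvec a x p ^ 2 / 2 = a ^ 2 * (((n : ℝ) ^ 2 - n) / 2) / 2 := by
  have h := sum_cvec_mul hn a x x
  rw [ovl_self hn, one_pow, mul_one] at h
  rw [← h, Finset.sum_div]
  exact Finset.sum_congr rfl fun p _ => by ring

theorem sum_cvec_add_sq (hn : 1 ≤ n) (a : ℝ) (x y : Config n) :
    ∑ p : Pair n, (cvec a x p + cvec a y p) ^ 2 / 2 =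
      a ^ 2 * (((n : ℝ) ^ 2 - n) / 2) + a ^ 2 * (((n : ℝ) ^ 2 * ovl x y ^ 2 - n) / 2) := by
  have h1 := sum_cvec_sq hn a x
  have h2 := sum_cvec_sq hn a y
  have h3 := sum_cvec_mul hn a x y
  have : ∀ p : Pair n, (cvec a x p + cvec a y p) ^ 2 / 2 =
      cvec a x p ^ 2 / 2 + cvec a y p ^ 2 / 2 + cvec a x p * cvec a y p := fun p => by ring
  simp only [this, Finset.sum_add_distrib, h1, h2, h3]
  ring

theorem gibbsWeight_perturb (β s : ℝ) (g ξ : Pair n → ℝ) (x : Config n) :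
    gibbsWeight β (fun p => g p + s * ξ p) x =
      gibbsWeight β g x * Real.exp (∑ p, cvec (β / Real.sqrt n * s) x p * ξ p) := by
  unfold gibbsWeight
  rw [← Real.exp_add]
  congr 1
  rw [Finset.mul_sum, Finset.mul_sum, ← Finset.sum_add_distrib]
  refine Finset.sum_congr rfl fun p _ => ?_
  unfold cvec
  ring

theorem gibbs_perturb (β s : ℝ) (g ξ : Pair n → ℝ) (x : Config n) :
    gibbs β (fun p => g p + s * ξ p) x =
      gibbs β g x * Real.exp (∑ p, cvec (β / Real.sqrt n * s) x p * ξ p) /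
        ∑ y : Config n, gibbs β g y * Real.exp (∑ p, cvec (β / Real.sqrt n * s) y p * ξ p) := by
  have hZ := partZ_pos β g
  have hW : 0 < ∑ y : Config n, gibbsWeight β g y *
      Real.exp (∑ p, cvec (β / Real.sqrt n * s) y p * ξ p) :=
    Finset.sum_pos (fun y _ => mul_pos (gibbsWeight_pos β g y) (Real.exp_pos _))
      ⟨fun _ => true, Finset.mem_univ _⟩
  have h1 : ∑ y : Config n, gibbs β g y * Real.exp (∑ p, cvec (β / Real.sqrt n * s) y p * ξ p) =
      (∑ y : Config n, gibbsWeight β g y *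
        Real.exp (∑ p, cvec (β / Real.sqrt n * s) y p * ξ p)) /
        ∑ y : Config n, gibbsWeight β g y := by
    rw [Finset.sum_div]
    refine Finset.sum_congr rfl fun y _ => ?_
    unfold gibbs
    ring
  rw [h1]
  unfold gibbs
  simp only [gibbsWeight_perturb]
  field_simp

/-- The deterministic inequality: a self-normalised average is controlled by the deviation of the
normalisation and the un-normalised average. -/
theorem ratio_bound (G E : Config n → ℝ) (hG : ∀ x, 0 < G x) (hE : ∀ x, 0 < E x)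
    (r : Config n → Config n → ℝ) (hr0 : ∀ x y, 0 ≤ r x y) (hr1 : ∀ x y, r x y ≤ 1)
    (m : ℝ) (hm : 0 < m) :
    ∑ x, ∑ y, (G x * E x / ∑ z, G z * E z) * (G y * E y / ∑ z, G z * E z) * r x y ≤
      4 / m ^ 2 * ((∑ z, G z * E z) - m) ^ 2 +
        4 / m ^ 2 * ∑ x, ∑ y, G x * G y * (E x * E y) * r x y := by
  set W : ℝ := ∑ z, G z * E z with hWdef
  set Q : ℝ := ∑ x, ∑ y, G x * G y * (E x * E y) * r x y with hQdef
  have hW : 0 < W := Finset.sum_pos (fun y _ => mul_pos (hG y) (hE y))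
      ⟨fun _ => true, Finset.mem_univ _⟩
  have hQ0 : 0 ≤ Q := Finset.sum_nonneg fun x _ => Finset.sum_nonneg fun y _ =>
    mul_nonneg (mul_nonneg (mul_nonneg (hG x).le (hG y).le) (mul_nonneg (hE x).le (hE y).le))
      (hr0 x y)
  have hQ1 : Q ≤ W ^ 2 := by
    rw [pow_two, hWdef, Finset.sum_mul_sum]
    refine Finset.sum_le_sum fun x _ => Finset.sum_le_sum fun y _ => ?_
    have h0 : 0 ≤ G x * G y * (E x * E y) :=
      mul_nonneg (mul_nonneg (hG x).le (hG y).le) (mul_nonneg (hE x).le (hE y).le)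
    calc G x * G y * (E x * E y) * r x y ≤ G x * G y * (E x * E y) * 1 :=
          mul_le_mul_of_nonneg_left (hr1 x y) h0
      _ = G x * E x * (G y * E y) := by ring
  have hL : ∑ x, ∑ y, (G x * E x / W) * (G y * E y / W) * r x y = Q / W ^ 2 := by
    rw [hQdef, Finset.sum_div]
    refine Finset.sum_congr rfl fun x _ => ?_
    rw [Finset.sum_div]
    refine Finset.sum_congr rfl fun y _ => ?_
    field_simp
  rw [hL]
  by_cases hc : m / 2 ≤ W
  · have h1 : Q / W ^ 2 ≤ 4 / m ^ 2 * Q := by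
      rw [div_le_iff₀ (by positivity)]
      have : m ^ 2 / 4 ≤ W ^ 2 := by nlinarith
      have h2 : 4 / m ^ 2 * Q * (m ^ 2 / 4) = Q := by field_simp
      calc Q = 4 / m ^ 2 * Q * (m ^ 2 / 4) := h2.symm
        _ ≤ 4 / m ^ 2 * Q * W ^ 2 := mul_le_mul_of_nonneg_left this (by positivity)
    have h2 : 0 ≤ 4 / m ^ 2 * (W - m) ^ 2 := by positivity
    linarith
  · push Not at hc
    have h1 : Q / W ^ 2 ≤ 1 := by
      rw [div_le_one (by positivity)]
      exact hQ1
    have h2 : 1 ≤ 4 / m ^ 2 * (W - m) ^ 2 := by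
      have : m ^ 2 / 4 ≤ (W - m) ^ 2 := by nlinarith
      calc (1 : ℝ) = 4 / m ^ 2 * (m ^ 2 / 4) := by field_simp
        _ ≤ 4 / m ^ 2 * (W - m) ^ 2 := mul_le_mul_of_nonneg_left this (by positivity)
    have h3 : 0 ≤ 4 / m ^ 2 * Q := by positivity
    linarith

theorem exp_mul_sub_one_le {a t : ℝ} (ht0 : 0 ≤ t) (ht1 : t ≤ 1) :
    Real.exp (a * t) ≤ 1 + (Real.exp a - 1) * t := by
  have h := convexOn_exp.2 (Set.mem_univ (0 : ℝ)) (Set.mem_univ a)
    (by linarith : (0 : ℝ) ≤ 1 - t) ht0 (by ring)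
  simp only [smul_eq_mul, mul_zero, zero_add, Real.exp_zero, mul_one] at h
  rw [mul_comm a t]
  linarith

/-- **Perturbation of the overlap.** -/
theorem ovlSq_perturb (n : ℕ) (hn : 1 ≤ n) (β κ : ℝ) (hκ : 0 ≤ κ) (g : Pair n → ℝ) (ε : ℝ)
    (hε : ovlSq β g ≤ ε) :
    ∫ ξ, ovlSq β (fun p => g p + Real.sqrt (κ / n) * ξ p) ∂(disorder n) ≤
      8 * Real.exp (β ^ 2 * κ / 2) * ε := by
  set a : ℝ := β / Real.sqrt n * Real.sqrt (κ / n) with ha
  have hn' : (0 : ℝ) < n := by exact_mod_cast hn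
  have ha2 : a ^ 2 = β ^ 2 * κ / n ^ 2 := by
    rw [ha, mul_pow, div_pow, Real.sq_sqrt hn'.le, Real.sq_sqrt (by positivity)]
    field_simp
  set m : ℝ := Real.exp (a ^ 2 * (((n : ℝ) ^ 2 - n) / 2) / 2) with hm
  have hm0 : 0 < m := Real.exp_pos _
  have hm2 : m ^ 2 = Real.exp (a ^ 2 * (((n : ℝ) ^ 2 - n) / 2)) := by
    rw [hm, pow_two, ← Real.exp_add]
    congr 1
    ring
  -- the two families of exponentials
  have hx : ∀ x : Config n, ∫ ξ, Real.exp (∑ p, cvec a x p * ξ p) ∂(disorder n) = m := by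
    intro x
    rw [integral_exp_lin, sum_cvec_sq hn]
  have hxy : ∀ x y : Config n, ∀ ξ : Pair n → ℝ,
      Real.exp (∑ p, cvec a x p * ξ p) * Real.exp (∑ p, cvec a y p * ξ p) =
        Real.exp (∑ p, (cvec a x p + cvec a y p) * ξ p) := by
    intro x y ξ
    rw [← Real.exp_add, ← Finset.sum_add_distrib]
    congr 1
    exact Finset.sum_congr rfl fun p _ => by ring
  have hxyi : ∀ x y : Config n, Integrable (fun ξ : Pair n → ℝ =>
      Real.exp (∑ p, cvec a x p * ξ p) * Real.exp (∑ p, cvec a y p * ξ p)) (disorder n) := by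
    intro x y
    simp only [hxy x y]
    exact integrable_exp_lin _
  have hxyv : ∀ x y : Config n, ∫ ξ, Real.exp (∑ p, cvec a x p * ξ p) *
      Real.exp (∑ p, cvec a y p * ξ p) ∂(disorder n) =
        m ^ 2 * Real.exp (a ^ 2 * (((n : ℝ) ^ 2 * ovl x y ^ 2 - n) / 2)) := by
    intro x y
    simp only [hxy x y]
    rw [integral_exp_lin, sum_cvec_add_sq hn, Real.exp_add, hm2]
  set E : (Pair n → ℝ) → Config n → ℝ := fun ξ x => Real.exp (∑ p, cvec a x p * ξ p) with hE
  set G : Config n → ℝ := gibbs β g with hG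
  have hG1 : ∑ x, G x = 1 := sum_gibbs β g
  have hGG : ∑ x, ∑ y, G x * G y = 1 := by
    rw [← Finset.sum_mul_sum, hG1, one_mul]
  -- pointwise bound
  have hpt : ∀ ξ : Pair n → ℝ, ovlSq β (fun p => g p + Real.sqrt (κ / n) * ξ p) ≤
      4 / m ^ 2 * ((∑ z, G z * E ξ z) - m) ^ 2 +
        4 / m ^ 2 * ∑ x, ∑ y, G x * G y * (E ξ x * E ξ y) * ovl x y ^ 2 := by
    intro ξ
    unfold ovlSq
    simp only [gibbs_perturb]
    exact ratio_bound G (E ξ) (fun x => gibbs_pos β g x) (fun x => Real.exp_pos _)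
      (fun x y => ovl x y ^ 2) (fun x y => sq_nonneg _) (fun x y => ovl_sq_le hn x y) m hm0
  have hnn : ∀ ξ : Pair n → ℝ, 0 ≤ ovlSq β (fun p => g p + Real.sqrt (κ / n) * ξ p) := by
    intro ξ
    unfold ovlSq
    exact Finset.sum_nonneg fun x _ => Finset.sum_nonneg fun y _ =>
      mul_nonneg (mul_nonneg (gibbs_pos _ _ _).le (gibbs_pos _ _ _).le) (sq_nonneg _)
  -- rewrite the square
  have hsq : ∀ ξ : Pair n → ℝ, 4 / m ^ 2 * ((∑ z, G z * E ξ z) - m) ^ 2 +
        4 / m ^ 2 * ∑ x, ∑ y, G x * G y * (E ξ x * E ξ y) * ovl x y ^ 2 =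
      (∑ x, ∑ y, (4 / m ^ 2 * (G x * G y) * (1 + ovl x y ^ 2)) * (E ξ x * E ξ y)) +
        ((∑ z, (-(8 / m) * G z) * E ξ z) + 4) := by
    intro ξ
    have h1 : (∑ z, G z * E ξ z) ^ 2 = ∑ x, ∑ y, G x * G y * (E ξ x * E ξ y) := by
      rw [pow_two, Finset.sum_mul_sum]
      exact Finset.sum_congr rfl fun x _ => Finset.sum_congr rfl fun y _ => by ring
    have h2 : ∑ x, ∑ y, (4 / m ^ 2 * (G x * G y) * (1 + ovl x y ^ 2)) * (E ξ x * E ξ y) =
        4 / m ^ 2 * (∑ x, ∑ y, G x * G y * (E ξ x * E ξ y)) +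
          4 / m ^ 2 * ∑ x, ∑ y, G x * G y * (E ξ x * E ξ y) * ovl x y ^ 2 := by
      simp only [Finset.mul_sum]
      rw [← Finset.sum_add_distrib]
      refine Finset.sum_congr rfl fun x _ => ?_
      rw [← Finset.sum_add_distrib]
      exact Finset.sum_congr rfl fun y _ => by ring
    have h3 : ∑ z, (-(8 / m) * G z) * E ξ z = -(8 / m) * ∑ z, G z * E ξ z := by
      rw [Finset.mul_sum]
      exact Finset.sum_congr rfl fun z _ => by ring
    rw [h2, h3, ← h1]
    field_simp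
    ring
  have hEi : ∀ z, Integrable (fun ξ => E ξ z) (disorder n) := fun z => integrable_exp_lin _
  have hi1 : Integrable (fun ξ => ∑ x, ∑ y, (4 / m ^ 2 * (G x * G y) * (1 + ovl x y ^ 2)) *
      (E ξ x * E ξ y)) (disorder n) :=
    integrable_finsetSum _ fun x _ => integrable_finsetSum _ fun y _ =>
      (hxyi x y).const_mul _
  have hi2 : Integrable (fun ξ => (∑ z, (-(8 / m) * G z) * E ξ z)) (disorder n) :=
    integrable_finsetSum _ fun z _ => (hEi z).const_mul _
  have hprob : IsProbabilityMeasure (disorder n) := by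
    unfold disorder
    infer_instance
  have hi3 : Integrable (fun ξ => ((∑ z, (-(8 / m) * G z) * E ξ z) + 4)) (disorder n) :=
    hi2.add (integrable_const _)
  have hI : ∫ ξ, ((∑ x, ∑ y, (4 / m ^ 2 * (G x * G y) * (1 + ovl x y ^ 2)) * (E ξ x * E ξ y)) +
        ((∑ z, (-(8 / m) * G z) * E ξ z) + 4)) ∂(disorder n) =
      (∑ x, ∑ y, (4 * (G x * G y) * (1 + ovl x y ^ 2)) *
        Real.exp (a ^ 2 * (((n : ℝ) ^ 2 * ovl x y ^ 2 - n) / 2))) - 4 := by
    rw [integral_add hi1 hi3, integral_add hi2 (integrable_const _)]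
    rw [integral_finsetSum _ fun x _ => integrable_finsetSum _ fun y _ =>
      (hxyi x y).const_mul _]
    rw [integral_finsetSum _ fun z _ => (hEi z).const_mul _]
    have h1 : ∑ z, ∫ ξ, (-(8 / m) * G z) * E ξ z ∂(disorder n) = -8 := by
      have : ∀ z, ∫ ξ, (-(8 / m) * G z) * E ξ z ∂(disorder n) = -8 * G z := by
        intro z
        rw [integral_const_mul, hx z]
        field_simp
      simp only [this]
      rw [← Finset.mul_sum, hG1, mul_one]
    rw [h1, integral_const]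
    rw [probReal_univ, one_smul]
    have h2 : ∀ x, ∫ ξ, ∑ y, (4 / m ^ 2 * (G x * G y) * (1 + ovl x y ^ 2)) * (E ξ x * E ξ y)
        ∂(disorder n) = ∑ y, (4 * (G x * G y) * (1 + ovl x y ^ 2)) *
        Real.exp (a ^ 2 * (((n : ℝ) ^ 2 * ovl x y ^ 2 - n) / 2)) := by
      intro x
      rw [integral_finsetSum _ fun y _ => (hxyi x y).const_mul _]
      refine Finset.sum_congr rfl fun y _ => ?_
      rw [integral_const_mul, hxyv x y]
      field_simp
    rw [Finset.sum_congr rfl fun x _ => h2 x]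
    ring
  have hmain : ∫ ξ, ovlSq β (fun p => g p + Real.sqrt (κ / n) * ξ p) ∂(disorder n) ≤
      (∑ x, ∑ y, (4 * (G x * G y) * (1 + ovl x y ^ 2)) *
        Real.exp (a ^ 2 * (((n : ℝ) ^ 2 * ovl x y ^ 2 - n) / 2))) - 4 := by
    rw [← hI]
    refine integral_mono_of_nonneg (Eventually.of_forall hnn) (hi1.add hi3)
      (Eventually.of_forall fun ξ => ?_)
    beta_reduce
    rw [← hsq ξ]
    exact hpt ξ
  refine hmain.trans ?_
  set K : ℝ := β ^ 2 * κ / 2 with hK
  have hK0 : 0 ≤ K := by positivity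
  have hterm : ∀ x y : Config n, (4 * (G x * G y) * (1 + ovl x y ^ 2)) *
        Real.exp (a ^ 2 * (((n : ℝ) ^ 2 * ovl x y ^ 2 - n) / 2)) ≤
      4 * (G x * G y) + 8 * Real.exp K * (G x * G y * ovl x y ^ 2) := by
    intro x y
    have hR0 : 0 ≤ ovl x y ^ 2 := sq_nonneg _
    have hR1 : ovl x y ^ 2 ≤ 1 := ovl_sq_le hn x y
    have hGxy : 0 ≤ G x * G y := (mul_pos (gibbs_pos β g x) (gibbs_pos β g y)).le
    have he : Real.exp (a ^ 2 * (((n : ℝ) ^ 2 * ovl x y ^ 2 - n) / 2)) ≤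
        Real.exp (K * ovl x y ^ 2) := by
      apply Real.exp_le_exp.2
      rw [ha2]
      have : β ^ 2 * κ / (n : ℝ) ^ 2 * (((n : ℝ) ^ 2 * ovl x y ^ 2 - n) / 2) =
          K * ovl x y ^ 2 - K / n := by
        rw [hK]
        field_simp
      rw [this]
      have : 0 ≤ K / n := by positivity
      linarith
    have he2 := exp_mul_sub_one_le (a := K) hR0 hR1
    have hexpK : 1 ≤ Real.exp K := Real.one_le_exp hK0
    have h5 : (1 + ovl x y ^ 2) * (1 + (Real.exp K - 1) * ovl x y ^ 2) ≤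
        1 + 2 * Real.exp K * ovl x y ^ 2 := by
      nlinarith [mul_nonneg (sub_nonneg.2 hexpK) hR0, mul_nonneg (mul_nonneg (sub_nonneg.2 hexpK) hR0)
        (sub_nonneg.2 hR1)]
    calc (4 * (G x * G y) * (1 + ovl x y ^ 2)) *
        Real.exp (a ^ 2 * (((n : ℝ) ^ 2 * ovl x y ^ 2 - n) / 2))
        ≤ (4 * (G x * G y) * (1 + ovl x y ^ 2)) * (1 + (Real.exp K - 1) * ovl x y ^ 2) :=
          mul_le_mul_of_nonneg_left (he.trans he2) (by positivity)
      _ = (4 * (G x * G y)) * ((1 + ovl x y ^ 2) * (1 + (Real.exp K - 1) * ovl x y ^ 2)) := by ring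
      _ ≤ (4 * (G x * G y)) * (1 + 2 * Real.exp K * ovl x y ^ 2) :=
          mul_le_mul_of_nonneg_left h5 (by positivity)
      _ = 4 * (G x * G y) + 8 * Real.exp K * (G x * G y * ovl x y ^ 2) := by ring
  have hsum : ∑ x, ∑ y, (4 * (G x * G y) * (1 + ovl x y ^ 2)) *
        Real.exp (a ^ 2 * (((n : ℝ) ^ 2 * ovl x y ^ 2 - n) / 2)) ≤
      4 + 8 * Real.exp K * ovlSq β g := by
    calc ∑ x, ∑ y, (4 * (G x * G y) * (1 + ovl x y ^ 2)) *
        Real.exp (a ^ 2 * (((n : ℝ) ^ 2 * ovl x y ^ 2 - n) / 2))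
        ≤ ∑ x, ∑ y, (4 * (G x * G y) + 8 * Real.exp K * (G x * G y * ovl x y ^ 2)) :=
          Finset.sum_le_sum fun x _ => Finset.sum_le_sum fun y _ => hterm x y
      _ = 4 * (∑ x, ∑ y, G x * G y) + 8 * Real.exp K * ovlSq β g := by
          unfold ovlSq
          simp only [Finset.sum_add_distrib, Finset.mul_sum]
          rfl
      _ = 4 + 8 * Real.exp K * ovlSq β g := by rw [hGG, mul_one]
  have : 8 * Real.exp K * ovlSq β g ≤ 8 * Real.exp K * ε :=
    mul_le_mul_of_nonneg_left hε (by positivity)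
  linarith

end Vale.Agent.P150.Slow
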