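import Vale.Agent.Lib.P150.Slow.Base
import Vale.Agent.Lib.P150.Stein

/-!
S3: the replica symmetric bound is strictly below the annealed value for `β > 1`.
-/

namespace Vale.Agent.P150.Slow

open MeasureTheory ProbabilityTheory Filter Topology Vale.Agent.P150

/-- a function vanishing at `0` with nonnegative derivative on `[0, ∞)` is nonnegative there -/
theorem nonneg_of_deriv {f f' : ℝ → ℝ} (hf : ∀ x, HasDerivAt f (f' x) x)
    (h' : ∀ x, 0 ≤ x → 0 ≤ f' x) (h0 : f 0 = 0) {x : ℝ} (hx : 0 ≤ x) : 0 ≤ f x := by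
  have hm : MonotoneOn f (Set.Ici 0) := by
    refine monotoneOn_of_deriv_nonneg (convex_Ici 0)
      (fun y _ => (hf y).continuousAt.continuousWithinAt)
      (fun y _ => (hf y).differentiableAt.differentiableWithinAt) fun y hy => ?_
    rw [(hf y).deriv]
    rw [interior_Ici] at hy
    exact h' y (le_of_lt hy)
  have := hm (Set.mem_Ici.mpr le_rfl) (Set.mem_Ici.mpr hx) hx
  rwa [h0] at this

/-- `sinh / cosh` -/
noncomputable def th (x : ℝ) : ℝ := Real.sinh x / Real.cosh x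

theorem hasDerivAt_th (x : ℝ) : HasDerivAt th (1 - th x ^ 2) x := by
  have hc := (Real.cosh_pos x).ne'
  have h := (Real.hasDerivAt_sinh x).div (Real.hasDerivAt_cosh x) hc
  have e : (Real.cosh x * Real.cosh x - Real.sinh x * Real.sinh x) / Real.cosh x ^ 2 =
      1 - th x ^ 2 := by
    unfold th
    field_simp
  rw [e] at h
  exact h

theorem th_zero : th 0 = 0 := by simp [th]

theorem th_nonneg {x : ℝ} (hx : 0 ≤ x) : 0 ≤ th x :=
  div_nonneg (Real.sinh_nonneg_iff.mpr hx) (Real.cosh_pos x).le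

theorem th_le {x : ℝ} (hx : 0 ≤ x) : th x ≤ x := by
  have := nonneg_of_deriv (f := fun x => x - th x) (f' := fun x => 1 - (1 - th x ^ 2))
    (fun x => (hasDerivAt_id' x).sub (hasDerivAt_th x))
    (fun x _ => by nlinarith [sq_nonneg (th x)]) (by simp [th_zero]) hx
  linarith

theorem le_th {x : ℝ} (hx : 0 ≤ x) : x - x ^ 3 / 3 ≤ th x := by
  have := nonneg_of_deriv (f := fun x => th x - (x - x ^ 3 / 3))
    (f' := fun x => (1 - th x ^ 2) - (1 - 3 * x ^ 2 / 3))
    (fun x => by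
      have h3 : HasDerivAt (fun x : ℝ => x ^ 3 / 3) (3 * x ^ 2 / 3) x := by
        simpa using (hasDerivAt_pow 3 x).div_const 3
      exact (hasDerivAt_th x).sub ((hasDerivAt_id' x).sub h3))
    (fun x hx => by
      have h1 := th_le hx
      have h2 := th_nonneg hx
      nlinarith) (by simp [th_zero]) hx
  linarith

theorem th_le' {x : ℝ} (hx : 0 ≤ x) : th x ≤ x - x ^ 3 / 3 + 2 * x ^ 5 / 15 := by
  have := nonneg_of_deriv (f := fun x => (x - x ^ 3 / 3 + 2 * x ^ 5 / 15) - th x)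
    (f' := fun x => (1 - 3 * x ^ 2 / 3 + 2 * (5 * x ^ 4) / 15) - (1 - th x ^ 2))
    (fun x => by
      have h3 : HasDerivAt (fun x : ℝ => x ^ 3 / 3) (3 * x ^ 2 / 3) x := by
        simpa using (hasDerivAt_pow 3 x).div_const 3
      have h5 : HasDerivAt (fun x : ℝ => 2 * x ^ 5 / 15) (2 * (5 * x ^ 4) / 15) x := by
        simpa using ((hasDerivAt_pow 5 x).const_mul 2).div_const 15
      exact (((hasDerivAt_id' x).sub h3).add h5).sub (hasDerivAt_th x))
    (fun x hx => by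
      have h1 := le_th hx
      have h2 := th_nonneg hx
      rcases le_or_gt (x ^ 2) 3 with h | h
      · have h4 : 0 ≤ x - x ^ 3 / 3 := by nlinarith
        have h5 : (x - x ^ 3 / 3) ^ 2 ≤ th x ^ 2 := pow_le_pow_left₀ h4 h1 2
        nlinarith [sq_nonneg (x ^ 3)]
      · nlinarith [sq_nonneg (th x), sq_nonneg x, mul_nonneg (sq_nonneg x) (sq_nonneg x)])
    (by simp [th_zero]) hx
  linarith

theorem log_cosh_le (y : ℝ) :
    Real.log (Real.cosh y) ≤ y ^ 2 / 2 - y ^ 4 / 12 + y ^ 6 / 45 := by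
  have key : ∀ x : ℝ, 0 ≤ x → Real.log (Real.cosh x) ≤ x ^ 2 / 2 - x ^ 4 / 12 + x ^ 6 / 45 := by
    intro x hx
    have := nonneg_of_deriv
      (f := fun x => (x ^ 2 / 2 - x ^ 4 / 12 + x ^ 6 / 45) - Real.log (Real.cosh x))
      (f' := fun x => (2 * x / 2 - 4 * x ^ 3 / 12 + 6 * x ^ 5 / 45) - th x)
      (fun x => by
        have h2 : HasDerivAt (fun x : ℝ => x ^ 2 / 2) (2 * x / 2) x := by
          simpa using (hasDerivAt_pow 2 x).div_const 2
        have h4 : HasDerivAt (fun x : ℝ => x ^ 4 / 12) (4 * x ^ 3 / 12) x := by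
          simpa using (hasDerivAt_pow 4 x).div_const 12
        have h6 : HasDerivAt (fun x : ℝ => x ^ 6 / 45) (6 * x ^ 5 / 45) x := by
          simpa using (hasDerivAt_pow 6 x).div_const 45
        exact ((h2.sub h4).add h6).sub ((Real.hasDerivAt_cosh x).log (Real.cosh_pos x).ne'))
      (fun x hx => by
        have h1 := th_le' hx
        have e : 2 * x / 2 - 4 * x ^ 3 / 12 + 6 * x ^ 5 / 45 - th x =
          (x - x ^ 3 / 3 + 2 * x ^ 5 / 15) - th x := by ring
        rw [e]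
        linarith) (by simp) hx
    linarith
  rcases le_total 0 y with h | h
  · exact key y h
  · have := key (-y) (by linarith)
    rw [Real.cosh_neg] at this
    have e : (-y) ^ 2 / 2 - (-y) ^ 4 / 12 + (-y) ^ 6 / 45 = y ^ 2 / 2 - y ^ 4 / 12 + y ^ 6 / 45 := by
      ring
    rwa [e] at this

theorem pow_growth (k : ℕ) (x : ℝ) : |x ^ k| ≤ (k.factorial : ℝ) * Real.exp (1 * |x|) := by
  rw [abs_pow, one_mul]
  have h := Real.pow_div_factorial_le_exp (|x|) (abs_nonneg x) k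
  rw [div_le_iff₀ (by positivity)] at h
  linarith

theorem integrable_pow_gauss (k : ℕ) : Integrable (fun x : ℝ => x ^ k) (gaussianReal 0 1) :=
  integrable_of_growth (by fun_prop) (pow_growth k)

theorem moment_succ (k : ℕ) :
    ∫ x : ℝ, x ^ (k + 2) ∂(gaussianReal 0 1) = (k + 1) * ∫ x : ℝ, x ^ k ∂(gaussianReal 0 1) := by
  have h := stein_one (u := fun x : ℝ => x ^ (k + 1)) (u' := fun x : ℝ => (k + 1) * x ^ k)
    (by fun_prop) (by fun_prop) (fun x => by simpa using hasDerivAt_pow (k + 1) x)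
    (M := ((k + 1).factorial : ℝ)) (C := 1) (pow_growth (k + 1))
    (fun x => by
      rw [abs_mul, abs_of_nonneg (by positivity : (0 : ℝ) ≤ (k : ℝ) + 1)]
      have h1 := pow_growth k x
      have h2 : (((k + 1).factorial : ℕ) : ℝ) = ((k : ℝ) + 1) * (k.factorial : ℝ) := by
        rw [Nat.factorial_succ]; push_cast; ring
      rw [h2, mul_assoc]
      exact mul_le_mul_of_nonneg_left h1 (by positivity))
  rw [← integral_const_mul, ← h]
  refine integral_congr_ae (Filter.Eventually.of_forall fun x => ?_)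
  show x ^ (k + 2) = x * x ^ (k + 1)
  ring

theorem moment_zero : ∫ x : ℝ, x ^ 0 ∂(gaussianReal 0 1) = 1 := by simp

theorem moment_two : ∫ x : ℝ, x ^ 2 ∂(gaussianReal 0 1) = 1 := by
  rw [moment_succ 0, moment_zero]; norm_num

theorem moment_four : ∫ x : ℝ, x ^ 4 ∂(gaussianReal 0 1) = 3 := by
  rw [moment_succ 2, moment_two]; norm_num

theorem moment_six : ∫ x : ℝ, x ^ 6 ∂(gaussianReal 0 1) = 15 := by
  rw [moment_succ 4, moment_four]; norm_num

/-- S3 -/
theorem rs_strict (β : ℝ) (hβ : 1 < β) : ∃ q : ℝ, 0 ≤ q ∧ q ≤ 1 ∧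
    Real.log 2 + ∫ z, Real.log (Real.cosh (β * Real.sqrt q * z)) ∂(gaussianReal 0 1)
      + β ^ 2 * (1 - q) ^ 2 / 4 < Real.log 2 + β ^ 2 / 4 := by
  have hb2 : 1 < β ^ 2 := by nlinarith
  have hb0 : 0 < β := by linarith
  set q : ℝ := (β ^ 2 - 1) / (2 * β ^ 4) with hq
  have hq0 : 0 < q := div_pos (by linarith) (by positivity)
  have hq1 : q ≤ 1 := by
    rw [hq, div_le_one (by positivity)]
    nlinarith [sq_nonneg (β ^ 2 - 1)]
  refine ⟨q, hq0.le, hq1, ?_⟩
  set s : ℝ := β * Real.sqrt q with hs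
  have hs2 : s ^ 2 = β ^ 2 * q := by rw [hs, mul_pow, Real.sq_sqrt hq0.le]
  have hs4 : s ^ 4 = β ^ 4 * q ^ 2 := by
    have : s ^ 4 = (s ^ 2) ^ 2 := by ring
    rw [this, hs2]; ring
  have hs6 : s ^ 6 = β ^ 6 * q ^ 3 := by
    have : s ^ 6 = (s ^ 2) ^ 3 := by ring
    rw [this, hs2]; ring
  have hint : Integrable (fun z : ℝ => s ^ 2 / 2 * z ^ 2 - s ^ 4 / 12 * z ^ 4 + s ^ 6 / 45 * z ^ 6)
      (gaussianReal 0 1) :=
    (((integrable_pow_gauss 2).const_mul _).sub ((integrable_pow_gauss 4).const_mul _)).add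
      ((integrable_pow_gauss 6).const_mul _)
  have hle : ∫ z, Real.log (Real.cosh (s * z)) ∂(gaussianReal 0 1) ≤
      ∫ z, (s ^ 2 / 2 * z ^ 2 - s ^ 4 / 12 * z ^ 4 + s ^ 6 / 45 * z ^ 6) ∂(gaussianReal 0 1) := by
    refine integral_mono_of_nonneg (Filter.Eventually.of_forall fun z => ?_) hint
      (Filter.Eventually.of_forall fun z => ?_)
    · exact Real.log_nonneg (Real.one_le_cosh _)
    · refine (log_cosh_le (s * z)).trans (le_of_eq ?_)
      ring
  have hval : ∫ z, (s ^ 2 / 2 * z ^ 2 - s ^ 4 / 12 * z ^ 4 + s ^ 6 / 45 * z ^ 6) ∂(gaussianReal 0 1)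
      = s ^ 2 / 2 - s ^ 4 / 4 + s ^ 6 / 3 := by
    have i2 : Integrable (fun z : ℝ => s ^ 2 / 2 * z ^ 2) (gaussianReal 0 1) :=
      (integrable_pow_gauss 2).const_mul _
    have i4 : Integrable (fun z : ℝ => s ^ 4 / 12 * z ^ 4) (gaussianReal 0 1) :=
      (integrable_pow_gauss 4).const_mul _
    have i6 : Integrable (fun z : ℝ => s ^ 6 / 45 * z ^ 6) (gaussianReal 0 1) :=
      (integrable_pow_gauss 6).const_mul _
    have i24 : Integrable (fun z : ℝ => s ^ 2 / 2 * z ^ 2 - s ^ 4 / 12 * z ^ 4)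
      (gaussianReal 0 1) := i2.sub i4
    rw [integral_add i24 i6, integral_sub i2 i4,
      integral_const_mul, integral_const_mul, integral_const_mul, moment_two, moment_four,
      moment_six]
    ring
  have hmain : s ^ 2 / 2 - s ^ 4 / 4 + s ^ 6 / 3 + β ^ 2 * (1 - q) ^ 2 / 4 < β ^ 2 / 4 := by
    rw [hs2, hs4, hs6]
    have hqv : 2 * β ^ 4 * q = β ^ 2 - 1 := by
      rw [hq]; field_simp
    have e : β ^ 2 * q / 2 - β ^ 4 * q ^ 2 / 4 + β ^ 6 * q ^ 3 / 3 + β ^ 2 * (1 - q) ^ 2 / 4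
        - β ^ 2 / 4 = β ^ 2 * q ^ 2 * (-(β ^ 2 - 1) / 4 + β ^ 4 * q / 3) := by ring
    have e2 : β ^ 4 * q / 3 = (β ^ 2 - 1) / 6 := by linarith
    have h3 : β ^ 2 * q ^ 2 * (-(β ^ 2 - 1) / 4 + β ^ 4 * q / 3) < 0 := by
      rw [e2]
      refine mul_neg_of_pos_of_neg (by positivity) ?_
      linarith
    linarith
  linarith

end Vale.Agent.P150.Slow
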