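import Vale.Agent.Lib.P150.Slow.Guerra

/-!
S4: superadditivity of the quenched free energy (Guerra and Toninelli), by Gaussian comparison.
-/

namespace Vale.Agent.P150.Slow

open MeasureTheory ProbabilityTheory Filter Topology Vale.Agent.P150

section Superadd

variable {n m : ℕ}

/-- index set of the Gaussian variables used in the comparison -/
abbrev SIdx (n m : ℕ) : Type := Pair (n + m) ⊕ ((Pair n ⊕ Pair m) ⊕ Unit)

/-- the first block of a configuration -/
def fstC (x : Config (n + m)) : Config n := fun i => x (Fin.castAdd m i)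

/-- the second block of a configuration -/
def sndC (x : Config (n + m)) : Config m := fun i => x (Fin.natAdd n i)

/-- coefficients of the field of the full system -/
noncomputable def supC (β : ℝ) (x : Config (n + m)) : SIdx n m → ℝ :=
  Sum.elim (fun p => β / Real.sqrt ((n + m : ℕ) : ℝ) * (spin (x p.1.1) * spin (x p.1.2)))
    (fun _ => 0)

/-- coefficients of the field of the two decoupled systems -/
noncomputable def supA (β : ℝ) (x : Config (n + m)) : SIdx n m → ℝ :=
  Sum.elim (fun _ => 0) (Sum.elim (Sum.elim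
    (fun p => β / Real.sqrt n * (spin (fstC x p.1.1) * spin (fstC x p.1.2)))
    (fun p => β / Real.sqrt m * (spin (sndC x p.1.1) * spin (sndC x p.1.2))))
    (fun _ => β / Real.sqrt 2))

theorem sup_orth (β : ℝ) (x y : Config (n + m)) : ∑ k, supA β x k * supC β y k = 0 := by
  simp [supA, supC, Fintype.sum_sum_type]

/-- the covariance of the Sherrington-Kirkpatrick field -/
theorem sum_pair_cov (β : ℝ) (hn : 1 ≤ n) (x y : Config n) :
    ∑ p : Pair n, (β / Real.sqrt n * (spin (x p.1.1) * spin (x p.1.2))) *
      (β / Real.sqrt n * (spin (y p.1.1) * spin (y p.1.2))) =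
      β ^ 2 / 2 * ((∑ i, spin (x i) * spin (y i)) ^ 2 / n - 1) := by
  have hn0 : (0 : ℝ) < n := by exact_mod_cast hn
  have hsq : (β / Real.sqrt n) * (β / Real.sqrt n) = β ^ 2 / n := by
    rw [← sq, div_pow, Real.sq_sqrt hn0.le]
  have h1 : ∀ p : Pair n, (β / Real.sqrt n * (spin (x p.1.1) * spin (x p.1.2))) *
      (β / Real.sqrt n * (spin (y p.1.1) * spin (y p.1.2))) =
      β ^ 2 / n * ((spin (x p.1.1) * spin (x p.1.2)) * (spin (y p.1.1) * spin (y p.1.2))) :=
    fun p => by
      rw [← hsq]
      ring
  rw [Finset.sum_congr rfl fun p _ => h1 p, ← Finset.mul_sum, sum_pair_spin]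
  field_simp

/-- the full overlap -/
theorem sum_split (x y : Config (n + m)) :
    ∑ i, spin (x i) * spin (y i) = (∑ i, spin (fstC x i) * spin (fstC y i)) +
      ∑ i, spin (sndC x i) * spin (sndC y i) := by
  rw [Fin.sum_univ_add]
  rfl

theorem cov_supC (β : ℝ) (hn : 1 ≤ n) (x y : Config (n + m)) :
    ∑ k, supC β x k * supC β y k =
      β ^ 2 / 2 * ((∑ i, spin (x i) * spin (y i)) ^ 2 / ((n + m : ℕ) : ℝ) - 1) := by
  simp only [supC, Fintype.sum_sum_type, Sum.elim_inl, Sum.elim_inr, mul_zero,
    Finset.sum_const_zero, add_zero]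
  exact sum_pair_cov β (le_trans hn (Nat.le_add_right n m)) x y

theorem cov_supA (β : ℝ) (hn : 1 ≤ n) (hm : 1 ≤ m) (x y : Config (n + m)) :
    ∑ k, supA β x k * supA β y k =
      β ^ 2 / 2 * ((∑ i, spin (fstC x i) * spin (fstC y i)) ^ 2 / n +
        (∑ i, spin (sndC x i) * spin (sndC y i)) ^ 2 / m - 1) := by
  have h2 : β / Real.sqrt 2 * (β / Real.sqrt 2) = β ^ 2 / 2 := by
    rw [← sq, div_pow, Real.sq_sqrt (by norm_num)]
  simp only [supA, Fintype.sum_sum_type, Sum.elim_inl, Sum.elim_inr, mul_zero,
    Finset.sum_const_zero, zero_add]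
  rw [sum_pair_cov β hn, sum_pair_cov β hm]
  simp only [Finset.univ_unique, Finset.sum_singleton]
  rw [h2]
  ring

theorem ovl_self_sum (x : Config n) : ∑ i, spin (x i) * spin (x i) = n := by
  simp only [spin_mul_self, Finset.sum_const, Finset.card_univ, Fintype.card_fin, nsmul_eq_mul,
    mul_one]

theorem sum_sub_sq_eq {ι : Type} [Fintype ι] (a b : ι → ℝ) :
    ∑ k, (a k - b k) ^ 2 = ∑ k, a k * a k + ∑ k, b k * b k - 2 * ∑ k, a k * b k := by
  rw [Finset.mul_sum, ← Finset.sum_add_distrib, ← Finset.sum_sub_distrib]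
  exact Finset.sum_congr rfl fun k _ => by ring

/-- splitting the sum over configurations -/
theorem sum_config_split (f : Config n → ℝ) (h : Config m → ℝ) :
    ∑ x : Config (n + m), f (fstC x) * h (sndC x) = (∑ x, f x) * ∑ y, h y := by
  rw [Finset.sum_mul_sum, ← Finset.sum_product', Finset.univ_product_univ]
  refine Fintype.sum_equiv (Fin.appendEquiv n m).symm _ _ fun x => ?_
  rfl

theorem integrable_logZ_std (β : ℝ) (n : ℕ) :
    Integrable (fun g : Pair n → ℝ => logZ β g) (stdG (Pair n)) := by
  refine (integrable_logsum (T := Config n) (ι := Pair n)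
    (fun x p => β / Real.sqrt n * (spin (x p.1.1) * spin (x p.1.2)))).congr
    (Eventually.of_forall fun g => ?_)
  unfold logZ gibbsWeight
  simp only [Finset.mul_sum]
  congr 1
  refine Finset.sum_congr rfl fun x _ => ?_
  congr 1
  exact Finset.sum_congr rfl fun p _ => by ring

end Superadd

/-- S4: the quenched free energy is superadditive. -/
theorem pressure_superadd (n m : ℕ) (hn : 1 ≤ n) (hm : 1 ≤ m) (β : ℝ) :
    pressure n β + pressure m β ≤ pressure (n + m) β := by
  have hn0 : (0 : ℝ) < n := by exact_mod_cast hn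
  have hm0 : (0 : ℝ) < m := by exact_mod_cast hm
  have hnm : ((n + m : ℕ) : ℝ) = n + m := by push_cast; ring
  have hvar : ∀ x : Config (n + m), ∑ k, supA β x k * supA β x k =
      ∑ k, supC β x k * supC β x k := fun x => by
    rw [cov_supA β hn hm, cov_supC β hn, ovl_self_sum, ovl_self_sum, ovl_self_sum, hnm]
    field_simp
  have h := log_comparison (T := Config (n + m)) (ι := SIdx n m) (supA β) (supC β)
    (sup_orth β)
    (fun x => by
      have := hvar x
      simp only [← sq] at this
      exact this.le)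
    (fun x y => by
      rw [sum_sub_sq_eq, sum_sub_sq_eq, hvar x, hvar y]
      have h1 : ∑ k, supC β x k * supC β y k ≤ ∑ k, supA β x k * supA β y k := by
        rw [cov_supA β hn hm, cov_supC β hn, sum_split x y, hnm]
        refine mul_le_mul_of_nonneg_left ?_ (by positivity)
        set S : ℝ := ∑ i, spin (fstC x i) * spin (fstC y i)
        set T : ℝ := ∑ i, spin (sndC x i) * spin (sndC y i)
        have h2 : (S + T) ^ 2 / ((n : ℝ) + m) ≤ S ^ 2 / n + T ^ 2 / m := by
          rw [div_add_div _ _ hn0.ne' hm0.ne', div_le_div_iff₀ (by positivity) (by positivity)]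
          have h3 : (S ^ 2 * m + n * T ^ 2) * ((n : ℝ) + m) - (S + T) ^ 2 * (n * m) =
              (S * m - T * n) ^ 2 := by ring
          nlinarith [sq_nonneg (S * m - T * n)]
        linarith
      linarith)
  -- right side
  have hR : ∫ g : SIdx n m → ℝ, Real.log (∑ v, Real.exp (∑ k, supC β v k * g k))
      ∂(stdG (SIdx n m)) = pressure (n + m) β := by
    have e1 : ∀ g : SIdx n m → ℝ, Real.log (∑ v, Real.exp (∑ k, supC β v k * g k)) =
        logZ β (fun p => g (Sum.inl p)) := fun g => by
      unfold logZ gibbsWeight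
      congr 1
      refine Finset.sum_congr rfl fun x _ => ?_
      congr 1
      simp only [supC, Fintype.sum_sum_type, Sum.elim_inl, Sum.elim_inr, zero_mul,
        Finset.sum_const_zero, add_zero]
      rw [Finset.mul_sum]
      exact Finset.sum_congr rfl fun p _ => by ring
    simp only [e1]
    have hmp := measurePreserving_inl (A := Pair (n + m)) (B := (Pair n ⊕ Pair m) ⊕ Unit)
    change _ = ∫ g, logZ β g ∂(stdG (Pair (n + m)))
    conv_rhs => rw [← hmp.map_eq]
    rw [integral_map hmp.measurable.aemeasurable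
      (by rw [hmp.map_eq]; exact (integrable_logZ_std β (n + m)).1)]
  -- left side
  have hL : ∫ g : SIdx n m → ℝ, Real.log (∑ v, Real.exp (∑ k, supA β v k * g k))
      ∂(stdG (SIdx n m)) = pressure n β + pressure m β := by
    have e1 : ∀ g : SIdx n m → ℝ, Real.log (∑ v, Real.exp (∑ k, supA β v k * g k)) =
        (logZ β (fun p => g (Sum.inr (Sum.inl (Sum.inl p)))) +
        logZ β (fun p => g (Sum.inr (Sum.inl (Sum.inr p))))) +
        β / Real.sqrt 2 * g (Sum.inr (Sum.inr ())) := fun g => by
      unfold logZ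
      rw [← Real.log_mul (partZ_pos _ _).ne' (partZ_pos _ _).ne', ← sum_config_split]
      have e2 : ∀ x : Config (n + m),
          gibbsWeight β (fun p => g (Sum.inr (Sum.inl (Sum.inl p)))) (fstC x) *
          gibbsWeight β (fun p => g (Sum.inr (Sum.inl (Sum.inr p)))) (sndC x) =
          Real.exp (β / Real.sqrt n * ∑ p : Pair n, g (Sum.inr (Sum.inl (Sum.inl p))) *
            spin (fstC x p.1.1) * spin (fstC x p.1.2) + β / Real.sqrt m * ∑ p : Pair m,
            g (Sum.inr (Sum.inl (Sum.inr p))) * spin (sndC x p.1.1) * spin (sndC x p.1.2)) :=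
        fun x => by
          unfold gibbsWeight
          rw [Real.exp_add]
      rw [Finset.sum_congr rfl fun x _ => e2 x, ← log_sum_exp_add]
      congr 1
      refine Finset.sum_congr rfl fun x _ => ?_
      congr 1
      simp only [supA, Fintype.sum_sum_type, Sum.elim_inl, Sum.elim_inr, zero_mul,
        Finset.sum_const_zero, zero_add, Finset.univ_unique, Finset.sum_singleton]
      rw [Finset.mul_sum, Finset.mul_sum]
      congr 1
      congr 1
      · exact Finset.sum_congr rfl fun p _ => by ring
      · exact Finset.sum_congr rfl fun p _ => by ring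
    simp only [e1]
    have hmp0 := measurePreserving_inr (A := Pair (n + m)) (B := (Pair n ⊕ Pair m) ⊕ Unit)
    have hmp1 := (measurePreserving_inl (A := Pair n ⊕ Pair m) (B := Unit)).comp hmp0
    have hmpn : MeasurePreserving (fun (g : SIdx n m → ℝ) (p : Pair n) =>
        g (Sum.inr (Sum.inl (Sum.inl p)))) (stdG (SIdx n m)) (stdG (Pair n)) :=
      (measurePreserving_inl (A := Pair n) (B := Pair m)).comp hmp1
    have hmpm : MeasurePreserving (fun (g : SIdx n m → ℝ) (p : Pair m) =>
        g (Sum.inr (Sum.inl (Sum.inr p)))) (stdG (SIdx n m)) (stdG (Pair m)) :=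
      (measurePreserving_inr (A := Pair n) (B := Pair m)).comp hmp1
    have hmpe := measurePreserving_eval (fun _ : SIdx n m => gaussianReal 0 1)
      (Sum.inr (Sum.inr ()) : SIdx n m)
    have hid : Integrable (fun t : ℝ => t) (gaussianReal 0 1) :=
      integrable_of_growth (by fun_prop) (M := 1) (C := 1) fun t => by
        rw [one_mul, one_mul]; linarith [Real.add_one_le_exp |t|]
    have hgi : Integrable (fun g : SIdx n m → ℝ => β / Real.sqrt 2 * g (Sum.inr (Sum.inr ())))
        (stdG (SIdx n m)) := (hmpe.integrable_comp_of_integrable hid).const_mul _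
    have hin : Integrable (fun g : SIdx n m → ℝ =>
        logZ β (fun p => g (Sum.inr (Sum.inl (Sum.inl p))))) (stdG (SIdx n m)) :=
      hmpn.integrable_comp_of_integrable (integrable_logZ_std β n)
    have him : Integrable (fun g : SIdx n m → ℝ =>
        logZ β (fun p => g (Sum.inr (Sum.inl (Sum.inr p))))) (stdG (SIdx n m)) :=
      hmpm.integrable_comp_of_integrable (integrable_logZ_std β m)
    have him2 : Integrable (fun g : SIdx n m → ℝ =>
        logZ β (fun p => g (Sum.inr (Sum.inl (Sum.inl p)))) +
        logZ β (fun p => g (Sum.inr (Sum.inl (Sum.inr p))))) (stdG (SIdx n m)) := hin.add him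
    rw [integral_add him2 hgi, integral_add hin him, integral_const_mul]
    have e2 : ∫ g : SIdx n m → ℝ, g (Sum.inr (Sum.inr ())) ∂(stdG (SIdx n m)) = 0 := by
      have : ∫ g : SIdx n m → ℝ, g (Sum.inr (Sum.inr ())) ∂(stdG (SIdx n m)) =
          ∫ t, t ∂(gaussianReal 0 1) := by
        rw [← hmpe.map_eq, integral_map hmpe.measurable.aemeasurable (by fun_prop)]
      rw [this, integral_id_gaussianReal]
    have e3 : ∫ g : SIdx n m → ℝ, logZ β (fun p => g (Sum.inr (Sum.inl (Sum.inl p))))
        ∂(stdG (SIdx n m)) = pressure n β := by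
      change _ = ∫ g, logZ β g ∂(stdG (Pair n))
      conv_rhs => rw [← hmpn.map_eq]
      rw [integral_map hmpn.measurable.aemeasurable
        (by rw [hmpn.map_eq]; exact (integrable_logZ_std β n).1)]
    have e4 : ∫ g : SIdx n m → ℝ, logZ β (fun p => g (Sum.inr (Sum.inl (Sum.inr p))))
        ∂(stdG (SIdx n m)) = pressure m β := by
      change _ = ∫ g, logZ β g ∂(stdG (Pair m))
      conv_rhs => rw [← hmpm.map_eq]
      rw [integral_map hmpm.measurable.aemeasurable
        (by rw [hmpm.map_eq]; exact (integrable_logZ_std β m).1)]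
    rw [e2, e3, e4, mul_zero, add_zero]
  change ∫ g, Real.log (∑ v, Real.exp (∑ k, supA β v k * g k)) ∂(stdG (SIdx n m)) ≤
    ∫ g, Real.log (∑ v, Real.exp (∑ k, supC β v k * g k)) ∂(stdG (SIdx n m)) at h
  rw [hL, hR] at h
  exact h

end Vale.Agent.P150.Slow
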