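import Vale.Agent.Lib.P150.Slow.TightB

/-!
Low-temperature part: the overlap does not vanish at low temperature.
-/

namespace Vale.Agent.P150.Slow.Tg

open MeasureTheory ProbabilityTheory Filter Topology Vale.Agent.P150 Vale.Agent.P150.Slow

variable {n : ℕ}

lemma energy_mono (hn : 1 ≤ n)
    (hderiv : ∀ (β : ℝ) (g : Pair n → ℝ), HasDerivAt (fun b => logZ b g) (n * energy β g) β)
    (hconv : ∀ g : Pair n → ℝ, ConvexOn ℝ Set.univ (fun b => logZ b g))
    (g : Pair n → ℝ) : Monotone (fun b => energy b g) := by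
  intro b c hbc
  have hn0 : (0 : ℝ) < n := by exact_mod_cast hn
  have h1 : Monotone (deriv fun b => logZ b g) := by
    have hd : Differentiable ℝ (fun b => logZ b g) := fun b =>
      (hderiv b g).differentiableAt
    have := (hconv g).monotoneOn_deriv fun x _ => hd x
    intro x y hxy
    exact this (Set.mem_univ x) (Set.mem_univ y) hxy
  have h2 := h1 hbc
  rw [(hderiv b g).deriv, (hderiv c g).deriv] at h2
  exact le_of_mul_le_mul_left h2 hn0

lemma abs_energy_le (hn : 1 ≤ n) (b : ℝ) (g : Pair n → ℝ) :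
    |energy b g| ≤ Real.exp (∑ p, |g p|) := by
  have hn1 : (1 : ℝ) ≤ n := by exact_mod_cast hn
  unfold energy
  have h1 : (1 : ℝ) ≤ n * Real.sqrt n := by
    have : 1 ≤ Real.sqrt n := Real.one_le_sqrt.2 hn1
    nlinarith
  rw [abs_div, abs_of_pos (a := (n : ℝ) * Real.sqrt n) (by linarith)]
  rw [div_le_iff₀ (by linarith)]
  have h2 := abs_lin_le g (fun p => corr b g p) fun p => abs_corr_le b g p
  have h3 := Real.exp_pos (∑ p, |g p|)
  nlinarith

lemma integrable_energy (hn : 1 ≤ n) (b : ℝ) :
    Integrable (fun g : Pair n → ℝ => energy b g) (disorder n) := by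
  refine integrable_of_growth_pi (M := 1) (C := 1) (continuous_energy b).measurable fun g => ?_
  rw [one_mul, one_mul]
  exact abs_energy_le hn b g

/-- Overlap tightness, from the energy excess, the derivative and convexity of the log partition
function and the perturbation bound. -/
theorem overlap_tight_of
    (hexc : ∀ β : ℝ, 1 < β → ∃ r δ : ℝ, 0 < r ∧ 0 < δ ∧
      Tendsto (fun n : ℕ => ∫ g : Pair n → ℝ, max (energy (β + δ) g - β / 2 * (1 - r)) 0
        ∂(disorder n)) atTop (𝓝 0))
    (hderiv : ∀ {n : ℕ} (_ : 1 ≤ n) (β : ℝ) (g : Pair n → ℝ),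
      HasDerivAt (fun b => logZ b g) (n * energy β g) β)
    (hconv : ∀ {n : ℕ} (g : Pair n → ℝ), ConvexOn ℝ Set.univ (fun b => logZ b g))
    (hpert : ∀ (n : ℕ) (_ : 1 ≤ n) (β κ : ℝ) (_ : 0 ≤ κ) (g : Pair n → ℝ) (ε : ℝ)
      (_ : ovlSq β g ≤ ε),
      ∫ ξ, ovlSq β (fun p => g p + Real.sqrt (κ / n) * ξ p) ∂(disorder n) ≤
        8 * Real.exp (β ^ 2 * κ / 2) * ε)
    (β : ℝ) (hβ : 1 < β) (η : ℝ) (hη : 0 < η) :
    ∃ ε : ℝ, 0 < ε ∧ ∀ᶠ n : ℕ in atTop,
      disorder n {g | ovlSq β g ≤ ε} ≤ ENNReal.ofReal η := by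
  obtain ⟨r, δ, hr, hδ, hlim⟩ := hexc β hβ
  have hβ0 : 0 < β := by linarith
  set κ : ℝ := 128 / (β ^ 2 * r ^ 2 * η) with hκ
  have hκ0 : 0 < κ := by positivity
  set ε : ℝ := r / (16 * Real.exp (β ^ 2 * κ / 2)) with hε
  have hε0 : 0 < ε := by positivity
  refine ⟨ε, hε0, ?_⟩
  have e1 : ∀ᶠ n : ℕ in atTop, ∫ g : Pair n → ℝ, max (energy (β + δ) g - β / 2 * (1 - r)) 0
      ∂(disorder n) < β * r * η / 8 := hlim.eventually (gt_mem_nhds (by positivity))
  have e2 : ∀ᶠ n : ℕ in atTop, β * Real.sqrt (1 + κ / n) < β + δ := by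
    have h1 : Tendsto (fun n : ℕ => β * Real.sqrt (1 + κ / n)) atTop
        (𝓝 (β * Real.sqrt (1 + 0))) := by
      refine Tendsto.const_mul _ ((Real.continuous_sqrt.tendsto _).comp ?_)
      exact tendsto_const_nhds.add (tendsto_const_div_atTop_nhds_zero_nat κ)
    rw [add_zero, Real.sqrt_one, mul_one] at h1
    exact h1.eventually (gt_mem_nhds (by linarith))
  filter_upwards [e1, e2, eventually_ge_atTop 1] with n h1 h2 hn
  set A : Set (Pair n → ℝ) := {g | ovlSq β g ≤ ε} with hA
  have hAm : MeasurableSet A := (isClosed_le (continuous_ovlSq β) continuous_const).measurableSet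
  set P := (disorder n).real A with hP
  have hP0 : 0 ≤ P := measureReal_nonneg
  have hP1 : P ≤ 1 := measureReal_le_one
  by_contra hcon
  rw [not_le] at hcon
  have hPη : η < P := by
    rw [hP, measureReal_def]
    exact (ENNReal.ofReal_lt_iff_lt_toReal hη.le (by finiteness)).1 hcon
  set ν := (disorder n).prod (disorder n) with hν
  set u : ℝ := β / 2 * (1 - r) with hu
  set e : ℝ := ∫ g : Pair n → ℝ, max (energy (β + δ) g - u) 0 ∂(disorder n) with he
  have hmain := main_ineq hn hβ0 hκ0 hAm
  -- lower bound of the left hand side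
  have hJ : (1 - r / 2) * P ≤
      ∫ g in A, ∫ ξ, (1 - ovlSq β (fun q => g q + Real.sqrt (κ / n) * ξ q)) ∂(disorder n)
      ∂(disorder n) := by
    have hin : ∀ g ∈ A, 1 - r / 2 ≤
        ∫ ξ, (1 - ovlSq β (fun q => g q + Real.sqrt (κ / n) * ξ q)) ∂(disorder n) := by
      intro g hg
      have h3 := hpert n hn β κ hκ0.le g ε hg
      have h4 : 8 * Real.exp (β ^ 2 * κ / 2) * ε = r / 2 := by
        rw [hε]
        have := Real.exp_pos (β ^ 2 * κ / 2)
        field_simp
        ring
      rw [h4] at h3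
      have h5 : Integrable (fun ξ : Pair n → ℝ =>
          ovlSq β (fun q => g q + Real.sqrt (κ / n) * ξ q)) (disorder n) := by
        refine Integrable.of_bound (C := 1)
          ((continuous_ovlSq β).comp (by fun_prop)).aestronglyMeasurable
          (Eventually.of_forall fun ξ => ?_)
        rw [Real.norm_eq_abs, abs_of_nonneg (ovlSq_nonneg _ _)]
        exact ovlSq_le_one _ _
      rw [integral_sub (integrable_const _) h5]
      simp only [integral_const, probReal_univ, smul_eq_mul, mul_one]
      linarith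
    have h6 : (1 - r / 2) * P = ∫ _g in A, (1 - r / 2) ∂(disorder n) := by
      rw [setIntegral_const, smul_eq_mul, mul_comm]
    rw [h6]
    refine setIntegral_mono_on (integrable_const _).integrableOn ?_ hAm hin
    have h7 : Integrable (fun z : (Pair n → ℝ) × (Pair n → ℝ) =>
        (1 - ovlSq β (fun q => z.1 q + Real.sqrt (κ / n) * z.2 q))) ν := by
      refine Integrable.of_bound (C := 1)
        (continuous_const.sub ((continuous_ovlSq β).comp (by fun_prop))).aestronglyMeasurable
        (Eventually.of_forall fun ξ => ?_)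
      rw [Real.norm_eq_abs, abs_le]
      constructor
      · linarith [ovlSq_le_one β (fun q => ξ.1 q + Real.sqrt (κ / n) * ξ.2 q)]
      · linarith [ovlSq_nonneg β (fun q => ξ.1 q + Real.sqrt (κ / n) * ξ.2 q)]
    exact h7.integral_prod_left.integrableOn
  -- upper bound of the energy
  have hE : ∫ z in A ×ˢ Set.univ, energy (β * Real.sqrt (1 + κ / n)) (rotG (κ / n) z) ∂ν ≤
      u * P + e := by
    have hG := measurePreserving_rotG (n := n) (κ / n)
    have hreal : ν.real (A ×ˢ Set.univ) = P := by
      rw [hν, measureReal_prod_prod]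
      simp [hP]
    have hint : Integrable (fun g : Pair n → ℝ => max (energy (β + δ) g - u) 0) (disorder n) :=
      ((integrable_energy hn _).sub (integrable_const _)).sup (integrable_zero _ _ _)
    have hint2 : Integrable (fun z => max (energy (β + δ) (rotG (κ / n) z) - u) 0) ν :=
      hG.integrable_comp_of_integrable hint
    have h3 : ∫ z in A ×ˢ Set.univ, energy (β * Real.sqrt (1 + κ / n)) (rotG (κ / n) z) ∂ν ≤
        ∫ z in A ×ˢ Set.univ, (u + max (energy (β + δ) (rotG (κ / n) z) - u) 0) ∂ν := by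
      refine integral_mono
        (hG.integrable_comp_of_integrable (integrable_energy hn _)).integrableOn
        ((integrable_const _).add hint2).integrableOn fun z => ?_
      have h4 := energy_mono hn (hderiv hn) hconv (rotG (κ / n) z) h2.le
      have h5 := le_max_left (energy (β + δ) (rotG (κ / n) z) - u) 0
      simp only at h4 ⊢
      linarith
    have h4 : ∫ z in A ×ˢ Set.univ, (u + max (energy (β + δ) (rotG (κ / n) z) - u) 0) ∂ν =
        u * P + ∫ z in A ×ˢ Set.univ, max (energy (β + δ) (rotG (κ / n) z) - u) 0 ∂ν := by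
      rw [integral_add (integrable_const _) hint2.integrableOn, setIntegral_const, hreal,
        smul_eq_mul, mul_comm]
    have h5 : ∫ z in A ×ˢ Set.univ, max (energy (β + δ) (rotG (κ / n) z) - u) 0 ∂ν ≤ e := by
      refine (setIntegral_le_integral hint2
        (Eventually.of_forall fun z => le_max_right _ _)).trans (le_of_eq ?_)
      have h6 := integral_map (μ := (disorder n).prod (disorder n)) (φ := rotG (κ / n))
        hG.measurable.aemeasurable (f := fun g => max (energy (β + δ) g - u) 0)
        (by rw [hG.map_eq]; exact hint.aestronglyMeasurable)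
      rw [hG.map_eq] at h6
      exact h6.symm
    linarith
  have hsq : Real.sqrt P / Real.sqrt (2 * κ) ≤ β * r / 16 * P := by
    have h3 : 2 * κ = (16 / (β * r)) ^ 2 / η := by
      rw [hκ]; field_simp; ring
    rw [h3, Real.sqrt_div (sq_nonneg _), Real.sqrt_sq (by positivity)]
    have h4 : Real.sqrt P ^ 2 = P := Real.sq_sqrt hP0
    have h5 : Real.sqrt η ≤ Real.sqrt P := Real.sqrt_le_sqrt hPη.le
    have h6 : Real.sqrt P / (16 / (β * r) / Real.sqrt η) =
        β * r / 16 * (Real.sqrt P * Real.sqrt η) := by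
      have : Real.sqrt η ≠ 0 := (Real.sqrt_pos.2 hη).ne'
      field_simp
    rw [h6]
    refine mul_le_mul_of_nonneg_left ?_ (by positivity)
    nlinarith [Real.sqrt_nonneg P]
  have hfin : β / 2 * ((1 - r / 2) * P) ≤ u * P + e + β * r / 16 * P :=
    (mul_le_mul_of_nonneg_left hJ (by positivity)).trans (hmain.trans (by linarith))
  rw [hu] at hfin
  have h8 : 3 * (β * r) / 16 * P ≤ e := by nlinarith
  have h9 : β * r * η / 8 ≤ 3 * (β * r) / 16 * P := by
    have : 0 < β * r := by positivity
    nlinarith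
  linarith

end Vale.Agent.P150.Slow.Tg
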