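import Vale.Agent.Lib.P150.Slow.Limit
import Vale.Agent.Lib.P150.Slow.Guerra
import Vale.Agent.Lib.P150.Slow.Strict
import Vale.Agent.Lib.P150.Slow.Superadd
import Vale.Agent.Lib.P150.Slow.Deriv
import Vale.Agent.Lib.P150.Slow.Cavity
import Vale.Agent.Lib.P150.Slow.Conc
import Vale.Agent.Lib.P150.Slow.Energy
import Vale.Agent.Lib.P150.Slow.Perturb
import Vale.Agent.Lib.P150.Slow.Tight
import Vale.Agent.Lib.P150.Slow.Determ

/-!
Low-temperature part: assembly.
-/

namespace Vale.Agent.P150.Slow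

open MeasureTheory ProbabilityTheory Filter Topology Vale.Agent.P150

variable {n : ℕ}

theorem exists_limit_pressure :
    ∃ P : ℝ → ℝ, (∀ β, Tendsto (fun n : ℕ => pressure n β / n) atTop (𝓝 (P β))) ∧
      ∀ β, 1 < β → ∃ r δ : ℝ, 0 < r ∧ 0 < δ ∧
        P (β + 2 * δ) - P (β + δ) ≤ δ * (β / 2) * (1 - r) := by
  refine exists_limit_abstract pressure meanOvl (fun n m hn hm β => pressure_superadd n m hn hm β)
    (fun n hn β => pressure_deriv n hn β) (fun n β => meanOvl_nonneg n β) pressure_convex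
    (fun n hn β b hb => cavity n hn β b hb) ?_ ?_
  · intro n hn β
    have h := guerra_rs n hn β 0 le_rfl zero_le_one
    simpa using h
  · intro β hβ
    obtain ⟨q, hq0, hq1, hq⟩ := rs_strict β hβ
    refine ⟨_, sub_pos.2 hq, fun n hn => ?_⟩
    rw [sub_sub_cancel]
    exact guerra_rs n hn β q hq0 hq1

theorem energy_excess (β : ℝ) (hβ : 1 < β) : ∃ r δ : ℝ, 0 < r ∧ 0 < δ ∧
    Tendsto (fun n : ℕ => ∫ g : Pair n → ℝ, max (energy (β + δ) g - β / 2 * (1 - r)) 0
      ∂(disorder n)) atTop (𝓝 0) :=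
  energy_excess_of exists_limit_pressure (fun hn β g => logZ_deriv hn β g)
    (fun g => logZ_convex g) (fun n hn β => var_logZ n hn β)
    (fun n β => integrable_logZ_sq n β) β hβ

/-- At every `β > 1` the mean squared overlap does not tend to zero, with quantitative
tightness: it is bounded below by a positive constant with probability at least `1 - η`. -/
theorem overlap_tight (β : ℝ) (hβ : 1 < β) (η : ℝ) (hη : 0 < η) :
    ∃ ε : ℝ, 0 < ε ∧ ∀ᶠ n : ℕ in atTop,
      disorder n {g | ovlSq β g ≤ ε} ≤ ENNReal.ofReal η :=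
  Tg.overlap_tight_of energy_excess (fun hn β g => logZ_deriv hn β g)
    (fun g => logZ_convex g) (fun n hn β κ hκ g ε hε => ovlSq_perturb n hn β κ hκ g ε hε)
    β hβ η hη

/-- deterministic consequence of a lower bound on the overlap -/
lemma slow_of_ovl (hn : 1 ≤ n) (β : ℝ) (g : Pair n → ℝ) {ε : ℝ} (hε : 0 < ε)
    (h : ε < ovlSq β g) :
    ε * Real.log 2 * n ≤ mixingTime β g ∧ spectralGap β g ≤ 1 / (ε * Real.log 2 * n) := by
  have hn' : (0:ℝ) < n := by exact_mod_cast hn
  have hl2 : 0 < Real.log 2 := Real.log_pos (by norm_num)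
  have hl21 : Real.log 2 ≤ 1 := by have := Real.log_two_lt_d9; linarith
  have h1 := gap_overlap hn β g
  have h2 := log_two_le_mixing hn β g
  have hmix0 : 0 ≤ mixingTime β g := by
    unfold mixingTime
    exact Real.sInf_nonneg fun t ht => ht.1
  have hgap0 : 0 < spectralGap β g := by
    by_contra hcon
    push Not at hcon
    have := mul_nonpos_of_nonneg_of_nonpos hmix0 hcon
    linarith
  have hov : 0 < n * ovlSq β g := mul_pos hn' (hε.trans h)
  have h3 : spectralGap β g ≤ 1 / (n * ε) := by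
    rw [le_div_iff₀ (by positivity)]
    calc spectralGap β g * (n * ε) ≤ spectralGap β g * (n * ovlSq β g) := by
          refine mul_le_mul_of_nonneg_left ?_ hgap0.le
          exact mul_le_mul_of_nonneg_left h.le hn'.le
      _ ≤ 1 := h1
  constructor
  · have h4 : Real.log 2 ≤ mixingTime β g * (1 / (n * ε)) :=
      h2.trans (mul_le_mul_of_nonneg_left h3 hmix0)
    rw [mul_one_div, le_div_iff₀ (by positivity)] at h4
    linarith
  · refine h3.trans (one_div_le_one_div_of_le (by positivity) ?_)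
    have : ε * Real.log 2 * n ≤ ε * 1 * n := by gcongr
    linarith

/-- For every `β > 1` the dynamics is slow. -/
theorem main_slow (β : ℝ) (hβ : 1 < β) (η : ℝ) (hη : 0 < η) :
    ∃ c : ℝ, 0 < c ∧ ∀ᶠ n : ℕ in atTop,
      disorder n {g | ¬ (c * n ≤ mixingTime β g ∧ spectralGap β g ≤ 1 / (c * n))}
        ≤ ENNReal.ofReal η := by
  obtain ⟨ε, hε, h⟩ := overlap_tight β hβ η hη
  refine ⟨ε * Real.log 2, mul_pos hε (Real.log_pos (by norm_num)), ?_⟩
  filter_upwards [h, eventually_ge_atTop 1] with n hn hn1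
  refine le_trans (measure_mono fun g hg => ?_) hn
  by_contra hcon
  simp only [Set.mem_ofPred_eq, not_le] at hcon
  exact hg (slow_of_ovl hn1 β g hε hcon)

end Vale.Agent.P150.Slow
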