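import Vale.Agent.Lib.P150.Final

/-!
Low-temperature part: internal definitions (not used in any final statement).
-/

namespace Vale.Agent.P150.Slow

open MeasureTheory ProbabilityTheory Filter Topology Vale.Agent.P150

variable {n : ℕ}

/-- log partition function -/
noncomputable def logZ (β : ℝ) (g : Pair n → ℝ) : ℝ :=
  Real.log (∑ x : Config n, gibbsWeight β g x)

/-- overlap of two configurations -/
noncomputable def ovl (x y : Config n) : ℝ := (∑ i, spin (x i) * spin (y i)) / n

/-- the Gibbs average of the squared overlap of two replicas -/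
noncomputable def ovlSq (β : ℝ) (g : Pair n → ℝ) : ℝ :=
  ∑ x, ∑ y, gibbs β g x * gibbs β g y * ovl x y ^ 2

/-- two-point function of the pair `p` -/
noncomputable def corr (β : ℝ) (g : Pair n → ℝ) (p : Pair n) : ℝ :=
  ∑ x, gibbs β g x * (spin (x p.1.1) * spin (x p.1.2))

/-- energy density, `(1/n) d/dβ logZ` -/
noncomputable def energy (β : ℝ) (g : Pair n → ℝ) : ℝ :=
  (∑ p : Pair n, g p * corr β g p) / (n * Real.sqrt n)

/-- quenched free energy -/
noncomputable def pressure (n : ℕ) (β : ℝ) : ℝ := ∫ g, logZ β g ∂(disorder n)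

/-- averaged squared overlap -/
noncomputable def meanOvl (n : ℕ) (β : ℝ) : ℝ := ∫ g, ovlSq β g ∂(disorder n)

lemma gibbsWeight_pos (β : ℝ) (g : Pair n → ℝ) (x : Config n) : 0 < gibbsWeight β g x :=
  Real.exp_pos _

lemma partZ_pos (β : ℝ) (g : Pair n → ℝ) : 0 < ∑ x : Config n, gibbsWeight β g x :=
  Finset.sum_pos (fun x _ => gibbsWeight_pos β g x) ⟨fun _ => true, Finset.mem_univ _⟩

lemma gibbs_pos (β : ℝ) (g : Pair n → ℝ) (x : Config n) : 0 < gibbs β g x :=
  div_pos (gibbsWeight_pos β g x) (partZ_pos β g)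

lemma sum_gibbs (β : ℝ) (g : Pair n → ℝ) : ∑ x : Config n, gibbs β g x = 1 := by
  unfold gibbs
  rw [← Finset.sum_div, div_self (partZ_pos β g).ne']

end Vale.Agent.P150.Slow
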