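import Mathlib

/-!
Low-temperature part, module S7: the limit of the pressure (real analysis).
-/

namespace Vale.Agent.P150.Slow

open Filter Topology

/-- Fekete for a superadditive sequence (from index one) with a linear upper bound. -/
theorem exists_lim_of_superadd (u : ℕ → ℝ) (C : ℝ)
    (hsup : ∀ n m : ℕ, 1 ≤ n → 1 ≤ m → u n + u m ≤ u (n + m))
    (hup : ∀ n : ℕ, 1 ≤ n → u n ≤ n * C) :
    ∃ L : ℝ, Tendsto (fun n : ℕ => u n / n) atTop (𝓝 L) := by
  set v : ℕ → ℝ := fun n => if n = 0 then 0 else - u n with hv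
  have hsub : Subadditive v := by
    intro m n
    rcases Nat.eq_zero_or_pos m with rfl | hm
    · simp [hv]
    rcases Nat.eq_zero_or_pos n with rfl | hn
    · simp [hv]
    have h1 : m ≠ 0 := by omega
    have h2 : n ≠ 0 := by omega
    have h3 : m + n ≠ 0 := by omega
    simp only [hv, h1, h2, h3, if_false]
    have := hsup m n hm hn
    linarith
  have hbdd : BddBelow (Set.range fun n : ℕ => v n / n) := by
    refine ⟨min 0 (-C), ?_⟩
    rintro _ ⟨n, rfl⟩
    rcases Nat.eq_zero_or_pos n with rfl | hn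
    · simp [hv]
    have h2 : n ≠ 0 := by omega
    have hn' : (0 : ℝ) < n := by exact_mod_cast hn
    refine (min_le_right _ _).trans ?_
    simp only [hv, h2, if_false]
    rw [le_div_iff₀ hn']
    have := hup n hn
    linarith
  refine ⟨- hsub.lim, ?_⟩
  have h := (hsub.tendsto_lim hbdd).neg
  refine h.congr' ?_
  filter_upwards [eventually_ge_atTop 1] with n hn
  have h2 : n ≠ 0 := by omega
  simp only [hv, h2, if_false]
  ring

/-- If increments are eventually at least `c`, so is the limit of `u n / n`. -/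
theorem le_lim_of_incr {u : ℕ → ℝ} {L c : ℝ} (hL : Tendsto (fun n : ℕ => u n / n) atTop (𝓝 L))
    (h : ∀ᶠ n : ℕ in atTop, u n + c ≤ u (n + 1)) : c ≤ L := by
  obtain ⟨N, hN⟩ := eventually_atTop.1 h
  have h1 : ∀ k : ℕ, u N + k * c ≤ u (N + k) := by
    intro k
    induction k with
    | zero => simp
    | succ k ih =>
      have := hN (N + k) (by omega)
      rw [← Nat.add_assoc N k 1]
      push_cast
      linarith
  have h2 : ∀ᶠ n : ℕ in atTop, (u N - N * c) / n + c ≤ u n / n := by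
    filter_upwards [eventually_ge_atTop (N + 1)] with n hn
    have hn' : (0 : ℝ) < n := by
      have : 0 < n := by omega
      exact_mod_cast this
    obtain ⟨k, rfl⟩ : ∃ k, n = N + k := ⟨n - N, by omega⟩
    rw [div_add' _ _ _ hn'.ne', div_le_div_iff_of_pos_right hn']
    have := h1 k
    push_cast
    linarith
  have h3 : Tendsto (fun n : ℕ => (u N - N * c) / n + c) atTop (𝓝 (0 + c)) :=
    (tendsto_const_div_atTop_nhds_zero_nat _).add_const c
  rw [zero_add] at h3
  exact le_of_tendsto_of_tendsto h3 hL h2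

/-- The abstract form of `exists_limit_pressure`. -/
theorem exists_limit_abstract (f μ : ℕ → ℝ → ℝ)
    (hsup : ∀ n m : ℕ, 1 ≤ n → 1 ≤ m → ∀ β, f n β + f m β ≤ f (n + m) β)
    (hder : ∀ n : ℕ, 1 ≤ n → ∀ β, HasDerivAt (f n) (n * β / 2 * (1 - μ n β)) β)
    (hμ : ∀ n β, 0 ≤ μ n β)
    (hconv : ∀ n, ConvexOn ℝ Set.univ (f n))
    (hcav : ∀ n : ℕ, 1 ≤ n → ∀ β b : ℝ, b = β * Real.sqrt (n / (n + 1)) →
      f n b + Real.log 2 + b ^ 2 / 2
        - Real.exp (b ^ 2 / 2) * (Real.cosh (b ^ 2) - 1) * μ n b ≤ f (n + 1) β)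
    (hup : ∀ n : ℕ, 1 ≤ n → ∀ β, f n β ≤ n * (Real.log 2 + β ^ 2 / 4))
    (hstrict : ∀ β, 1 < β → ∃ d : ℝ, 0 < d ∧ ∀ n : ℕ, 1 ≤ n →
      f n β ≤ n * (Real.log 2 + β ^ 2 / 4 - d)) :
    ∃ P : ℝ → ℝ, (∀ β, Tendsto (fun n : ℕ => f n β / n) atTop (𝓝 (P β))) ∧
      ∀ β, 1 < β → ∃ r δ : ℝ, 0 < r ∧ 0 < δ ∧
        P (β + 2 * δ) - P (β + δ) ≤ δ * (β / 2) * (1 - r) := by
  have hlim : ∀ β, ∃ L : ℝ, Tendsto (fun n : ℕ => f n β / n) atTop (𝓝 L) := fun β =>
    exists_lim_of_superadd (fun n => f n β) (Real.log 2 + β ^ 2 / 4)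
      (fun n m hn hm => hsup n m hn hm β) (fun n hn => hup n hn β)
  choose P hP using hlim
  refine ⟨P, hP, ?_⟩
  intro β hβ
  obtain ⟨d, hd, hdn⟩ := hstrict β hβ
  -- monotonicity of the defect
  have hmono : ∀ n : ℕ, 1 ≤ n → ∀ x y : ℝ, 0 ≤ x → x ≤ y →
      f n y - f n x ≤ n * (y ^ 2 - x ^ 2) / 4 := by
    intro n hn x y hx hxy
    have hD : MonotoneOn (fun b => n * b ^ 2 / 4 - f n b) (Set.Ici 0) := by
      have hd1 : ∀ b : ℝ, HasDerivAt (fun b => n * b ^ 2 / 4 - f n b)
          (n * (2 * b) / 4 - n * b / 2 * (1 - μ n b)) b := by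
        intro b
        have h1 : HasDerivAt (fun b : ℝ => n * b ^ 2 / 4) (n * (2 * b) / 4) b := by
          have := ((hasDerivAt_pow 2 b).const_mul (n : ℝ)).div_const 4
          simpa using this
        exact h1.sub (hder n hn b)
      refine monotoneOn_of_deriv_nonneg (convex_Ici 0)
        (fun b _ => (hd1 b).continuousAt.continuousWithinAt)
        (fun b _ => (hd1 b).differentiableAt.differentiableWithinAt) ?_
      intro b hb
      rw [interior_Ici] at hb
      rw [(hd1 b).deriv]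
      have hb' : (0 : ℝ) < b := hb
      have hn' : (0 : ℝ) ≤ n := Nat.cast_nonneg n
      have : 0 ≤ n * b / 2 * μ n b := mul_nonneg (by positivity) (hμ n b)
      nlinarith
    have := hD (Set.mem_Ici.2 hx) (Set.mem_Ici.2 (hx.trans hxy)) hxy
    simp only at this
    linarith
  have hstr : ∀ b : ℝ, β ≤ b → ∀ n : ℕ, 1 ≤ n →
      f n b ≤ n * (Real.log 2 + b ^ 2 / 4 - d) := by
    intro b hb n hn
    have h1 := hmono n hn β b (by linarith) hb
    have h2 := hdn n hn
    nlinarith
  have hPle : ∀ b : ℝ, β ≤ b → P b ≤ Real.log 2 + b ^ 2 / 4 - d := by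
    intro b hb
    refine le_of_tendsto (hP b) ?_
    filter_upwards [eventually_ge_atTop 1] with n hn
    have hn' : (0 : ℝ) < n := by
      have : 0 < n := by omega
      exact_mod_cast this
    rw [div_le_iff₀ hn']
    have := hstr b hb n hn
    linarith
  -- constants
  set B : ℝ := β + 4 with hB
  set K : ℝ := Real.exp (B ^ 2 / 2) * (Real.cosh (B ^ 2) - 1) + 1 with hK
  have hK1 : 1 ≤ K := by
    have h1 : 0 ≤ Real.exp (B ^ 2 / 2) * (Real.cosh (B ^ 2) - 1) :=
      mul_nonneg (Real.exp_pos _).le (sub_nonneg.2 (Real.one_le_cosh _))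
    linarith
  set δ : ℝ := min (1 / 4) (d / (20 * K)) with hδ
  have hδ0 : 0 < δ := lt_min (by norm_num) (by positivity)
  have hδ4 : δ ≤ 1 / 4 := min_le_left _ _
  have hδd : δ * (20 * K) ≤ d := by
    have h1 : δ ≤ d / (20 * K) := min_le_right _ _
    rwa [le_div_iff₀ (by positivity)] at h1
  refine ⟨δ, δ, hδ0, hδ0, ?_⟩
  by_contra hcon
  push Not at hcon
  set b1 : ℝ := β + 3 * δ with hb1
  -- lower bound on the finite-volume increments
  have hlow : ∀ᶠ n : ℕ in atTop,
      n * (δ * (β / 2) * (1 - δ)) ≤ f n (β + 2 * δ) - f n (β + δ) := by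
    have h1 : Tendsto (fun n : ℕ => f n (β + 2 * δ) / n - f n (β + δ) / n) atTop
        (𝓝 (P (β + 2 * δ) - P (β + δ))) := (hP _).sub (hP _)
    filter_upwards [h1.eventually (lt_mem_nhds hcon), eventually_ge_atTop 1] with n hn hn1
    have hn' : (0 : ℝ) < n := by
      have : 0 < n := by omega
      exact_mod_cast this
    rw [← sub_div, lt_div_iff₀ hn'] at hn
    linarith
  -- bound on the overlap
  have hov : ∀ᶠ n : ℕ in atTop, ∀ b : ℝ, β + 2 * δ ≤ b → b ≤ b1 → μ n b ≤ 4 * δ := by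
    filter_upwards [hlow, eventually_ge_atTop 1] with n hn hn1 b hb hb'
    have hn' : (0 : ℝ) < n := by
      have : 0 < n := by omega
      exact_mod_cast this
    have h1 := (hconv n).slope_le_of_hasDerivAt (Set.mem_univ (β + δ)) (Set.mem_univ b)
      (by linarith) (hder n hn1 b)
    have h2 : (f n (β + 2 * δ) - f n (β + δ)) / δ ≤ slope (f n) (β + δ) b := by
      have h3 := (hconv n).secant_mono (Set.mem_univ (β + δ)) (Set.mem_univ (β + 2 * δ))
        (Set.mem_univ b) (by linarith) (by linarith) hb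
      rw [slope_def_field]
      have e : β + 2 * δ - (β + δ) = δ := by ring
      rwa [e] at h3
    have h3 : n * ((β / 2) * (1 - δ)) ≤ (f n (β + 2 * δ) - f n (β + δ)) / δ := by
      rw [le_div_iff₀ hδ0]
      nlinarith
    have h4 : n * ((β / 2) * (1 - δ)) ≤ n * b / 2 * (1 - μ n b) := h3.trans (h2.trans h1)
    have h5 : (β / 2) * (1 - δ) ≤ b / 2 * (1 - μ n b) := by
      have : n * ((β / 2) * (1 - δ)) ≤ n * (b / 2 * (1 - μ n b)) := by
        calc _ ≤ _ := h4
          _ = _ := by ring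
      exact le_of_mul_le_mul_left this hn'
    have hb0 : 1 < b := by linarith
    have h6 : b * μ n b ≤ b - β * (1 - δ) := by linarith
    have h7 : b - β * (1 - δ) ≤ b * (4 * δ) := by nlinarith
    exact le_of_mul_le_mul_left (h6.trans h7) (by linarith)
  -- the increments in `n`
  have hincr : ∀ᶠ n : ℕ in atTop,
      f n b1 + (Real.log 2 + b1 ^ 2 / 4 - d / 2) ≤ f (n + 1) b1 := by
    have hs : Tendsto (fun n : ℕ => b1 * Real.sqrt (n / (n + 1))) atTop (𝓝 (b1 * 1)) := by
      have h1 : Tendsto (fun n : ℕ => (n : ℝ) / (n + 1)) atTop (𝓝 1) :=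
        tendsto_natCast_div_add_atTop (1 : ℝ)
      have h2 := (Real.continuous_sqrt.tendsto 1).comp h1
      rw [Real.sqrt_one] at h2
      exact h2.const_mul b1
    rw [mul_one] at hs
    have hq : Tendsto (fun n : ℕ => b1 ^ 2 / 4 / ((n : ℝ) + 1)) atTop (𝓝 0) := by
      have := tendsto_const_div_atTop_nhds_zero_nat (𝕜 := ℝ) (b1 ^ 2 / 4)
      have h2 := this.comp (tendsto_add_atTop_nat 1)
      refine h2.congr fun n => ?_
      simp
    filter_upwards [hov, eventually_ge_atTop 1, hs.eventually (lt_mem_nhds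
      (show β + 2 * δ < b1 by linarith)), hq.eventually (gt_mem_nhds
      (show (0 : ℝ) < d / 4 by positivity))] with n h1 hn1 h2 h3
    have hn' : (0 : ℝ) < n := by
      have : 0 < n := by omega
      exact_mod_cast this
    set b : ℝ := b1 * Real.sqrt (n / (n + 1)) with hb
    have hb1pos : 0 < b1 := by linarith
    have hbb : b ≤ b1 := by
      have : Real.sqrt ((n : ℝ) / (n + 1)) ≤ 1 := by
        rw [Real.sqrt_le_one]
        rw [div_le_one (by positivity)]
        linarith
      nlinarith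
    have hbsq : b ^ 2 = b1 ^ 2 - b1 ^ 2 / (n + 1) := by
      rw [hb, mul_pow, Real.sq_sqrt (by positivity)]
      field_simp
      ring
    have hov' := h1 b h2.le hbb
    have hc := hcav n hn1 b1 b hb
    have hm := hmono n hn1 b b1 (by linarith) hbb
    have hKb : Real.exp (b ^ 2 / 2) * (Real.cosh (b ^ 2) - 1) ≤ K := by
      have e1 : b ^ 2 ≤ B ^ 2 := by
        have : b ≤ B := by linarith
        nlinarith
      have e2 : Real.exp (b ^ 2 / 2) ≤ Real.exp (B ^ 2 / 2) := Real.exp_le_exp.2 (by linarith)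
      have e3 : Real.cosh (b ^ 2) ≤ Real.cosh (B ^ 2) := by
        rw [Real.cosh_le_cosh, abs_of_nonneg (by positivity), abs_of_nonneg (by positivity)]
        exact e1
      have e4 : 0 ≤ Real.cosh (b ^ 2) - 1 := sub_nonneg.2 (Real.one_le_cosh _)
      have := mul_le_mul e2 (sub_le_sub_right e3 1) e4 (Real.exp_pos _).le
      linarith
    have hKμ : Real.exp (b ^ 2 / 2) * (Real.cosh (b ^ 2) - 1) * μ n b ≤ d / 5 := by
      calc _ ≤ K * μ n b := mul_le_mul_of_nonneg_right hKb (hμ n b)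
        _ ≤ K * (4 * δ) := mul_le_mul_of_nonneg_left hov' (by linarith)
        _ ≤ d / 5 := by linarith
    have hm' : (n : ℝ) * (b1 ^ 2 - b ^ 2) / 4 ≤ b1 ^ 2 / 4 - b1 ^ 2 / 4 / (n + 1) := by
      rw [hbsq]
      apply le_of_eq
      field_simp
      ring
    have h4 : b ^ 2 / 2 = b1 ^ 2 / 2 - 2 * (b1 ^ 2 / 4 / (n + 1)) := by
      rw [hbsq]
      field_simp
      ring
    linarith
  have h1 := le_lim_of_incr (hP b1) hincr
  have h2 := hPle b1 (by linarith)
  linarith

end Vale.Agent.P150.Slow
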