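import Vale.Agent.Lib.P150.Slow.Base
import Vale.Agent.Lib.P150.GOE

/-!
Low-temperature part: two-point functions, their derivative and the Stein identity for a
Gaussian perturbation of the disorder.
-/

namespace Vale.Agent.P150.Slow.Tg

open MeasureTheory ProbabilityTheory Filter Topology Vale.Agent.P150 Vale.Agent.P150.Slow

variable {n : ℕ}

/-- the pair spin -/
noncomputable def sg (p : Pair n) (x : Config n) : ℝ := spin (x p.1.1) * spin (x p.1.2)

lemma sg_sq (p : Pair n) (x : Config n) : sg p x ^ 2 = 1 := by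
  unfold sg
  rw [mul_pow, spin_sq, spin_sq, one_mul]

lemma gibbsWeight_eq (β : ℝ) (g : Pair n → ℝ) (x : Config n) :
    gibbsWeight β g x = Real.exp (β / Real.sqrt n * ∑ p : Pair n, g p * sg p x) := by
  unfold gibbsWeight sg
  congr 2
  exact Finset.sum_congr rfl fun p _ => by ring

lemma corr_eq (β : ℝ) (g : Pair n → ℝ) (p : Pair n) :
    corr β g p = (∑ x, sg p x * gibbsWeight β g x) / ∑ x, gibbsWeight β g x := by
  unfold corr gibbs
  rw [Finset.sum_div]
  refine Finset.sum_congr rfl fun x _ => ?_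
  unfold sg
  ring

lemma abs_corr_le (β : ℝ) (g : Pair n → ℝ) (p : Pair n) : |corr β g p| ≤ 1 := by
  rw [corr_eq, abs_div, abs_of_pos (partZ_pos β g), div_le_one (partZ_pos β g)]
  refine (Finset.abs_sum_le_sum_abs _ _).trans (Finset.sum_le_sum fun x _ => ?_)
  rw [abs_mul, abs_of_pos (gibbsWeight_pos β g x)]
  have h1 : |sg p x| = 1 := by
    rw [← sq_eq_sq₀ (abs_nonneg _) zero_le_one, sq_abs, sg_sq, one_pow]
  rw [h1, one_mul]

lemma gibbsWeight_smul (β a : ℝ) (g : Pair n → ℝ) (x : Config n) :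
    gibbsWeight β (a • g) x = gibbsWeight (β * a) g x := by
  rw [gibbsWeight_eq, gibbsWeight_eq]
  congr 1
  rw [Finset.mul_sum, Finset.mul_sum]
  refine Finset.sum_congr rfl fun p _ => ?_
  simp only [Pi.smul_apply, smul_eq_mul]
  ring

lemma corr_smul (β a : ℝ) (g : Pair n → ℝ) (p : Pair n) :
    corr β (a • g) p = corr (β * a) g p := by
  rw [corr_eq, corr_eq]
  simp only [gibbsWeight_smul]

lemma hasDerivAt_gibbsWeight (β : ℝ) (g : Pair n → ℝ) (p : Pair n) (x : Config n) (a t : ℝ)
    (ξ : Pair n → ℝ) :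
    HasDerivAt (fun t => gibbsWeight β (fun q => g q + a * Function.update ξ p t q) x)
      (β / Real.sqrt n * a * (sg p x *
        gibbsWeight β (fun q => g q + a * Function.update ξ p t q) x)) t := by
  simp only [gibbsWeight_eq]
  have h1 : ∀ q : Pair n, HasDerivAt (fun t => (g q + a * Function.update ξ p t q) * sg q x)
      (if q = p then a * sg p x else 0) t := by
    intro q
    by_cases hq : q = p
    · subst hq
      simp only [Function.update_self, if_true]
      have := (((hasDerivAt_id' t).const_mul a).const_add (g q)).mul_const (sg q x)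
      simpa using this
    · simp only [Function.update_of_ne hq, if_neg hq]
      exact hasDerivAt_const _ _
  have h2 := HasDerivAt.fun_sum (u := Finset.univ) fun q _ => h1 q
  have h3 := (h2.const_mul (β / Real.sqrt n)).exp
  refine h3.congr_deriv ?_
  rw [Finset.sum_ite_eq' Finset.univ p]
  simp only [Finset.mem_univ, if_true]
  ring

/-- derivative of the two-point function in the coordinate `p` of the perturbation -/
lemma hasDerivAt_corr (β : ℝ) (g : Pair n → ℝ) (p : Pair n) (a t : ℝ) (ξ : Pair n → ℝ) :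
    HasDerivAt (fun t => corr β (fun q => g q + a * Function.update ξ p t q) p)
      (a * (β / Real.sqrt n) *
        (1 - corr β (fun q => g q + a * Function.update ξ p t q) p ^ 2)) t := by
  simp only [corr_eq]
  set G : ℝ → Pair n → ℝ := fun t q => g q + a * Function.update ξ p t q with hG
  have h1 : HasDerivAt (fun t => ∑ x, sg p x * gibbsWeight β (G t) x)
      (∑ x, sg p x * (β / Real.sqrt n * a * (sg p x * gibbsWeight β (G t) x))) t :=
    HasDerivAt.fun_sum fun x _ => (hasDerivAt_gibbsWeight β g p x a t ξ).const_mul _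
  have h2 : HasDerivAt (fun t => ∑ x, gibbsWeight β (G t) x)
      (∑ x, (β / Real.sqrt n * a * (sg p x * gibbsWeight β (G t) x))) t :=
    HasDerivAt.fun_sum fun x _ => (hasDerivAt_gibbsWeight β g p x a t ξ)
  have hZ := partZ_pos β (G t)
  have h3 := h1.div h2 hZ.ne'
  refine h3.congr_deriv ?_
  have e1 : ∑ x, sg p x * (β / Real.sqrt n * a * (sg p x * gibbsWeight β (G t) x)) =
      β / Real.sqrt n * a * ∑ x, gibbsWeight β (G t) x := by
    rw [Finset.mul_sum]
    refine Finset.sum_congr rfl fun x _ => ?_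
    have := sg_sq p x
    calc sg p x * (β / Real.sqrt n * a * (sg p x * gibbsWeight β (G t) x))
        = β / Real.sqrt n * a * (sg p x ^ 2 * gibbsWeight β (G t) x) := by ring
      _ = _ := by rw [this, one_mul]
  have e2 : ∑ x, (β / Real.sqrt n * a * (sg p x * gibbsWeight β (G t) x)) =
      β / Real.sqrt n * a * ∑ x, sg p x * gibbsWeight β (G t) x := by
    rw [Finset.mul_sum]
  rw [e1, e2]
  change _ = a * (β / Real.sqrt n) * (1 - ((∑ x, sg p x * gibbsWeight β (G t) x) /
    ∑ x, gibbsWeight β (G t) x) ^ 2)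
  field_simp

lemma continuous_gibbsWeight (β : ℝ) (x : Config n) :
    Continuous (fun g : Pair n → ℝ => gibbsWeight β g x) := by
  simp only [gibbsWeight_eq]
  fun_prop

lemma continuous_partZ (β : ℝ) :
    Continuous (fun g : Pair n → ℝ => ∑ x, gibbsWeight β g x) :=
  continuous_finsetSum _ fun x _ => continuous_gibbsWeight β x

lemma continuous_gibbs (β : ℝ) (x : Config n) :
    Continuous (fun g : Pair n → ℝ => gibbs β g x) :=
  (continuous_gibbsWeight β x).div (continuous_partZ β) fun g => (partZ_pos β g).ne'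

lemma continuous_corr (β : ℝ) (p : Pair n) :
    Continuous (fun g : Pair n → ℝ => corr β g p) :=
  continuous_finsetSum _ fun x _ => (continuous_gibbs β x).mul continuous_const

lemma continuous_ovlSq (β : ℝ) :
    Continuous (fun g : Pair n → ℝ => ovlSq β g) :=
  continuous_finsetSum _ fun x _ => continuous_finsetSum _ fun y _ =>
    ((continuous_gibbs β x).mul (continuous_gibbs β y)).mul continuous_const

lemma continuous_energy (β : ℝ) :
    Continuous (fun g : Pair n → ℝ => energy β g) :=
  (continuous_finsetSum _ fun p _ =>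
    (continuous_apply p).mul (continuous_corr β p)).div_const _

lemma sum_corr_sq (hn : 1 ≤ n) (β : ℝ) (g : Pair n → ℝ) :
    2 * ∑ p : Pair n, corr β g p ^ 2 + n = n ^ 2 * ovlSq β g := by
  have hn0 : (n : ℝ) ≠ 0 := by positivity
  set f : Fin n → Fin n → ℝ := fun i j =>
    (∑ x, gibbs β g x * (spin (x i) * spin (x j))) ^ 2 with hf
  have h1 : ∑ i, ∑ j, f i j = 2 * ∑ p : Pair n, f p.1.1 p.1.2 + ∑ i, f i i :=
    sum_symm_eq f fun i j => by
      simp only [hf]
      congr 1
      exact Finset.sum_congr rfl fun x _ => by ring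
  have h2 : ∑ i, f i i = n := by
    have : ∀ i, f i i = 1 := by
      intro i
      simp only [hf, spin_mul_self, mul_one, sum_gibbs, one_pow]
    simp [this]
  have h3 : ∑ p : Pair n, f p.1.1 p.1.2 = ∑ p : Pair n, corr β g p ^ 2 := rfl
  set F : Fin n → Fin n → Config n → Config n → ℝ := fun i j x y =>
    gibbs β g x * gibbs β g y * ((spin (x i) * spin (y i)) * (spin (x j) * spin (y j))) with hF
  have h4 : ∑ i, ∑ j, f i j = n ^ 2 * ovlSq β g := by
    have e0 : ∀ i j, f i j = ∑ x, ∑ y, F i j x y := by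
      intro i j
      simp only [hf, sq, hF]
      rw [Finset.sum_mul_sum]
      refine Finset.sum_congr rfl fun x _ => Finset.sum_congr rfl fun y _ => ?_
      ring
    have e1 : ∑ i, ∑ j, ∑ x, ∑ y, F i j x y = ∑ x, ∑ y, ∑ i, ∑ j, F i j x y := by
      calc ∑ i, ∑ j, ∑ x, ∑ y, F i j x y
          = ∑ i, ∑ x, ∑ j, ∑ y, F i j x y := Finset.sum_congr rfl fun i _ => Finset.sum_comm
        _ = ∑ x, ∑ i, ∑ j, ∑ y, F i j x y := Finset.sum_comm
        _ = ∑ x, ∑ i, ∑ y, ∑ j, F i j x y := Finset.sum_congr rfl fun x _ =>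
            Finset.sum_congr rfl fun i _ => Finset.sum_comm
        _ = ∑ x, ∑ y, ∑ i, ∑ j, F i j x y := Finset.sum_congr rfl fun x _ => Finset.sum_comm
    simp only [e0]
    rw [e1]
    unfold ovlSq
    rw [Finset.mul_sum]
    refine Finset.sum_congr rfl fun x _ => ?_
    rw [Finset.mul_sum]
    refine Finset.sum_congr rfl fun y _ => ?_
    unfold ovl
    have e2 : ∑ i : Fin n, ∑ j : Fin n, F i j x y =
        gibbs β g x * gibbs β g y * ((∑ i, spin (x i) * spin (y i)) *
          ∑ j, spin (x j) * spin (y j)) := by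
      simp only [hF]
      rw [Finset.sum_mul_sum, Finset.mul_sum]
      refine Finset.sum_congr rfl fun i _ => ?_
      rw [Finset.mul_sum]
    rw [e2]
    field_simp
  rw [← h4, h1, h2, h3]

lemma card_pair : 2 * (Fintype.card (Pair n) : ℝ) + n = n ^ 2 := by
  have h1 := sum_symm_eq (n := n) (fun _ _ => (1 : ℝ)) fun _ _ => rfl
  simp only [Finset.sum_const, Finset.card_univ, Fintype.card_fin, nsmul_eq_mul, mul_one] at h1
  rw [sq, h1]

lemma sum_one_sub_corr_sq (hn : 1 ≤ n) (β : ℝ) (g : Pair n → ℝ) :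
    ∑ p : Pair n, (1 - corr β g p ^ 2) = n ^ 2 / 2 * (1 - ovlSq β g) := by
  have h1 := sum_corr_sq hn β g
  have h2 := card_pair (n := n)
  rw [Finset.sum_sub_distrib]
  simp only [Finset.sum_const, Finset.card_univ, nsmul_eq_mul, mul_one]
  linarith

lemma ovl_sq_le (x y : Config n) : ovl x y ^ 2 ≤ 1 := by
  unfold ovl
  rcases Nat.eq_zero_or_pos n with rfl | hn
  · simp
  · have hn0 : (0 : ℝ) < n := by exact_mod_cast hn
    rw [div_pow, div_le_one (by positivity)]
    have h1 : |∑ i, spin (x i) * spin (y i)| ≤ n := by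
      refine (Finset.abs_sum_le_sum_abs _ _).trans ?_
      simp [abs_mul, abs_spin]
    rw [← sq_abs]
    exact pow_le_pow_left₀ (abs_nonneg _) h1 2

lemma ovlSq_le_one (β : ℝ) (g : Pair n → ℝ) : ovlSq β g ≤ 1 := by
  unfold ovlSq
  calc ∑ x, ∑ y, gibbs β g x * gibbs β g y * ovl x y ^ 2
      ≤ ∑ x, ∑ y, gibbs β g x * gibbs β g y * 1 := by
        refine Finset.sum_le_sum fun x _ => Finset.sum_le_sum fun y _ => ?_
        exact mul_le_mul_of_nonneg_left (ovl_sq_le x y)
          (mul_pos (gibbs_pos β g x) (gibbs_pos β g y)).le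
    _ = 1 := by
        simp only [mul_one]
        rw [← Finset.sum_mul_sum, sum_gibbs, one_mul]

lemma ovlSq_nonneg (β : ℝ) (g : Pair n → ℝ) : 0 ≤ ovlSq β g :=
  Finset.sum_nonneg fun x _ => Finset.sum_nonneg fun y _ =>
    mul_nonneg (mul_pos (gibbs_pos β g x) (gibbs_pos β g y)).le (sq_nonneg _)

lemma sum_corr_sq_le (hn : 1 ≤ n) (β : ℝ) (g : Pair n → ℝ) :
    ∑ p : Pair n, corr β g p ^ 2 ≤ n ^ 2 / 2 := by
  have h1 := sum_corr_sq hn β g
  have h2 := ovlSq_le_one β g
  have h3 : (0 : ℝ) ≤ n := Nat.cast_nonneg n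
  nlinarith [mul_nonneg (sq_nonneg (n : ℝ)) (sub_nonneg.2 h2)]

/-- Stein identity for the perturbation. -/
lemma stein_corr (hn : 1 ≤ n) (β a : ℝ) (g : Pair n → ℝ) :
    ∫ ξ, ∑ p, ξ p * corr β (fun q => g q + a * ξ q) p ∂(disorder n) =
      a * (β / Real.sqrt n) * (n ^ 2 / 2) *
        ∫ ξ, (1 - ovlSq β (fun q => g q + a * ξ q)) ∂(disorder n) := by
  have hc : ∀ p : Pair n, Continuous fun ξ : Pair n → ℝ => corr β (fun q => g q + a * ξ q) p :=
    fun p => (continuous_corr β p).comp (by fun_prop)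
  have hb : ∀ (p : Pair n) (ξ : Pair n → ℝ), |corr β (fun q => g q + a * ξ q) p| ≤ 1 :=
    fun p ξ => abs_corr_le _ _ _
  have h1 : ∀ p : Pair n, ∫ ξ, ξ p * corr β (fun q => g q + a * ξ q) p ∂(disorder n) =
      ∫ ξ, a * (β / Real.sqrt n) * (1 - corr β (fun q => g q + a * ξ q) p ^ 2)
        ∂(disorder n) := by
    intro p
    have hM0 : 0 ≤ |a * (β / Real.sqrt n)| := abs_nonneg _
    refine stein_pi (ι := Pair n) p (f := fun ξ => corr β (fun q => g q + a * ξ q) p)
      (f' := fun ξ => a * (β / Real.sqrt n) * (1 - corr β (fun q => g q + a * ξ q) p ^ 2))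
      (hc p).measurable
      (continuous_const.mul (continuous_const.sub ((hc p).pow 2))).measurable (fun ξ t => hasDerivAt_corr β g p a t ξ)
      (M := 1 + |a * (β / Real.sqrt n)|) (C := 0) le_rfl ?_ ?_
    · intro ξ
      simp only [zero_mul, Real.exp_zero, mul_one]
      linarith [hb p ξ]
    · intro ξ
      simp only [zero_mul, Real.exp_zero, mul_one]
      rw [abs_mul]
      have h2 : |1 - corr β (fun q => g q + a * ξ q) p ^ 2| ≤ 1 := by
        have h3 := hb p ξ
        have h4 : corr β (fun q => g q + a * ξ q) p ^ 2 ≤ 1 := by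
          rw [← sq_abs]
          exact pow_le_one₀ (abs_nonneg _) h3
        rw [abs_le]
        constructor <;> nlinarith [sq_nonneg (corr β (fun q => g q + a * ξ q) p)]
      calc _ ≤ |a * (β / Real.sqrt n)| * 1 := mul_le_mul_of_nonneg_left h2 hM0
        _ ≤ _ := by linarith
  have hi : ∀ p ∈ (Finset.univ : Finset (Pair n)),
      Integrable (fun ξ => ξ p * corr β (fun q => g q + a * ξ q) p) (disorder n) := by
    intro p _
    refine integrable_of_growth_pi (M := 1) (C := 1) ?_ fun ξ => ?_
    · exact (measurable_pi_apply p).mul (hc p).measurable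
    · rw [abs_mul, one_mul, one_mul]
      have h2 : |ξ p| ≤ ∑ i, |ξ i| :=
        Finset.single_le_sum (f := fun i => |ξ i|) (fun i _ => abs_nonneg _) (Finset.mem_univ p)
      have h3 : |ξ p| * |corr β (fun q => g q + a * ξ q) p| ≤ |ξ p| :=
        mul_le_of_le_one_right (abs_nonneg _) (hb p ξ)
      linarith [Real.add_one_le_exp (∑ i, |ξ i|)]
  have hi' : ∀ p ∈ (Finset.univ : Finset (Pair n)),
      Integrable (fun ξ => (1 - corr β (fun q => g q + a * ξ q) p ^ 2)) (disorder n) := by
    intro p _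
    refine integrable_of_growth_pi (M := 1) (C := 0) ?_ fun ξ => ?_
    · exact (continuous_const.sub ((hc p).pow 2)).measurable
    · simp only [zero_mul, Real.exp_zero, mul_one]
      have h3 := hb p ξ
      have h4 : corr β (fun q => g q + a * ξ q) p ^ 2 ≤ 1 := by
        rw [← sq_abs]
        exact pow_le_one₀ (abs_nonneg _) h3
      rw [abs_le]
      constructor <;> nlinarith [sq_nonneg (corr β (fun q => g q + a * ξ q) p)]
  rw [integral_finsetSum _ hi, Finset.sum_congr rfl fun p _ => h1 p]
  simp only [integral_const_mul]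
  rw [← Finset.mul_sum, ← integral_finsetSum _ hi', mul_assoc (a * (β / Real.sqrt n))]
  congr 1
  rw [← integral_const_mul]
  congr 1
  ext ξ
  rw [sum_one_sub_corr_sq hn]

end Vale.Agent.P150.Slow.Tg
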