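import Vale.Agent.Lib.P150.Slow.TightA

/-!
Low-temperature part: rotation of a Gaussian pair and the main inequality for the energy of a
perturbed disorder.
-/

namespace Vale.Agent.P150.Slow.Tg

open MeasureTheory ProbabilityTheory Filter Topology Vale.Agent.P150 Vale.Agent.P150.Slow

section Rot

variable {ι : Type*} [Fintype ι]

lemma isGaussian_stdG : IsGaussian (stdG ι) := by
  have h1 : stdG ι = (stdGaussian (EuclideanSpace ℝ ι)).map
      (EuclideanSpace.equiv ι ℝ).toContinuousLinearMap := by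
    rw [← map_pi_eq_stdGaussian, Measure.map_map (by fun_prop) (by fun_prop)]
    have : (⇑(EuclideanSpace.equiv ι ℝ).toContinuousLinearMap ∘ WithLp.toLp 2) =
        (id : (ι → ℝ) → ι → ℝ) := by
      ext x i
      rfl
    rw [this, Measure.map_id]
  rw [h1]
  infer_instance

lemma integral_coord (i : ι) : ∫ x, x i ∂(stdG ι) = 0 := by
  have := (measurePreserving_eval (fun _ : ι => gaussianReal 0 1) i)
  have h2 : ∫ x, x i ∂(stdG ι) = ∫ y, y ∂(gaussianReal 0 1) := by
    rw [← this.map_eq, integral_map (measurable_pi_apply i).aemeasurable (by fun_prop)]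
  rw [h2]
  simp

lemma integrable_coord (i : ι) : Integrable (fun x : ι → ℝ => x i) (stdG ι) := by
  refine integrable_of_growth_pi (M := 1) (C := 1) (measurable_pi_apply i) fun ξ => ?_
  rw [one_mul, one_mul]
  have h2 : |ξ i| ≤ ∑ i, |ξ i| :=
    Finset.single_le_sum (f := fun i => |ξ i|) (fun i _ => abs_nonneg _) (Finset.mem_univ i)
  linarith [Real.add_one_le_exp (∑ i, |ξ i|)]

lemma map_rotation_stdG (θ : ℝ) :
    ((stdG ι).prod (stdG ι)).map (ContinuousLinearMap.rotation θ) = (stdG ι).prod (stdG ι) := by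
  classical
  have := isGaussian_stdG (ι := ι)
  refine IsGaussian.map_rotation_eq_self_of_forall_strongDual_eq_zero (fun L => ?_) θ
  have h1 : ∀ x : ι → ℝ, L x = ∑ i, x i * L (Pi.single i 1) := by
    intro x
    conv_lhs => rw [pi_eq_sum_univ' x]
    rw [map_sum]
    refine Finset.sum_congr rfl fun i _ => ?_
    rw [map_smul, smul_eq_mul]
  rw [integral_congr_ae (Eventually.of_forall h1)]
  rw [integral_finsetSum _ fun i _ => (integrable_coord i).mul_const _]
  simp only [integral_mul_const, integral_coord, zero_mul, Finset.sum_const_zero]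

lemma integral_linear_sq (c : ι → ℝ) : ∫ y, (∑ p, y p * c p) ^ 2 ∂(stdG ι) = ∑ p, c p ^ 2 := by
  classical
  have hg : ∀ y : ι → ℝ, |∑ q, y q * c q| ≤ (∑ q, |c q|) * Real.exp (1 * ∑ i, |y i|) := by
    intro y
    refine (Finset.abs_sum_le_sum_abs _ _).trans ?_
    rw [Finset.sum_mul]
    refine Finset.sum_le_sum fun q _ => ?_
    rw [abs_mul, mul_comm, one_mul]
    have h2 : |y q| ≤ ∑ i, |y i| :=
      Finset.single_le_sum (f := fun i => |y i|) (fun i _ => abs_nonneg _) (Finset.mem_univ q)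
    exact mul_le_mul_of_nonneg_left (by linarith [Real.add_one_le_exp (∑ i, |y i|)])
      (abs_nonneg _)
  have hM : ∀ (p : ι), |c p| ≤ ∑ q, |c q| := fun p =>
    Finset.single_le_sum (f := fun i => |c i|) (fun i _ => abs_nonneg _) (Finset.mem_univ p)
  have h1 : ∀ p, ∫ y, y p * (∑ q, y q * c q) ∂(stdG ι) = c p := by
    intro p
    have := stein_pi (ι := ι) p (f := fun y => ∑ q, y q * c q) (f' := fun _ => c p)
      (by fun_prop) (by fun_prop) (fun x t => by
        have h2 : ∀ q : ι, HasDerivAt (fun s => Function.update x p s q * c q)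
            (if q = p then c p else 0) t := by
          intro q
          by_cases hq : q = p
          · subst hq
            simp only [Function.update_self, if_true]
            simpa using (hasDerivAt_id' t).mul_const (c q)
          · simp only [Function.update_of_ne hq, if_neg hq]
            exact hasDerivAt_const _ _
        have h3 := HasDerivAt.fun_sum (u := Finset.univ) fun q _ => h2 q
        simpa using h3) (M := ∑ q, |c q|) (C := 1) zero_le_one hg (fun x => by
          have h4 : (1 : ℝ) ≤ Real.exp (1 * ∑ i, |x i|) := by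
            rw [one_mul]
            exact Real.one_le_exp (Finset.sum_nonneg fun i _ => abs_nonneg _)
          have h5 := hM p
          have h6 : 0 ≤ ∑ q, |c q| := (abs_nonneg _).trans h5
          nlinarith)
    rw [this]
    simp
  have h2 : ∀ y : ι → ℝ, (∑ p, y p * c p) ^ 2 = ∑ p, c p * (y p * ∑ q, y q * c q) := by
    intro y
    rw [sq, Finset.sum_mul]
    exact Finset.sum_congr rfl fun p _ => by ring
  have h3 : ∀ p ∈ (Finset.univ : Finset ι),
      Integrable (fun y : ι → ℝ => c p * (y p * ∑ q, y q * c q)) (stdG ι) := by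
    intro p _
    refine Integrable.const_mul ?_ _
    refine integrable_of_growth_pi (M := ∑ q, |c q|) (C := 2) (by fun_prop) fun y => ?_
    rw [abs_mul]
    have h4 : |y p| ≤ ∑ i, |y i| :=
      Finset.single_le_sum (f := fun i => |y i|) (fun i _ => abs_nonneg _) (Finset.mem_univ p)
    have h5 : |y p| ≤ Real.exp (∑ i, |y i|) := by
      linarith [Real.add_one_le_exp (∑ i, |y i|)]
    calc |y p| * |∑ q, y q * c q| ≤ Real.exp (∑ i, |y i|) *
          ((∑ q, |c q|) * Real.exp (1 * ∑ i, |y i|)) :=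
          mul_le_mul h5 (hg y) (abs_nonneg _) (Real.exp_pos _).le
      _ = (∑ q, |c q|) * Real.exp (2 * ∑ i, |y i|) := by
          rw [one_mul, two_mul, Real.exp_add]; ring
  simp only [h2]
  rw [integral_finsetSum _ h3]
  refine Finset.sum_congr rfl fun p _ => ?_
  rw [integral_const_mul, h1, sq]

end Rot

variable {n : ℕ}

instance : IsProbabilityMeasure (disorder n) := by
  unfold disorder; infer_instance

lemma disorder_eq : disorder n = stdG (Pair n) := rfl

/-- the rotation angle -/
noncomputable def ang (s : ℝ) : ℝ := Real.arctan (Real.sqrt s)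

lemma cos_ang {s : ℝ} (hs : 0 ≤ s) : Real.cos (ang s) = 1 / Real.sqrt (1 + s) := by
  unfold ang
  rw [Real.cos_arctan, Real.sq_sqrt hs]

lemma sin_ang {s : ℝ} (hs : 0 ≤ s) : Real.sin (ang s) = Real.sqrt s / Real.sqrt (1 + s) := by
  unfold ang
  rw [Real.sin_arctan, Real.sq_sqrt hs]

/-- first rotated coordinate -/
noncomputable def rotG (s : ℝ) (z : (Pair n → ℝ) × (Pair n → ℝ)) : Pair n → ℝ :=
  (ContinuousLinearMap.rotation (ang s) z).1

/-- second rotated coordinate -/
noncomputable def rotY (s : ℝ) (z : (Pair n → ℝ) × (Pair n → ℝ)) : Pair n → ℝ :=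
  (ContinuousLinearMap.rotation (ang s) z).2

lemma rotG_apply {s : ℝ} (hs : 0 ≤ s) (z : (Pair n → ℝ) × (Pair n → ℝ)) (p : Pair n) :
    rotG s z p = (z.1 p + Real.sqrt s * z.2 p) / Real.sqrt (1 + s) := by
  unfold rotG
  rw [ContinuousLinearMap.rotation_apply, cos_ang hs, sin_ang hs]
  simp only [Pi.add_apply, Pi.smul_apply, smul_eq_mul]
  ring

lemma rotY_apply {s : ℝ} (hs : 0 ≤ s) (z : (Pair n → ℝ) × (Pair n → ℝ)) (p : Pair n) :
    rotY s z p = (-Real.sqrt s * z.1 p + z.2 p) / Real.sqrt (1 + s) := by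
  unfold rotY
  rw [ContinuousLinearMap.rotation_apply, cos_ang hs, sin_ang hs]
  simp only [Pi.add_apply, Pi.smul_apply, smul_eq_mul]
  ring

lemma measurable_rotG (s : ℝ) : Measurable (rotG (n := n) s) :=
  (ContinuousLinearMap.continuous _).fst.measurable

lemma measurable_rotY (s : ℝ) : Measurable (rotY (n := n) s) :=
  (ContinuousLinearMap.continuous _).snd.measurable

lemma measurePreserving_rot (s : ℝ) :
    MeasurePreserving (fun z : (Pair n → ℝ) × (Pair n → ℝ) => (rotG s z, rotY s z))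
      ((disorder n).prod (disorder n)) ((disorder n).prod (disorder n)) := by
  refine ⟨(measurable_rotG s).prodMk (measurable_rotY s), ?_⟩
  exact map_rotation_stdG (ι := Pair n) (ang s)

lemma measurePreserving_rotG (s : ℝ) :
    MeasurePreserving (rotG (n := n) s) ((disorder n).prod (disorder n)) (disorder n) :=
  (measurePreserving_fst (μ := disorder n) (ν := disorder n)).comp (measurePreserving_rot s)

lemma corr_pert {s : ℝ} (hs : 0 ≤ s) (β : ℝ) (z : (Pair n → ℝ) × (Pair n → ℝ)) (p : Pair n) :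
    corr β (fun q => z.1 q + Real.sqrt s * z.2 q) p =
      corr (β * Real.sqrt (1 + s)) (rotG s z) p := by
  rw [← corr_smul]
  congr 1
  ext q
  have : Real.sqrt (1 + s) ≠ 0 := by positivity
  simp only [Pi.smul_apply, smul_eq_mul, rotG_apply hs]
  field_simp

lemma energy_pert (hn : 1 ≤ n) {s : ℝ} (hs : 0 < s) (β : ℝ)
    (z : (Pair n → ℝ) × (Pair n → ℝ)) :
    Real.sqrt s * ((n * Real.sqrt n) * energy (β * Real.sqrt (1 + s)) (rotG s z)) =
      Real.sqrt (1 + s) * (∑ p, z.2 p * corr β (fun q => z.1 q + Real.sqrt s * z.2 q) p) -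
        ∑ p, rotY s z p * corr (β * Real.sqrt (1 + s)) (rotG s z) p := by
  have hn0 : (0 : ℝ) < n := by exact_mod_cast hn
  have h0 : (n : ℝ) * Real.sqrt n ≠ 0 := by positivity
  unfold energy
  rw [mul_div_cancel₀ _ h0, Finset.mul_sum, Finset.mul_sum, ← Finset.sum_sub_distrib]
  refine Finset.sum_congr rfl fun p _ => ?_
  rw [corr_pert hs.le, ← mul_assoc, ← mul_assoc, ← sub_mul]
  congr 1
  have h1 : Real.sqrt (1 + s) ≠ 0 := by positivity
  have h2 : Real.sqrt (1 + s) ^ 2 = 1 + s := Real.sq_sqrt (by positivity)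
  have h3 : Real.sqrt s ^ 2 = s := Real.sq_sqrt hs.le
  rw [rotG_apply hs.le, rotY_apply hs.le, eq_sub_iff_add_eq, ← eq_comm]
  field_simp
  rw [h2]
  linear_combination (-(z.2 p)) * h3

lemma abs_lin_le (y c : Pair n → ℝ) (hc : ∀ p, |c p| ≤ 1) :
    |∑ p, y p * c p| ≤ Real.exp (∑ p, |y p|) := by
  refine (Finset.abs_sum_le_sum_abs _ _).trans ?_
  have h1 : ∑ p, |y p * c p| ≤ ∑ p, |y p| := Finset.sum_le_sum fun p _ => by
    rw [abs_mul]
    exact mul_le_of_le_one_right (abs_nonneg _) (hc p)
  linarith [Real.add_one_le_exp (∑ p, |y p|)]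

lemma integrable_exp_snd (C : ℝ) :
    Integrable (fun z : (Pair n → ℝ) × (Pair n → ℝ) => Real.exp (C * ∑ p, |z.2 p|))
      ((disorder n).prod (disorder n)) :=
  (integrable_exp_sum_abs (ι := Pair n) C).comp_snd (disorder n)

lemma integrable_xi {s : ℝ} (β : ℝ) :
    Integrable (fun z : (Pair n → ℝ) × (Pair n → ℝ) =>
      ∑ p, z.2 p * corr β (fun q => z.1 q + Real.sqrt s * z.2 q) p)
      ((disorder n).prod (disorder n)) := by
  have hc : Continuous (fun z : (Pair n → ℝ) × (Pair n → ℝ) =>
      ∑ p, z.2 p * corr β (fun q => z.1 q + Real.sqrt s * z.2 q) p) := by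
    refine continuous_finsetSum _ fun p _ => Continuous.mul (by fun_prop) ?_
    exact (continuous_corr β p).comp (by fun_prop)
  refine (integrable_exp_snd (n := n) 1).mono' hc.aestronglyMeasurable
    (Eventually.of_forall fun z => ?_)
  rw [Real.norm_eq_abs, one_mul]
  exact abs_lin_le _ _ fun p => abs_corr_le _ _ _

lemma integrable_lin (b : ℝ) :
    Integrable (fun z : (Pair n → ℝ) × (Pair n → ℝ) => ∑ p, z.2 p * corr b z.1 p)
      ((disorder n).prod (disorder n)) := by
  have hc : Continuous (fun z : (Pair n → ℝ) × (Pair n → ℝ) =>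
      ∑ p, z.2 p * corr b z.1 p) := by
    refine continuous_finsetSum _ fun p _ => Continuous.mul (by fun_prop) ?_
    exact (continuous_corr b p).comp (by fun_prop)
  refine (integrable_exp_snd (n := n) 1).mono' hc.aestronglyMeasurable
    (Eventually.of_forall fun z => ?_)
  rw [Real.norm_eq_abs, one_mul]
  exact abs_lin_le _ _ fun p => abs_corr_le _ _ _

lemma integrable_lin_sq (b : ℝ) :
    Integrable (fun z : (Pair n → ℝ) × (Pair n → ℝ) => (∑ p, z.2 p * corr b z.1 p) ^ 2)
      ((disorder n).prod (disorder n)) := by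
  have hc : Continuous (fun z : (Pair n → ℝ) × (Pair n → ℝ) =>
      (∑ p, z.2 p * corr b z.1 p) ^ 2) := by
    refine (continuous_finsetSum _ fun p _ => Continuous.mul (by fun_prop) ?_).pow 2
    exact (continuous_corr b p).comp (by fun_prop)
  refine (integrable_exp_snd (n := n) 2).mono' hc.aestronglyMeasurable
    (Eventually.of_forall fun z => ?_)
  rw [Real.norm_eq_abs, abs_pow, two_mul, Real.exp_add, ← sq]
  exact pow_le_pow_left₀ (abs_nonneg _) (abs_lin_le _ _ fun p => abs_corr_le _ _ _) 2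

lemma integral_lin_sq_le (hn : 1 ≤ n) (b : ℝ) :
    ∫ z : (Pair n → ℝ) × (Pair n → ℝ), (∑ p, z.2 p * corr b z.1 p) ^ 2
      ∂((disorder n).prod (disorder n)) ≤ n ^ 2 / 2 := by
  rw [integral_prod _ (integrable_lin_sq b)]
  have h1 : ∀ g : Pair n → ℝ, ∫ y, (∑ p, y p * corr b g p) ^ 2 ∂(disorder n) ≤ n ^ 2 / 2 := by
    intro g
    rw [disorder_eq, integral_linear_sq]
    exact sum_corr_sq_le hn b g
  calc ∫ g, ∫ y, (∑ p, y p * corr b g p) ^ 2 ∂(disorder n) ∂(disorder n)
      ≤ ∫ _g : Pair n → ℝ, ((n : ℝ) ^ 2 / 2) ∂(disorder n) :=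
        integral_mono_of_nonneg (Eventually.of_forall fun g =>
          integral_nonneg fun y => sq_nonneg _) (integrable_const _)
          (Eventually.of_forall h1)
    _ = n ^ 2 / 2 := by simp

lemma integrable_rotY (s b : ℝ) :
    Integrable (fun z : (Pair n → ℝ) × (Pair n → ℝ) => ∑ p, rotY s z p * corr b (rotG s z) p)
      ((disorder n).prod (disorder n)) :=
  (measurePreserving_rot (n := n) s).integrable_comp_of_integrable (integrable_lin b)

lemma integrable_rotY_sq (s b : ℝ) :
    Integrable (fun z : (Pair n → ℝ) × (Pair n → ℝ) =>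
      (∑ p, rotY s z p * corr b (rotG s z) p) ^ 2) ((disorder n).prod (disorder n)) :=
  (measurePreserving_rot (n := n) s).integrable_comp_of_integrable (integrable_lin_sq b)

lemma integral_rotY_sq_le (hn : 1 ≤ n) (s b : ℝ) :
    ∫ z : (Pair n → ℝ) × (Pair n → ℝ), (∑ p, rotY s z p * corr b (rotG s z) p) ^ 2
      ∂((disorder n).prod (disorder n)) ≤ n ^ 2 / 2 := by
  refine le_trans (le_of_eq ?_) (integral_lin_sq_le (n := n) hn b)
  have hmp := measurePreserving_rot (n := n) s
  conv_rhs => rw [← hmp.map_eq]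
  rw [integral_map hmp.measurable.aemeasurable]
  rw [hmp.map_eq]
  exact (integrable_lin_sq b).aestronglyMeasurable

/-- the contribution of the independent part -/
lemma integral_rotY_le (hn : 1 ≤ n) (s b : ℝ) {A : Set (Pair n → ℝ)} (hA : MeasurableSet A) :
    ∫ z in A ×ˢ Set.univ, (∑ p, rotY s z p * corr b (rotG s z) p)
      ∂((disorder n).prod (disorder n)) ≤
        n * Real.sqrt ((disorder n).real A) / Real.sqrt 2 := by
  have hn0 : (0 : ℝ) < n := by exact_mod_cast hn
  set X : (Pair n → ℝ) × (Pair n → ℝ) → ℝ :=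
    fun z => ∑ p, rotY s z p * corr b (rotG s z) p with hX
  set ν := (disorder n).prod (disorder n) with hν
  have hreal : ν.real (A ×ˢ Set.univ) = (disorder n).real A := by
    rw [hν, measureReal_prod_prod]
    simp
  have hmA : MeasurableSet (A ×ˢ (Set.univ : Set (Pair n → ℝ))) := hA.prod MeasurableSet.univ
  set P := (disorder n).real A with hP
  have hP0 : 0 ≤ P := measureReal_nonneg
  have hXi : Integrable X ν := integrable_rotY s b
  have hXi2 : Integrable (fun z => X z ^ 2) ν := integrable_rotY_sq s b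
  have hV : ∫ z, X z ^ 2 ∂ν ≤ n ^ 2 / 2 := integral_rotY_sq_le hn s b
  rcases hP0.eq_or_lt with h0 | h0
  · have h1 : ν (A ×ˢ Set.univ) = 0 := by
      rw [← h0] at hreal
      exact (measureReal_eq_zero_iff (by finiteness)).1 hreal
    rw [Measure.restrict_eq_zero.2 h1, integral_zero_measure]
    positivity
  · set t : ℝ := n / (Real.sqrt 2 * Real.sqrt P) with ht
    have hsP : 0 < Real.sqrt P := Real.sqrt_pos.2 h0
    have ht0 : 0 < t := by positivity
    have h1 : ∫ z in A ×ˢ Set.univ, X z ∂ν ≤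
        ∫ z in A ×ˢ Set.univ, (t / 2 + X z ^ 2 / (2 * t)) ∂ν := by
      refine setIntegral_mono_on hXi.integrableOn
        ((integrable_const _).add (hXi2.div_const _)).integrableOn hmA fun z _ => ?_
      have h2 : t / 2 + X z ^ 2 / (2 * t) - X z = (t - X z) ^ 2 / (2 * t) := by
        field_simp
        ring
      have h3 : 0 ≤ (t - X z) ^ 2 / (2 * t) := by positivity
      linarith
    have h2 : ∫ z in A ×ˢ Set.univ, (t / 2 + X z ^ 2 / (2 * t)) ∂ν =
        P * (t / 2) + (∫ z in A ×ˢ Set.univ, X z ^ 2 ∂ν) / (2 * t) := by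
      rw [integral_add (integrable_const _) (hXi2.div_const _).integrableOn, setIntegral_const,
        hreal, smul_eq_mul, integral_div]
    have h3 : ∫ z in A ×ˢ Set.univ, X z ^ 2 ∂ν ≤ n ^ 2 / 2 :=
      (setIntegral_le_integral hXi2 (Eventually.of_forall fun z => sq_nonneg _)).trans hV
    have h4 : (∫ z in A ×ˢ Set.univ, X z ^ 2 ∂ν) / (2 * t) ≤ (n ^ 2 / 2) / (2 * t) :=
      div_le_div_of_nonneg_right h3 (by positivity)
    have h5 : P * (t / 2) + (n ^ 2 / 2) / (2 * t) = n * Real.sqrt P / Real.sqrt 2 := by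
      rw [ht]
      have e1 : Real.sqrt P ^ 2 = P := Real.sq_sqrt hP0
      have e2 : Real.sqrt 2 ^ 2 = 2 := Real.sq_sqrt (by norm_num)
      have e3 : Real.sqrt 2 ≠ 0 := by positivity
      nth_rewrite 1 [← e1]
      field_simp
      rw [e2]
      ring
    linarith

/-- Main inequality: Gaussian integration by parts for the energy of the perturbed disorder. -/
lemma main_ineq (hn : 1 ≤ n) {β κ : ℝ} (hβ : 0 < β) (hκ : 0 < κ) {A : Set (Pair n → ℝ)}
    (hA : MeasurableSet A) :
    β / 2 * ∫ g in A, ∫ ξ, (1 - ovlSq β (fun q => g q + Real.sqrt (κ / n) * ξ q)) ∂(disorder n)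
      ∂(disorder n) ≤
    ∫ z in A ×ˢ Set.univ, energy (β * Real.sqrt (1 + κ / n)) (rotG (κ / n) z)
      ∂((disorder n).prod (disorder n)) + Real.sqrt ((disorder n).real A) / Real.sqrt (2 * κ) := by
  have hn0 : (0 : ℝ) < n := by exact_mod_cast hn
  set s : ℝ := κ / n with hs
  have hs0 : 0 < s := by positivity
  set ν := (disorder n).prod (disorder n) with hν
  set b : ℝ := β * Real.sqrt (1 + s) with hb
  set J : ℝ := ∫ g in A, ∫ ξ, (1 - ovlSq β (fun q => g q + Real.sqrt s * ξ q)) ∂(disorder n)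
      ∂(disorder n) with hJ
  have hJ0 : 0 ≤ J := integral_nonneg fun g => integral_nonneg fun ξ =>
    sub_nonneg.2 (ovlSq_le_one _ _)
  have hI1 : Integrable (fun z : (Pair n → ℝ) × (Pair n → ℝ) =>
      ∑ p, z.2 p * corr β (fun q => z.1 q + Real.sqrt s * z.2 q) p) ν := integrable_xi β
  have hI2 := integrable_rotY (n := n) s b
  have h1 : ∫ z in A ×ˢ Set.univ,
      (∑ p, z.2 p * corr β (fun q => z.1 q + Real.sqrt s * z.2 q) p) ∂ν =
      Real.sqrt s * (β / Real.sqrt n) * (n ^ 2 / 2) * J := by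
    rw [hν, setIntegral_prod _ hI1.integrableOn, hJ, ← integral_const_mul]
    refine setIntegral_congr_fun hA fun g _ => ?_
    simp only [Measure.restrict_univ]
    exact stein_corr hn β (Real.sqrt s) g
  have h2 := integral_rotY_le (n := n) hn s b hA
  have h3 : Real.sqrt s * ((n * Real.sqrt n) *
      ∫ z in A ×ˢ Set.univ, energy b (rotG s z) ∂ν) =
      Real.sqrt (1 + s) * ∫ z in A ×ˢ Set.univ,
        (∑ p, z.2 p * corr β (fun q => z.1 q + Real.sqrt s * z.2 q) p) ∂ν -
      ∫ z in A ×ˢ Set.univ, (∑ p, rotY s z p * corr b (rotG s z) p) ∂ν := by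
    rw [← integral_const_mul, ← integral_const_mul, ← integral_const_mul, ← integral_sub]
    · congr 1
      ext z
      exact energy_pert hn hs0 β z
    · exact (hI1.const_mul _).integrableOn
    · exact hI2.integrableOn
  rw [h1] at h3
  set T := ∫ z in A ×ˢ Set.univ, energy b (rotG s z) ∂ν with hT
  set P := (disorder n).real A with hP
  have hsn : Real.sqrt n ^ 2 = n := Real.sq_sqrt hn0.le
  have hss : Real.sqrt s ^ 2 = s := Real.sq_sqrt hs0.le
  have hsn0 : 0 < Real.sqrt n := Real.sqrt_pos.2 hn0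
  have hss0 : 0 < Real.sqrt s := Real.sqrt_pos.2 hs0
  have h1s : 1 ≤ Real.sqrt (1 + s) := Real.one_le_sqrt.2 (by linarith)
  have hκs : Real.sqrt s * Real.sqrt n = Real.sqrt κ := by
    rw [← Real.sqrt_mul hs0.le, hs, div_mul_cancel₀ _ hn0.ne']
  have h2κ : Real.sqrt (2 * κ) = Real.sqrt 2 * Real.sqrt κ := Real.sqrt_mul (by norm_num) _
  have hκ0 : 0 < Real.sqrt κ := Real.sqrt_pos.2 hκ
  have h20 : 0 < Real.sqrt 2 := by positivity
  have h4 : Real.sqrt s * ((n * Real.sqrt n) * T) ≥
      Real.sqrt s * (β / Real.sqrt n) * (n ^ 2 / 2) * J -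
        n * Real.sqrt P / Real.sqrt 2 := by
    have h5 : 0 ≤ Real.sqrt s * (β / Real.sqrt n) * (n ^ 2 / 2) * J := by positivity
    nlinarith [mul_nonneg (sub_nonneg.2 h1s) h5]
  have h6 : Real.sqrt s * (β / Real.sqrt n) * (n ^ 2 / 2) * J =
      (Real.sqrt s * (n * Real.sqrt n)) * (β / 2 * J) := by
    have : (n : ℝ) ^ 2 = n * Real.sqrt n ^ 2 := by rw [hsn]; ring
    rw [this]
    field_simp
  have h7 : n * Real.sqrt P / Real.sqrt 2 =
      (Real.sqrt s * (n * Real.sqrt n)) * (Real.sqrt P / Real.sqrt (2 * κ)) := by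
    rw [h2κ, ← hκs]
    field_simp
  rw [h6, h7, ← mul_sub, ← mul_assoc] at h4
  have h8 : 0 < Real.sqrt s * (n * Real.sqrt n) := by positivity
  have h9 := le_of_mul_le_mul_left h4 h8
  linarith

end Vale.Agent.P150.Slow.Tg
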